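import Vale.Agent.P359.Gap.Cert.Data.BlockM
import Vale.Agent.P359.Gap.Cert.Data.BlockZ
import Vale.Agent.P359.Gap.Cert.Data.BlockP
import Vale.Agent.P359.Gap.Cert.Data.Holes

/-!
# P359 gap certificate data: all pairs
-/

namespace Vale.Agent.P359.Gap.Cert

open Nat

/-- The rows of two particle pairs of a block. -/
def rowsTwo (st : List X2) (W : List (List ℤ)) : List (List (ℤ × X2 × X2)) :=
  (st.zip W).map fun x => (st.zip x.2).map fun y =>
    (y.2, (x.1.1, x.1.2.1, y.1.2.2), (y.1.1, x.1.2.2, y.1.2.1))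

/-- The rows of one particle pairs of a block. -/
def rowsOne (st : List X2) (W : List (List ℤ)) (c : List ℤ) : List (List (ℤ × X1 × X1)) :=
  ((st.zip W).map fun x => (st.zip x.2).flatMap fun y =>
    if x.1.2.2 = y.1.2.2 then
      [(y.2 * ((x.1.2.2 ! : ℕ) : ℤ), (x.1.1, x.1.2.1), (y.1.1, y.1.2.1))]
    else []) ++
  [(st.zip c).map fun x => (2 * x.2, (x.1.1, x.1.2.1), (0, x.1.2.2))]

/-- All one particle pairs, with common scale, in chunks. -/
def all1 : List (List (ℤ × X1 × X1)) :=
  (rowsOne stM gramM crossM ++ (rowsOne stZ gramZ crossZ ++ rowsOne stP gramP crossP)).map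
      (scale (Int.ofNat (2 ^ 112))) ++ holes.map fun p => pairsHole p.1 p.2

/-- All two particle pairs, in chunks. -/
def all2 : List (List (ℤ × X2 × X2)) :=
  rowsTwo stM gramM ++ (rowsTwo stZ gramZ ++ rowsTwo stP gramP)

/-- The constant. -/
def allConst : ℤ :=
  Int.ofNat (2 ^ 112) * (sqM + sqZ + sqP) + (holes.map fun p => holeConst p.1 p.2).sum

end Vale.Agent.P359.Gap.Cert
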