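import Vale.Agent.P359.Gap.Cert.Expand

/-!
# P359 gap certificate data: two particle table, degree 0
-/

namespace Vale.Agent.P359.Gap.Cert

/-- Rows. -/
def tab0_0_0 : List (List ℤ) := [[1],[1],[1],[1],[1],[1],[1],[1],[1],[1],[1]]

/-- Rows. -/
def tab0_0_1 : List (List ℤ) := [[1],[1],[1],[1],[1],[1],[1],[1],[1],[1],[1]]

/-- Rows. -/
def tab0_0_2 : List (List ℤ) := [[1],[1],[1],[1],[1],[1],[1],[1],[1],[1],[1]]

/-- Rows. -/
def tab0_0_3 : List (List ℤ) := [[1],[1],[1],[1],[1],[1],[1],[1],[1],[1],[1]]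

/-- Rows. -/
def tab0_0_4 : List (List ℤ) := [[1],[1],[1],[1],[1],[1],[1],[1],[1],[1],[1]]

/-- Rows. -/
def tab0_0_5 : List (List ℤ) := [[1],[1],[1],[1],[1],[1],[1],[1],[1],[1],[1]]

/-- Rows. -/
def tab0_0_6 : List (List ℤ) := [[1],[1],[1],[1],[1],[1],[1],[1],[1],[1],[1]]

/-- Rows. -/
def tab0_0_7 : List (List ℤ) := [[1],[1],[1],[1],[1],[1],[1],[1],[1],[1],[1]]

/-- Rows. -/
def tab0_0_8 : List (List ℤ) := [[1],[1],[1],[1],[1],[1],[1],[1],[1],[1],[1]]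

/-- Rows. -/
def tab0_0_9 : List (List ℤ) := [[1],[1],[1],[1],[1],[1],[1],[1],[1],[1],[1]]

/-- Rows. -/
def tab0_0_10 : List (List ℤ) := [[1],[1],[1],[1],[1],[1],[1],[1],[1],[1],[1]]

/-- Rows. -/
def tab0_0 : List (List (List ℤ)) := [tab0_0_0,tab0_0_1,tab0_0_2,tab0_0_3,tab0_0_4,tab0_0_5,tab0_0_6,tab0_0_7,tab0_0_8,tab0_0_9,tab0_0_10]

/-- Rows. -/
def tab0_1_0 : List (List ℤ) := [[2],[2],[2],[2],[2],[2],[2],[2],[2],[2],[2]]

/-- Rows. -/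
def tab0_1_1 : List (List ℤ) := [[2],[2],[2],[2],[2],[2],[2],[2],[2],[2],[2]]

/-- Rows. -/
def tab0_1_2 : List (List ℤ) := [[2],[2],[2],[2],[2],[2],[2],[2],[2],[2],[2]]

/-- Rows. -/
def tab0_1_3 : List (List ℤ) := [[2],[2],[2],[2],[2],[2],[2],[2],[2],[2],[2]]

/-- Rows. -/
def tab0_1_4 : List (List ℤ) := [[2],[2],[2],[2],[2],[2],[2],[2],[2],[2],[2]]

/-- Rows. -/
def tab0_1_5 : List (List ℤ) := [[2],[2],[2],[2],[2],[2],[2],[2],[2],[2],[2]]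

/-- Rows. -/
def tab0_1_6 : List (List ℤ) := [[2],[2],[2],[2],[2],[2],[2],[2],[2],[2],[2]]

/-- Rows. -/
def tab0_1_7 : List (List ℤ) := [[2],[2],[2],[2],[2],[2],[2],[2],[2],[2],[2]]

/-- Rows. -/
def tab0_1_8 : List (List ℤ) := [[2],[2],[2],[2],[2],[2],[2],[2],[2],[2],[2]]

/-- Rows. -/
def tab0_1_9 : List (List ℤ) := [[2],[2],[2],[2],[2],[2],[2],[2],[2],[2],[2]]

/-- Rows. -/
def tab0_1_10 : List (List ℤ) := [[2],[2],[2],[2],[2],[2],[2],[2],[2],[2],[2]]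

/-- Rows. -/
def tab0_1 : List (List (List ℤ)) := [tab0_1_0,tab0_1_1,tab0_1_2,tab0_1_3,tab0_1_4,tab0_1_5,tab0_1_6,tab0_1_7,tab0_1_8,tab0_1_9,tab0_1_10]

/-- Rows. -/
def tab0_2_0 : List (List ℤ) := [[4],[4],[4],[4],[4],[4],[4],[4],[4],[4],[4]]

/-- Rows. -/
def tab0_2_1 : List (List ℤ) := [[4],[4],[4],[4],[4],[4],[4],[4],[4],[4],[4]]

/-- Rows. -/
def tab0_2_2 : List (List ℤ) := [[4],[4],[4],[4],[4],[4],[4],[4],[4],[4],[4]]

/-- Rows. -/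
def tab0_2_3 : List (List ℤ) := [[4],[4],[4],[4],[4],[4],[4],[4],[4],[4],[4]]

/-- Rows. -/
def tab0_2_4 : List (List ℤ) := [[4],[4],[4],[4],[4],[4],[4],[4],[4],[4],[4]]

/-- Rows. -/
def tab0_2_5 : List (List ℤ) := [[4],[4],[4],[4],[4],[4],[4],[4],[4],[4],[4]]

/-- Rows. -/
def tab0_2_6 : List (List ℤ) := [[4],[4],[4],[4],[4],[4],[4],[4],[4],[4],[4]]

/-- Rows. -/
def tab0_2_7 : List (List ℤ) := [[4],[4],[4],[4],[4],[4],[4],[4],[4],[4],[4]]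

/-- Rows. -/
def tab0_2_8 : List (List ℤ) := [[4],[4],[4],[4],[4],[4],[4],[4],[4],[4],[4]]

/-- Rows. -/
def tab0_2_9 : List (List ℤ) := [[4],[4],[4],[4],[4],[4],[4],[4],[4],[4],[4]]

/-- Rows. -/
def tab0_2_10 : List (List ℤ) := [[4],[4],[4],[4],[4],[4],[4],[4],[4],[4],[4]]

/-- Rows. -/
def tab0_2 : List (List (List ℤ)) := [tab0_2_0,tab0_2_1,tab0_2_2,tab0_2_3,tab0_2_4,tab0_2_5,tab0_2_6,tab0_2_7,tab0_2_8,tab0_2_9,tab0_2_10]

/-- Rows. -/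
def tab0_3_0 : List (List ℤ) := [[8],[8],[8],[8],[8],[8],[8],[8],[8],[8],[8]]

/-- Rows. -/
def tab0_3_1 : List (List ℤ) := [[8],[8],[8],[8],[8],[8],[8],[8],[8],[8],[8]]

/-- Rows. -/
def tab0_3_2 : List (List ℤ) := [[8],[8],[8],[8],[8],[8],[8],[8],[8],[8],[8]]

/-- Rows. -/
def tab0_3_3 : List (List ℤ) := [[8],[8],[8],[8],[8],[8],[8],[8],[8],[8],[8]]

/-- Rows. -/
def tab0_3_4 : List (List ℤ) := [[8],[8],[8],[8],[8],[8],[8],[8],[8],[8],[8]]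

/-- Rows. -/
def tab0_3_5 : List (List ℤ) := [[8],[8],[8],[8],[8],[8],[8],[8],[8],[8],[8]]

/-- Rows. -/
def tab0_3_6 : List (List ℤ) := [[8],[8],[8],[8],[8],[8],[8],[8],[8],[8],[8]]

/-- Rows. -/
def tab0_3_7 : List (List ℤ) := [[8],[8],[8],[8],[8],[8],[8],[8],[8],[8],[8]]

/-- Rows. -/
def tab0_3_8 : List (List ℤ) := [[8],[8],[8],[8],[8],[8],[8],[8],[8],[8],[8]]

/-- Rows. -/
def tab0_3_9 : List (List ℤ) := [[8],[8],[8],[8],[8],[8],[8],[8],[8],[8],[8]]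

/-- Rows. -/
def tab0_3_10 : List (List ℤ) := [[8],[8],[8],[8],[8],[8],[8],[8],[8],[8],[8]]

/-- Rows. -/
def tab0_3 : List (List (List ℤ)) := [tab0_3_0,tab0_3_1,tab0_3_2,tab0_3_3,tab0_3_4,tab0_3_5,tab0_3_6,tab0_3_7,tab0_3_8,tab0_3_9,tab0_3_10]

/-- Rows. -/
def tab0_4_0 : List (List ℤ) := [[16],[16],[16],[16],[16],[16],[16],[16],[16],[16],[16]]

/-- Rows. -/
def tab0_4_1 : List (List ℤ) := [[16],[16],[16],[16],[16],[16],[16],[16],[16],[16],[16]]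

/-- Rows. -/
def tab0_4_2 : List (List ℤ) := [[16],[16],[16],[16],[16],[16],[16],[16],[16],[16],[16]]

/-- Rows. -/
def tab0_4_3 : List (List ℤ) := [[16],[16],[16],[16],[16],[16],[16],[16],[16],[16],[16]]

/-- Rows. -/
def tab0_4_4 : List (List ℤ) := [[16],[16],[16],[16],[16],[16],[16],[16],[16],[16],[16]]

/-- Rows. -/
def tab0_4_5 : List (List ℤ) := [[16],[16],[16],[16],[16],[16],[16],[16],[16],[16],[16]]

/-- Rows. -/
def tab0_4_6 : List (List ℤ) := [[16],[16],[16],[16],[16],[16],[16],[16],[16],[16],[16]]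

/-- Rows. -/
def tab0_4_7 : List (List ℤ) := [[16],[16],[16],[16],[16],[16],[16],[16],[16],[16],[16]]

/-- Rows. -/
def tab0_4_8 : List (List ℤ) := [[16],[16],[16],[16],[16],[16],[16],[16],[16],[16],[16]]

/-- Rows. -/
def tab0_4_9 : List (List ℤ) := [[16],[16],[16],[16],[16],[16],[16],[16],[16],[16],[16]]

/-- Rows. -/
def tab0_4_10 : List (List ℤ) := [[16],[16],[16],[16],[16],[16],[16],[16],[16],[16],[16]]

/-- Rows. -/
def tab0_4 : List (List (List ℤ)) := [tab0_4_0,tab0_4_1,tab0_4_2,tab0_4_3,tab0_4_4,tab0_4_5,tab0_4_6,tab0_4_7,tab0_4_8,tab0_4_9,tab0_4_10]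

/-- Rows. -/
def tab0_5_0 : List (List ℤ) := [[32],[32],[32],[32],[32],[32],[32],[32],[32],[32],[32]]

/-- Rows. -/
def tab0_5_1 : List (List ℤ) := [[32],[32],[32],[32],[32],[32],[32],[32],[32],[32],[32]]

/-- Rows. -/
def tab0_5_2 : List (List ℤ) := [[32],[32],[32],[32],[32],[32],[32],[32],[32],[32],[32]]

/-- Rows. -/
def tab0_5_3 : List (List ℤ) := [[32],[32],[32],[32],[32],[32],[32],[32],[32],[32],[32]]

/-- Rows. -/
def tab0_5_4 : List (List ℤ) := [[32],[32],[32],[32],[32],[32],[32],[32],[32],[32],[32]]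

/-- Rows. -/
def tab0_5_5 : List (List ℤ) := [[32],[32],[32],[32],[32],[32],[32],[32],[32],[32],[32]]

/-- Rows. -/
def tab0_5_6 : List (List ℤ) := [[32],[32],[32],[32],[32],[32],[32],[32],[32],[32],[32]]

/-- Rows. -/
def tab0_5_7 : List (List ℤ) := [[32],[32],[32],[32],[32],[32],[32],[32],[32],[32],[32]]

/-- Rows. -/
def tab0_5_8 : List (List ℤ) := [[32],[32],[32],[32],[32],[32],[32],[32],[32],[32],[32]]

/-- Rows. -/
def tab0_5_9 : List (List ℤ) := [[32],[32],[32],[32],[32],[32],[32],[32],[32],[32],[32]]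

/-- Rows. -/
def tab0_5_10 : List (List ℤ) := [[32],[32],[32],[32],[32],[32],[32],[32],[32],[32],[32]]

/-- Rows. -/
def tab0_5 : List (List (List ℤ)) := [tab0_5_0,tab0_5_1,tab0_5_2,tab0_5_3,tab0_5_4,tab0_5_5,tab0_5_6,tab0_5_7,tab0_5_8,tab0_5_9,tab0_5_10]

/-- Rows. -/
def tab0_6_0 : List (List ℤ) := [[64],[64],[64],[64],[64],[64],[64],[64],[64],[64],[64]]

/-- Rows. -/
def tab0_6_1 : List (List ℤ) := [[64],[64],[64],[64],[64],[64],[64],[64],[64],[64],[64]]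

/-- Rows. -/
def tab0_6_2 : List (List ℤ) := [[64],[64],[64],[64],[64],[64],[64],[64],[64],[64],[64]]

/-- Rows. -/
def tab0_6_3 : List (List ℤ) := [[64],[64],[64],[64],[64],[64],[64],[64],[64],[64],[64]]

/-- Rows. -/
def tab0_6_4 : List (List ℤ) := [[64],[64],[64],[64],[64],[64],[64],[64],[64],[64],[64]]

/-- Rows. -/
def tab0_6_5 : List (List ℤ) := [[64],[64],[64],[64],[64],[64],[64],[64],[64],[64],[64]]

/-- Rows. -/
def tab0_6_6 : List (List ℤ) := [[64],[64],[64],[64],[64],[64],[64],[64],[64],[64],[64]]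

/-- Rows. -/
def tab0_6_7 : List (List ℤ) := [[64],[64],[64],[64],[64],[64],[64],[64],[64],[64],[64]]

/-- Rows. -/
def tab0_6_8 : List (List ℤ) := [[64],[64],[64],[64],[64],[64],[64],[64],[64],[64],[64]]

/-- Rows. -/
def tab0_6_9 : List (List ℤ) := [[64],[64],[64],[64],[64],[64],[64],[64],[64],[64],[64]]

/-- Rows. -/
def tab0_6_10 : List (List ℤ) := [[64],[64],[64],[64],[64],[64],[64],[64],[64],[64],[64]]

/-- Rows. -/
def tab0_6 : List (List (List ℤ)) := [tab0_6_0,tab0_6_1,tab0_6_2,tab0_6_3,tab0_6_4,tab0_6_5,tab0_6_6,tab0_6_7,tab0_6_8,tab0_6_9,tab0_6_10]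

/-- The table of degree 0. -/
def table0 : Tab2 := [tab0_0,tab0_1,tab0_2,tab0_3,tab0_4,tab0_5,tab0_6]


lemma table0_check : check2 7 11 0 [] table0 = true := by decide +kernel

end Vale.Agent.P359.Gap.Cert
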