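import Vale.Agent.P359.Gap.Cert.Expand

/-!
# P359 gap certificate data: two particle table, degree 1
-/

namespace Vale.Agent.P359.Gap.Cert

/-- Rows. -/
def tab1_0_0 : List (List ℤ) := [[],[-1,-2],[-2,-4],[-3,-6],[-4,-8],[-5,-10],[-6,-12],[-7,-14],[-8,-16],[-9,-18],[-10,-20]]

/-- Rows. -/
def tab1_0_1 : List (List ℤ) := [[-1,2],[-2,0],[-3,-2],[-4,-4],[-5,-6],[-6,-8],[-7,-10],[-8,-12],[-9,-14],[-10,-16],[-11,-18]]

/-- Rows. -/
def tab1_0_2 : List (List ℤ) := [[-2,4],[-3,2],[-4,0],[-5,-2],[-6,-4],[-7,-6],[-8,-8],[-9,-10],[-10,-12],[-11,-14],[-12,-16]]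

/-- Rows. -/
def tab1_0_3 : List (List ℤ) := [[-3,6],[-4,4],[-5,2],[-6,0],[-7,-2],[-8,-4],[-9,-6],[-10,-8],[-11,-10],[-12,-12],[-13,-14]]

/-- Rows. -/
def tab1_0_4 : List (List ℤ) := [[-4,8],[-5,6],[-6,4],[-7,2],[-8,0],[-9,-2],[-10,-4],[-11,-6],[-12,-8],[-13,-10],[-14,-12]]

/-- Rows. -/
def tab1_0_5 : List (List ℤ) := [[-5,10],[-6,8],[-7,6],[-8,4],[-9,2],[-10,0],[-11,-2],[-12,-4],[-13,-6],[-14,-8],[-15,-10]]

/-- Rows. -/
def tab1_0_6 : List (List ℤ) := [[-6,12],[-7,10],[-8,8],[-9,6],[-10,4],[-11,2],[-12,0],[-13,-2],[-14,-4],[-15,-6],[-16,-8]]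

/-- Rows. -/
def tab1_0_7 : List (List ℤ) := [[-7,14],[-8,12],[-9,10],[-10,8],[-11,6],[-12,4],[-13,2],[-14,0],[-15,-2],[-16,-4],[-17,-6]]

/-- Rows. -/
def tab1_0_8 : List (List ℤ) := [[-8,16],[-9,14],[-10,12],[-11,10],[-12,8],[-13,6],[-14,4],[-15,2],[-16,0],[-17,-2],[-18,-4]]

/-- Rows. -/
def tab1_0_9 : List (List ℤ) := [[-9,18],[-10,16],[-11,14],[-12,12],[-13,10],[-14,8],[-15,6],[-16,4],[-17,2],[-18,0],[-19,-2]]

/-- Rows. -/
def tab1_0_10 : List (List ℤ) := [[-10,20],[-11,18],[-12,16],[-13,14],[-14,12],[-15,10],[-16,8],[-17,6],[-18,4],[-19,2],[-20,0]]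

/-- Rows. -/
def tab1_0 : List (List (List ℤ)) := [tab1_0_0,tab1_0_1,tab1_0_2,tab1_0_3,tab1_0_4,tab1_0_5,tab1_0_6,tab1_0_7,tab1_0_8,tab1_0_9,tab1_0_10]

/-- Rows. -/
def tab1_1_0 : List (List ℤ) := [[2,0],[0,-4],[-2,-8],[-4,-12],[-6,-16],[-8,-20],[-10,-24],[-12,-28],[-14,-32],[-16,-36],[-18,-40]]

/-- Rows. -/
def tab1_1_1 : List (List ℤ) := [[0,4],[-2,0],[-4,-4],[-6,-8],[-8,-12],[-10,-16],[-12,-20],[-14,-24],[-16,-28],[-18,-32],[-20,-36]]

/-- Rows. -/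
def tab1_1_2 : List (List ℤ) := [[-2,8],[-4,4],[-6,0],[-8,-4],[-10,-8],[-12,-12],[-14,-16],[-16,-20],[-18,-24],[-20,-28],[-22,-32]]

/-- Rows. -/
def tab1_1_3 : List (List ℤ) := [[-4,12],[-6,8],[-8,4],[-10,0],[-12,-4],[-14,-8],[-16,-12],[-18,-16],[-20,-20],[-22,-24],[-24,-28]]

/-- Rows. -/
def tab1_1_4 : List (List ℤ) := [[-6,16],[-8,12],[-10,8],[-12,4],[-14,0],[-16,-4],[-18,-8],[-20,-12],[-22,-16],[-24,-20],[-26,-24]]

/-- Rows. -/
def tab1_1_5 : List (List ℤ) := [[-8,20],[-10,16],[-12,12],[-14,8],[-16,4],[-18,0],[-20,-4],[-22,-8],[-24,-12],[-26,-16],[-28,-20]]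

/-- Rows. -/
def tab1_1_6 : List (List ℤ) := [[-10,24],[-12,20],[-14,16],[-16,12],[-18,8],[-20,4],[-22,0],[-24,-4],[-26,-8],[-28,-12],[-30,-16]]

/-- Rows. -/
def tab1_1_7 : List (List ℤ) := [[-12,28],[-14,24],[-16,20],[-18,16],[-20,12],[-22,8],[-24,4],[-26,0],[-28,-4],[-30,-8],[-32,-12]]

/-- Rows. -/
def tab1_1_8 : List (List ℤ) := [[-14,32],[-16,28],[-18,24],[-20,20],[-22,16],[-24,12],[-26,8],[-28,4],[-30,0],[-32,-4],[-34,-8]]

/-- Rows. -/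
def tab1_1_9 : List (List ℤ) := [[-16,36],[-18,32],[-20,28],[-22,24],[-24,20],[-26,16],[-28,12],[-30,8],[-32,4],[-34,0],[-36,-4]]

/-- Rows. -/
def tab1_1_10 : List (List ℤ) := [[-18,40],[-20,36],[-22,32],[-24,28],[-26,24],[-28,20],[-30,16],[-32,12],[-34,8],[-36,4],[-38,0]]

/-- Rows. -/
def tab1_1 : List (List (List ℤ)) := [tab1_1_0,tab1_1_1,tab1_1_2,tab1_1_3,tab1_1_4,tab1_1_5,tab1_1_6,tab1_1_7,tab1_1_8,tab1_1_9,tab1_1_10]

/-- Rows. -/
def tab1_2_0 : List (List ℤ) := [[8,0],[4,-8],[0,-16],[-4,-24],[-8,-32],[-12,-40],[-16,-48],[-20,-56],[-24,-64],[-28,-72],[-32,-80]]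

/-- Rows. -/
def tab1_2_1 : List (List ℤ) := [[4,8],[0,0],[-4,-8],[-8,-16],[-12,-24],[-16,-32],[-20,-40],[-24,-48],[-28,-56],[-32,-64],[-36,-72]]

/-- Rows. -/
def tab1_2_2 : List (List ℤ) := [[0,16],[-4,8],[-8,0],[-12,-8],[-16,-16],[-20,-24],[-24,-32],[-28,-40],[-32,-48],[-36,-56],[-40,-64]]

/-- Rows. -/
def tab1_2_3 : List (List ℤ) := [[-4,24],[-8,16],[-12,8],[-16,0],[-20,-8],[-24,-16],[-28,-24],[-32,-32],[-36,-40],[-40,-48],[-44,-56]]

/-- Rows. -/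
def tab1_2_4 : List (List ℤ) := [[-8,32],[-12,24],[-16,16],[-20,8],[-24,0],[-28,-8],[-32,-16],[-36,-24],[-40,-32],[-44,-40],[-48,-48]]

/-- Rows. -/
def tab1_2_5 : List (List ℤ) := [[-12,40],[-16,32],[-20,24],[-24,16],[-28,8],[-32,0],[-36,-8],[-40,-16],[-44,-24],[-48,-32],[-52,-40]]

/-- Rows. -/
def tab1_2_6 : List (List ℤ) := [[-16,48],[-20,40],[-24,32],[-28,24],[-32,16],[-36,8],[-40,0],[-44,-8],[-48,-16],[-52,-24],[-56,-32]]

/-- Rows. -/
def tab1_2_7 : List (List ℤ) := [[-20,56],[-24,48],[-28,40],[-32,32],[-36,24],[-40,16],[-44,8],[-48,0],[-52,-8],[-56,-16],[-60,-24]]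

/-- Rows. -/
def tab1_2_8 : List (List ℤ) := [[-24,64],[-28,56],[-32,48],[-36,40],[-40,32],[-44,24],[-48,16],[-52,8],[-56,0],[-60,-8],[-64,-16]]

/-- Rows. -/
def tab1_2_9 : List (List ℤ) := [[-28,72],[-32,64],[-36,56],[-40,48],[-44,40],[-48,32],[-52,24],[-56,16],[-60,8],[-64,0],[-68,-8]]

/-- Rows. -/
def tab1_2_10 : List (List ℤ) := [[-32,80],[-36,72],[-40,64],[-44,56],[-48,48],[-52,40],[-56,32],[-60,24],[-64,16],[-68,8],[-72,0]]

/-- Rows. -/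
def tab1_2 : List (List (List ℤ)) := [tab1_2_0,tab1_2_1,tab1_2_2,tab1_2_3,tab1_2_4,tab1_2_5,tab1_2_6,tab1_2_7,tab1_2_8,tab1_2_9,tab1_2_10]

/-- Rows. -/
def tab1_3_0 : List (List ℤ) := [[24,0],[16,-16],[8,-32],[0,-48],[-8,-64],[-16,-80],[-24,-96],[-32,-112],[-40,-128],[-48,-144],[-56,-160]]

/-- Rows. -/
def tab1_3_1 : List (List ℤ) := [[16,16],[8,0],[0,-16],[-8,-32],[-16,-48],[-24,-64],[-32,-80],[-40,-96],[-48,-112],[-56,-128],[-64,-144]]

/-- Rows. -/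
def tab1_3_2 : List (List ℤ) := [[8,32],[0,16],[-8,0],[-16,-16],[-24,-32],[-32,-48],[-40,-64],[-48,-80],[-56,-96],[-64,-112],[-72,-128]]

/-- Rows. -/
def tab1_3_3 : List (List ℤ) := [[0,48],[-8,32],[-16,16],[-24,0],[-32,-16],[-40,-32],[-48,-48],[-56,-64],[-64,-80],[-72,-96],[-80,-112]]

/-- Rows. -/
def tab1_3_4 : List (List ℤ) := [[-8,64],[-16,48],[-24,32],[-32,16],[-40,0],[-48,-16],[-56,-32],[-64,-48],[-72,-64],[-80,-80],[-88,-96]]

/-- Rows. -/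
def tab1_3_5 : List (List ℤ) := [[-16,80],[-24,64],[-32,48],[-40,32],[-48,16],[-56,0],[-64,-16],[-72,-32],[-80,-48],[-88,-64],[-96,-80]]

/-- Rows. -/
def tab1_3_6 : List (List ℤ) := [[-24,96],[-32,80],[-40,64],[-48,48],[-56,32],[-64,16],[-72,0],[-80,-16],[-88,-32],[-96,-48],[-104,-64]]

/-- Rows. -/
def tab1_3_7 : List (List ℤ) := [[-32,112],[-40,96],[-48,80],[-56,64],[-64,48],[-72,32],[-80,16],[-88,0],[-96,-16],[-104,-32],[-112,-48]]

/-- Rows. -/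
def tab1_3_8 : List (List ℤ) := [[-40,128],[-48,112],[-56,96],[-64,80],[-72,64],[-80,48],[-88,32],[-96,16],[-104,0],[-112,-16],[-120,-32]]

/-- Rows. -/
def tab1_3_9 : List (List ℤ) := [[-48,144],[-56,128],[-64,112],[-72,96],[-80,80],[-88,64],[-96,48],[-104,32],[-112,16],[-120,0],[-128,-16]]

/-- Rows. -/
def tab1_3_10 : List (List ℤ) := [[-56,160],[-64,144],[-72,128],[-80,112],[-88,96],[-96,80],[-104,64],[-112,48],[-120,32],[-128,16],[-136,0]]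

/-- Rows. -/
def tab1_3 : List (List (List ℤ)) := [tab1_3_0,tab1_3_1,tab1_3_2,tab1_3_3,tab1_3_4,tab1_3_5,tab1_3_6,tab1_3_7,tab1_3_8,tab1_3_9,tab1_3_10]

/-- Rows. -/
def tab1_4_0 : List (List ℤ) := [[64,0],[48,-32],[32,-64],[16,-96],[0,-128],[-16,-160],[-32,-192],[-48,-224],[-64,-256],[-80,-288],[-96,-320]]

/-- Rows. -/
def tab1_4_1 : List (List ℤ) := [[48,32],[32,0],[16,-32],[0,-64],[-16,-96],[-32,-128],[-48,-160],[-64,-192],[-80,-224],[-96,-256],[-112,-288]]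

/-- Rows. -/
def tab1_4_2 : List (List ℤ) := [[32,64],[16,32],[0,0],[-16,-32],[-32,-64],[-48,-96],[-64,-128],[-80,-160],[-96,-192],[-112,-224],[-128,-256]]

/-- Rows. -/
def tab1_4_3 : List (List ℤ) := [[16,96],[0,64],[-16,32],[-32,0],[-48,-32],[-64,-64],[-80,-96],[-96,-128],[-112,-160],[-128,-192],[-144,-224]]

/-- Rows. -/
def tab1_4_4 : List (List ℤ) := [[0,128],[-16,96],[-32,64],[-48,32],[-64,0],[-80,-32],[-96,-64],[-112,-96],[-128,-128],[-144,-160],[-160,-192]]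

/-- Rows. -/
def tab1_4_5 : List (List ℤ) := [[-16,160],[-32,128],[-48,96],[-64,64],[-80,32],[-96,0],[-112,-32],[-128,-64],[-144,-96],[-160,-128],[-176,-160]]

/-- Rows. -/
def tab1_4_6 : List (List ℤ) := [[-32,192],[-48,160],[-64,128],[-80,96],[-96,64],[-112,32],[-128,0],[-144,-32],[-160,-64],[-176,-96],[-192,-128]]

/-- Rows. -/
def tab1_4_7 : List (List ℤ) := [[-48,224],[-64,192],[-80,160],[-96,128],[-112,96],[-128,64],[-144,32],[-160,0],[-176,-32],[-192,-64],[-208,-96]]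

/-- Rows. -/
def tab1_4_8 : List (List ℤ) := [[-64,256],[-80,224],[-96,192],[-112,160],[-128,128],[-144,96],[-160,64],[-176,32],[-192,0],[-208,-32],[-224,-64]]

/-- Rows. -/
def tab1_4_9 : List (List ℤ) := [[-80,288],[-96,256],[-112,224],[-128,192],[-144,160],[-160,128],[-176,96],[-192,64],[-208,32],[-224,0],[-240,-32]]

/-- Rows. -/
def tab1_4_10 : List (List ℤ) := [[-96,320],[-112,288],[-128,256],[-144,224],[-160,192],[-176,160],[-192,128],[-208,96],[-224,64],[-240,32],[-256,0]]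

/-- Rows. -/
def tab1_4 : List (List (List ℤ)) := [tab1_4_0,tab1_4_1,tab1_4_2,tab1_4_3,tab1_4_4,tab1_4_5,tab1_4_6,tab1_4_7,tab1_4_8,tab1_4_9,tab1_4_10]

/-- Rows. -/
def tab1_5_0 : List (List ℤ) := [[160,0],[128,-64],[96,-128],[64,-192],[32,-256],[0,-320],[-32,-384],[-64,-448],[-96,-512],[-128,-576],[-160,-640]]

/-- Rows. -/
def tab1_5_1 : List (List ℤ) := [[128,64],[96,0],[64,-64],[32,-128],[0,-192],[-32,-256],[-64,-320],[-96,-384],[-128,-448],[-160,-512],[-192,-576]]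

/-- Rows. -/
def tab1_5_2 : List (List ℤ) := [[96,128],[64,64],[32,0],[0,-64],[-32,-128],[-64,-192],[-96,-256],[-128,-320],[-160,-384],[-192,-448],[-224,-512]]

/-- Rows. -/
def tab1_5_3 : List (List ℤ) := [[64,192],[32,128],[0,64],[-32,0],[-64,-64],[-96,-128],[-128,-192],[-160,-256],[-192,-320],[-224,-384],[-256,-448]]

/-- Rows. -/
def tab1_5_4 : List (List ℤ) := [[32,256],[0,192],[-32,128],[-64,64],[-96,0],[-128,-64],[-160,-128],[-192,-192],[-224,-256],[-256,-320],[-288,-384]]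

/-- Rows. -/
def tab1_5_5 : List (List ℤ) := [[0,320],[-32,256],[-64,192],[-96,128],[-128,64],[-160,0],[-192,-64],[-224,-128],[-256,-192],[-288,-256],[-320,-320]]

/-- Rows. -/
def tab1_5_6 : List (List ℤ) := [[-32,384],[-64,320],[-96,256],[-128,192],[-160,128],[-192,64],[-224,0],[-256,-64],[-288,-128],[-320,-192],[-352,-256]]

/-- Rows. -/
def tab1_5_7 : List (List ℤ) := [[-64,448],[-96,384],[-128,320],[-160,256],[-192,192],[-224,128],[-256,64],[-288,0],[-320,-64],[-352,-128],[-384,-192]]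

/-- Rows. -/
def tab1_5_8 : List (List ℤ) := [[-96,512],[-128,448],[-160,384],[-192,320],[-224,256],[-256,192],[-288,128],[-320,64],[-352,0],[-384,-64],[-416,-128]]

/-- Rows. -/
def tab1_5_9 : List (List ℤ) := [[-128,576],[-160,512],[-192,448],[-224,384],[-256,320],[-288,256],[-320,192],[-352,128],[-384,64],[-416,0],[-448,-64]]

/-- Rows. -/
def tab1_5_10 : List (List ℤ) := [[-160,640],[-192,576],[-224,512],[-256,448],[-288,384],[-320,320],[-352,256],[-384,192],[-416,128],[-448,64],[-480,0]]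

/-- Rows. -/
def tab1_5 : List (List (List ℤ)) := [tab1_5_0,tab1_5_1,tab1_5_2,tab1_5_3,tab1_5_4,tab1_5_5,tab1_5_6,tab1_5_7,tab1_5_8,tab1_5_9,tab1_5_10]

/-- Rows. -/
def tab1_6_0 : List (List ℤ) := [[384,0],[320,-128],[256,-256],[192,-384],[128,-512],[64,-640],[0,-768],[-64,-896],[-128,-1024],[-192,-1152],[-256,-1280]]

/-- Rows. -/
def tab1_6_1 : List (List ℤ) := [[320,128],[256,0],[192,-128],[128,-256],[64,-384],[0,-512],[-64,-640],[-128,-768],[-192,-896],[-256,-1024],[-320,-1152]]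

/-- Rows. -/
def tab1_6_2 : List (List ℤ) := [[256,256],[192,128],[128,0],[64,-128],[0,-256],[-64,-384],[-128,-512],[-192,-640],[-256,-768],[-320,-896],[-384,-1024]]

/-- Rows. -/
def tab1_6_3 : List (List ℤ) := [[192,384],[128,256],[64,128],[0,0],[-64,-128],[-128,-256],[-192,-384],[-256,-512],[-320,-640],[-384,-768],[-448,-896]]

/-- Rows. -/
def tab1_6_4 : List (List ℤ) := [[128,512],[64,384],[0,256],[-64,128],[-128,0],[-192,-128],[-256,-256],[-320,-384],[-384,-512],[-448,-640],[-512,-768]]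

/-- Rows. -/
def tab1_6_5 : List (List ℤ) := [[64,640],[0,512],[-64,384],[-128,256],[-192,128],[-256,0],[-320,-128],[-384,-256],[-448,-384],[-512,-512],[-576,-640]]

/-- Rows. -/
def tab1_6_6 : List (List ℤ) := [[0,768],[-64,640],[-128,512],[-192,384],[-256,256],[-320,128],[-384,0],[-448,-128],[-512,-256],[-576,-384],[-640,-512]]

/-- Rows. -/
def tab1_6_7 : List (List ℤ) := [[-64,896],[-128,768],[-192,640],[-256,512],[-320,384],[-384,256],[-448,128],[-512,0],[-576,-128],[-640,-256],[-704,-384]]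

/-- Rows. -/
def tab1_6_8 : List (List ℤ) := [[-128,1024],[-192,896],[-256,768],[-320,640],[-384,512],[-448,384],[-512,256],[-576,128],[-640,0],[-704,-128],[-768,-256]]

/-- Rows. -/
def tab1_6_9 : List (List ℤ) := [[-192,1152],[-256,1024],[-320,896],[-384,768],[-448,640],[-512,512],[-576,384],[-640,256],[-704,128],[-768,0],[-832,-128]]

/-- Rows. -/
def tab1_6_10 : List (List ℤ) := [[-256,1280],[-320,1152],[-384,1024],[-448,896],[-512,768],[-576,640],[-640,512],[-704,384],[-768,256],[-832,128],[-896,0]]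

/-- Rows. -/
def tab1_6 : List (List (List ℤ)) := [tab1_6_0,tab1_6_1,tab1_6_2,tab1_6_3,tab1_6_4,tab1_6_5,tab1_6_6,tab1_6_7,tab1_6_8,tab1_6_9,tab1_6_10]

/-- The table of degree 1. -/
def table1 : Tab2 := [tab1_0,tab1_1,tab1_2,tab1_3,tab1_4,tab1_5,tab1_6]


end Vale.Agent.P359.Gap.Cert
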