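import Vale.Agent.P359.Gap.Cert.Check
import Vale.Agent.P359.Gap.Cert.Data.All
import Vale.Agent.P359.Gap.Cert.Data.Table0
import Vale.Agent.P359.Gap.Cert.Data.Table1

/-!
# P359 gap certificate data: degree 1
-/

namespace Vale.Agent.P359.Gap.Cert

open Finset Nat

/-- Layer 0 of the table. -/
lemma layer1_0 : checkLayer 11 1 table0 table1 0 = true := by decide +kernel

/-- Layer 1 of the table. -/
lemma layer1_1 : checkLayer 11 1 table0 table1 1 = true := by decide +kernel

/-- Layer 2 of the table. -/
lemma layer1_2 : checkLayer 11 1 table0 table1 2 = true := by decide +kernel

/-- Layer 3 of the table. -/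
lemma layer1_3 : checkLayer 11 1 table0 table1 3 = true := by decide +kernel

/-- Layer 4 of the table. -/
lemma layer1_4 : checkLayer 11 1 table0 table1 4 = true := by decide +kernel

/-- Layer 5 of the table. -/
lemma layer1_5 : checkLayer 11 1 table0 table1 5 = true := by decide +kernel

/-- Layer 6 of the table. -/
lemma layer1_6 : checkLayer 11 1 table0 table1 6 = true := by decide +kernel

lemma table1_check : check2 7 11 1 table0 table1 = true :=
  check2_of_layers layer1_0 layer1_1 layer1_2 layer1_3 layer1_4 layer1_5 layer1_6

/-- The linear form. -/
def lin1T : List (List ℤ) :=
  [[(Int.negSucc 746119021572343332746749984155174431723524726760912150702587903)]]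

/-- The shifted form. -/
def psd1T : List (List ℤ) :=
  [[(Int.ofNat 8074256272429510834113376698539750883377992916056143754799611904)]]

/-- The inner base. -/
def baseY1 : ℤ := Int.ofNat (2 ^ 214)

/-- The outer base. -/
def baseX1 : ℤ := Int.ofNat (2 ^ 214)

/-- Packed value of a part. -/
def packed1_0 : ℤ := (Int.ofNat 186982521221876154197488537829933279147647020806977074757632)

/-- The checks on part 0. -/
lemma part1_0 : checkPart 21 1 table1 baseX1 baseY1 (all2.take 20) packed1_0 47752079463477818372651962015219854984447134060893475633627136 = true := by
  decide +kernel

/-- Packed value of a part. -/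
def packed1_1 : ℤ := (Int.negSucc 14255036241573466785488146274225487951568779415658237609902079)

/-- The checks on part 1. -/
lemma part1_1 : checkPart 21 1 table1 baseX1 baseY1 ((all2.drop 20).take 20) packed1_1 104901153511935565759971182150625066953765641071166908845260800 = true := by
  decide +kernel

/-- Packed value of a part. -/
def packed1_2 : ℤ := (Int.negSucc 40946529544956166909859468113582579046779439406341720647925759)

/-- The checks on part 2. -/
lemma part1_2 : checkPart 21 1 table1 baseX1 baseY1 (((all2.drop 20).drop 20).take 20) packed1_2 243557290680487706533304004786556411664114055151026103287545856 = true := by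
  decide +kernel

/-- Packed value of a part. -/
def packed1_3 : ℤ := (Int.negSucc 1266699102913883595872647956785896246197523393869364913504255)

/-- The checks on part 3. -/
lemma part1_3 : checkPart 21 1 table1 baseX1 baseY1 ((((all2.drop 20).drop 20).drop 20).take 20) packed1_3 488697173505172466542365684054161436511916383756406250817978368 = true := by
  decide +kernel

/-- Packed value of a part. -/
def packed1_4 : ℤ := (Int.negSucc 353686391825010687594718196667800864485461568793528518343393279)

/-- The checks on part 4. -/
lemma part1_4 : checkPart 21 1 table1 baseX1 baseY1 (((((all2.drop 20).drop 20).drop 20).drop 20).take 20) packed1_4 1179929452856539921266067858586087449401213160521512011463393280 = true := by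
  decide +kernel

/-- Packed value of a part. -/
def packed1_5 : ℤ := (Int.negSucc 1075058789326334134172063014694589004783817018540055571988479)

/-- The checks on part 5. -/
lemma part1_5 : checkPart 21 1 table1 baseX1 baseY1 ((((((all2.drop 20).drop 20).drop 20).drop 20).drop 20).take 20) packed1_5 145189816789517982699687569917116257533153835572783808692355072 = true := by
  decide +kernel

/-- Packed value of a part. -/
def packed1_6 : ℤ := (Int.ofNat 15600744438772378301828354433533304456991877389481340599009280)

/-- The checks on part 6. -/
lemma part1_6 : checkPart 21 1 table1 baseX1 baseY1 (((((((all2.drop 20).drop 20).drop 20).drop 20).drop 20).drop 20).take 20) packed1_6 382826525016229706294328198511365741425479522215054931239370752 = true := by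
  decide +kernel

/-- Packed value of a part. -/
def packed1_7 : ℤ := (Int.negSucc 350677033028557048182665305099448252724873123143262571289640959)

/-- The checks on part 7. -/
lemma part1_7 : checkPart 21 1 table1 baseX1 baseY1 (((((((all2.drop 20).drop 20).drop 20).drop 20).drop 20).drop 20).drop 20) packed1_7 714356208896286420837003027600182134460482586350714717596549120 = true := by
  decide +kernel

/-- The packed value. -/
def packed1 : ℤ := packed1_0 + (packed1_1 + (packed1_2 + (packed1_3 + (packed1_4 + (packed1_5 + (packed1_6 + (packed1_7)))))))

/-- The size. -/
def size1 : ℕ := 47752079463477818372651962015219854984447134060893475633627136 + (104901153511935565759971182150625066953765641071166908845260800 + (243557290680487706533304004786556411664114055151026103287545856 + (488697173505172466542365684054161436511916383756406250817978368 + (1179929452856539921266067858586087449401213160521512011463393280 + (145189816789517982699687569917116257533153835572783808692355072 + (382826525016229706294328198511365741425479522215054931239370752 + (714356208896286420837003027600182134460482586350714717596549120)))))))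

/-- The remaining checks at degree 1. -/
lemma rest1 : checkRest 1 baseX1 baseY1 ((2 ^ 128 * 16 ^ 21 : ℕ) : ℤ) ((2 * 4 ^ 0 * 0 ! : ℕ) : ℤ) 0 packed1 size1 lin1T psd1T = true := by
  decide +kernel

end Vale.Agent.P359.Gap.Cert
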