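import Vale.Agent.P359.Gap.Cert.Expand

/-!
# P359 gap certificate data: two particle table, degree 2
-/

namespace Vale.Agent.P359.Gap.Cert

/-- Rows. -/
def tab2_0_0 : List (List ℤ) := [[],[],[1,4,4],[3,12,12],[6,24,24],[10,40,40],[15,60,60],[21,84,84],[28,112,112],[36,144,144],[45,180,180]]

/-- Rows. -/
def tab2_0_1 : List (List ℤ) := [[],[1,0,-4],[3,4,-4],[6,12,0],[10,24,8],[15,40,20],[21,60,36],[28,84,56],[36,112,80],[45,144,108],[55,180,140]]

/-- Rows. -/
def tab2_0_2 : List (List ℤ) := [[1,-4,4],[3,-4,-4],[6,0,-8],[10,8,-8],[15,20,-4],[21,36,4],[28,56,16],[36,80,32],[45,108,52],[55,140,76],[66,176,104]]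

/-- Rows. -/
def tab2_0_3 : List (List ℤ) := [[3,-12,12],[6,-12,0],[10,-8,-8],[15,0,-12],[21,12,-12],[28,28,-8],[36,48,0],[45,72,12],[55,100,28],[66,132,48],[78,168,72]]

/-- Rows. -/
def tab2_0_4 : List (List ℤ) := [[6,-24,24],[10,-24,8],[15,-20,-4],[21,-12,-12],[28,0,-16],[36,16,-16],[45,36,-12],[55,60,-4],[66,88,8],[78,120,24],[91,156,44]]

/-- Rows. -/
def tab2_0_5 : List (List ℤ) := [[10,-40,40],[15,-40,20],[21,-36,4],[28,-28,-8],[36,-16,-16],[45,0,-20],[55,20,-20],[66,44,-16],[78,72,-8],[91,104,4],[105,140,20]]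

/-- Rows. -/
def tab2_0_6 : List (List ℤ) := [[15,-60,60],[21,-60,36],[28,-56,16],[36,-48,0],[45,-36,-12],[55,-20,-20],[66,0,-24],[78,24,-24],[91,52,-20],[105,84,-12],[120,120,0]]

/-- Rows. -/
def tab2_0_7 : List (List ℤ) := [[21,-84,84],[28,-84,56],[36,-80,32],[45,-72,12],[55,-60,-4],[66,-44,-16],[78,-24,-24],[91,0,-28],[105,28,-28],[120,60,-24],[136,96,-16]]

/-- Rows. -/
def tab2_0_8 : List (List ℤ) := [[28,-112,112],[36,-112,80],[45,-108,52],[55,-100,28],[66,-88,8],[78,-72,-8],[91,-52,-20],[105,-28,-28],[120,0,-32],[136,32,-32],[153,68,-28]]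

/-- Rows. -/
def tab2_0_9 : List (List ℤ) := [[36,-144,144],[45,-144,108],[55,-140,76],[66,-132,48],[78,-120,24],[91,-104,4],[105,-84,-12],[120,-60,-24],[136,-32,-32],[153,0,-36],[171,36,-36]]

/-- Rows. -/
def tab2_0_10 : List (List ℤ) := [[45,-180,180],[55,-180,140],[66,-176,104],[78,-168,72],[91,-156,44],[105,-140,20],[120,-120,0],[136,-96,-16],[153,-68,-28],[171,-36,-36],[190,0,-40]]

/-- Rows. -/
def tab2_0 : List (List (List ℤ)) := [tab2_0_0,tab2_0_1,tab2_0_2,tab2_0_3,tab2_0_4,tab2_0_5,tab2_0_6,tab2_0_7,tab2_0_8,tab2_0_9,tab2_0_10]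

/-- Rows. -/
def tab2_1_0 : List (List ℤ) := [[],[-2,-4,0],[-2,0,8],[0,12,24],[4,32,48],[10,60,80],[18,96,120],[28,140,168],[40,192,224],[54,252,288],[70,320,360]]

/-- Rows. -/
def tab2_1_1 : List (List ℤ) := [[-2,4,0],[-2,0,-8],[0,4,-8],[4,16,0],[10,36,16],[18,64,40],[28,100,72],[40,144,112],[54,196,160],[70,256,216],[88,324,280]]

/-- Rows. -/
def tab2_1_2 : List (List ℤ) := [[-2,0,8],[0,-4,-8],[4,0,-16],[10,12,-16],[18,32,-8],[28,60,8],[40,96,32],[54,140,64],[70,192,104],[88,252,152],[108,320,208]]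

/-- Rows. -/
def tab2_1_3 : List (List ℤ) := [[0,-12,24],[4,-16,0],[10,-12,-16],[18,0,-24],[28,20,-24],[40,48,-16],[54,84,0],[70,128,24],[88,180,56],[108,240,96],[130,308,144]]

/-- Rows. -/
def tab2_1_4 : List (List ℤ) := [[4,-32,48],[10,-36,16],[18,-32,-8],[28,-20,-24],[40,0,-32],[54,28,-32],[70,64,-24],[88,108,-8],[108,160,16],[130,220,48],[154,288,88]]

/-- Rows. -/
def tab2_1_5 : List (List ℤ) := [[10,-60,80],[18,-64,40],[28,-60,8],[40,-48,-16],[54,-28,-32],[70,0,-40],[88,36,-40],[108,80,-32],[130,132,-16],[154,192,8],[180,260,40]]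

/-- Rows. -/
def tab2_1_6 : List (List ℤ) := [[18,-96,120],[28,-100,72],[40,-96,32],[54,-84,0],[70,-64,-24],[88,-36,-40],[108,0,-48],[130,44,-48],[154,96,-40],[180,156,-24],[208,224,0]]

/-- Rows. -/
def tab2_1_7 : List (List ℤ) := [[28,-140,168],[40,-144,112],[54,-140,64],[70,-128,24],[88,-108,-8],[108,-80,-32],[130,-44,-48],[154,0,-56],[180,52,-56],[208,112,-48],[238,180,-32]]

/-- Rows. -/
def tab2_1_8 : List (List ℤ) := [[40,-192,224],[54,-196,160],[70,-192,104],[88,-180,56],[108,-160,16],[130,-132,-16],[154,-96,-40],[180,-52,-56],[208,0,-64],[238,60,-64],[270,128,-56]]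

/-- Rows. -/
def tab2_1_9 : List (List ℤ) := [[54,-252,288],[70,-256,216],[88,-252,152],[108,-240,96],[130,-220,48],[154,-192,8],[180,-156,-24],[208,-112,-48],[238,-60,-64],[270,0,-72],[304,68,-72]]

/-- Rows. -/
def tab2_1_10 : List (List ℤ) := [[70,-320,360],[88,-324,280],[108,-320,208],[130,-308,144],[154,-288,88],[180,-260,40],[208,-224,0],[238,-180,-32],[270,-128,-56],[304,-68,-72],[340,0,-80]]

/-- Rows. -/
def tab2_1 : List (List (List ℤ)) := [tab2_1_0,tab2_1_1,tab2_1_2,tab2_1_3,tab2_1_4,tab2_1_5,tab2_1_6,tab2_1_7,tab2_1_8,tab2_1_9,tab2_1_10]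

/-- Rows. -/
def tab2_2_0 : List (List ℤ) := [[4,0,0],[-4,-16,0],[-8,-16,16],[-8,0,48],[-4,32,96],[4,80,160],[16,144,240],[32,224,336],[52,320,448],[76,432,576],[104,560,720]]

/-- Rows. -/
def tab2_2_1 : List (List ℤ) := [[-4,16,0],[-8,0,-16],[-8,0,-16],[-4,16,0],[4,48,32],[16,96,80],[32,160,144],[52,240,224],[76,336,320],[104,448,432],[136,576,560]]

/-- Rows. -/
def tab2_2_2 : List (List ℤ) := [[-8,16,16],[-8,0,-16],[-4,0,-32],[4,16,-32],[16,48,-16],[32,96,16],[52,160,64],[76,240,128],[104,336,208],[136,448,304],[172,576,416]]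

/-- Rows. -/
def tab2_2_3 : List (List ℤ) := [[-8,0,48],[-4,-16,0],[4,-16,-32],[16,0,-48],[32,32,-48],[52,80,-32],[76,144,0],[104,224,48],[136,320,112],[172,432,192],[212,560,288]]

/-- Rows. -/
def tab2_2_4 : List (List ℤ) := [[-4,-32,96],[4,-48,32],[16,-48,-16],[32,-32,-48],[52,0,-64],[76,48,-64],[104,112,-48],[136,192,-16],[172,288,32],[212,400,96],[256,528,176]]

/-- Rows. -/
def tab2_2_5 : List (List ℤ) := [[4,-80,160],[16,-96,80],[32,-96,16],[52,-80,-32],[76,-48,-64],[104,0,-80],[136,64,-80],[172,144,-64],[212,240,-32],[256,352,16],[304,480,80]]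

/-- Rows. -/
def tab2_2_6 : List (List ℤ) := [[16,-144,240],[32,-160,144],[52,-160,64],[76,-144,0],[104,-112,-48],[136,-64,-80],[172,0,-96],[212,80,-96],[256,176,-80],[304,288,-48],[356,416,0]]

/-- Rows. -/
def tab2_2_7 : List (List ℤ) := [[32,-224,336],[52,-240,224],[76,-240,128],[104,-224,48],[136,-192,-16],[172,-144,-64],[212,-80,-96],[256,0,-112],[304,96,-112],[356,208,-96],[412,336,-64]]

/-- Rows. -/
def tab2_2_8 : List (List ℤ) := [[52,-320,448],[76,-336,320],[104,-336,208],[136,-320,112],[172,-288,32],[212,-240,-32],[256,-176,-80],[304,-96,-112],[356,0,-128],[412,112,-128],[472,240,-112]]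

/-- Rows. -/
def tab2_2_9 : List (List ℤ) := [[76,-432,576],[104,-448,432],[136,-448,304],[172,-432,192],[212,-400,96],[256,-352,16],[304,-288,-48],[356,-208,-96],[412,-112,-128],[472,0,-144],[536,128,-144]]

/-- Rows. -/
def tab2_2_10 : List (List ℤ) := [[104,-560,720],[136,-576,560],[172,-576,416],[212,-560,288],[256,-528,176],[304,-480,80],[356,-416,0],[412,-336,-64],[472,-240,-112],[536,-128,-144],[604,0,-160]]

/-- Rows. -/
def tab2_2 : List (List (List ℤ)) := [tab2_2_0,tab2_2_1,tab2_2_2,tab2_2_3,tab2_2_4,tab2_2_5,tab2_2_6,tab2_2_7,tab2_2_8,tab2_2_9,tab2_2_10]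

/-- Rows. -/
def tab2_3_0 : List (List ℤ) := [[24,0,0],[0,-48,0],[-16,-64,32],[-24,-48,96],[-24,0,192],[-16,80,320],[0,192,480],[24,336,672],[56,512,896],[96,720,1152],[144,960,1440]]

/-- Rows. -/
def tab2_3_1 : List (List ℤ) := [[0,48,0],[-16,0,-32],[-24,-16,-32],[-24,0,0],[-16,48,64],[0,128,160],[24,240,288],[56,384,448],[96,560,640],[144,768,864],[200,1008,1120]]

/-- Rows. -/
def tab2_3_2 : List (List ℤ) := [[-16,64,32],[-24,16,-32],[-24,0,-64],[-16,16,-64],[0,64,-32],[24,144,32],[56,256,128],[96,400,256],[144,576,416],[200,784,608],[264,1024,832]]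

/-- Rows. -/
def tab2_3_3 : List (List ℤ) := [[-24,48,96],[-24,0,0],[-16,-16,-64],[0,0,-96],[24,48,-96],[56,128,-64],[96,240,0],[144,384,96],[200,560,224],[264,768,384],[336,1008,576]]

/-- Rows. -/
def tab2_3_4 : List (List ℤ) := [[-24,0,192],[-16,-48,64],[0,-64,-32],[24,-48,-96],[56,0,-128],[96,80,-128],[144,192,-96],[200,336,-32],[264,512,64],[336,720,192],[416,960,352]]

/-- Rows. -/
def tab2_3_5 : List (List ℤ) := [[-16,-80,320],[0,-128,160],[24,-144,32],[56,-128,-64],[96,-80,-128],[144,0,-160],[200,112,-160],[264,256,-128],[336,432,-64],[416,640,32],[504,880,160]]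

/-- Rows. -/
def tab2_3_6 : List (List ℤ) := [[0,-192,480],[24,-240,288],[56,-256,128],[96,-240,0],[144,-192,-96],[200,-112,-160],[264,0,-192],[336,144,-192],[416,320,-160],[504,528,-96],[600,768,0]]

/-- Rows. -/
def tab2_3_7 : List (List ℤ) := [[24,-336,672],[56,-384,448],[96,-400,256],[144,-384,96],[200,-336,-32],[264,-256,-128],[336,-144,-192],[416,0,-224],[504,176,-224],[600,384,-192],[704,624,-128]]

/-- Rows. -/
def tab2_3_8 : List (List ℤ) := [[56,-512,896],[96,-560,640],[144,-576,416],[200,-560,224],[264,-512,64],[336,-432,-64],[416,-320,-160],[504,-176,-224],[600,0,-256],[704,208,-256],[816,448,-224]]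

/-- Rows. -/
def tab2_3_9 : List (List ℤ) := [[96,-720,1152],[144,-768,864],[200,-784,608],[264,-768,384],[336,-720,192],[416,-640,32],[504,-528,-96],[600,-384,-192],[704,-208,-256],[816,0,-288],[936,240,-288]]

/-- Rows. -/
def tab2_3_10 : List (List ℤ) := [[144,-960,1440],[200,-1008,1120],[264,-1024,832],[336,-1008,576],[416,-960,352],[504,-880,160],[600,-768,0],[704,-624,-128],[816,-448,-224],[936,-240,-288],[1064,0,-320]]

/-- Rows. -/
def tab2_3 : List (List (List ℤ)) := [tab2_3_0,tab2_3_1,tab2_3_2,tab2_3_3,tab2_3_4,tab2_3_5,tab2_3_6,tab2_3_7,tab2_3_8,tab2_3_9,tab2_3_10]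

/-- Rows. -/
def tab2_4_0 : List (List ℤ) := [[96,0,0],[32,-128,0],[-16,-192,64],[-48,-192,192],[-64,-128,384],[-64,0,640],[-48,192,960],[-16,448,1344],[32,768,1792],[96,1152,2304],[176,1600,2880]]

/-- Rows. -/
def tab2_4_1 : List (List ℤ) := [[32,128,0],[-16,0,-64],[-48,-64,-64],[-64,-64,0],[-64,0,128],[-48,128,320],[-16,320,576],[32,576,896],[96,896,1280],[176,1280,1728],[272,1728,2240]]

/-- Rows. -/
def tab2_4_2 : List (List ℤ) := [[-16,192,64],[-48,64,-64],[-64,0,-128],[-64,0,-128],[-48,64,-64],[-16,192,64],[32,384,256],[96,640,512],[176,960,832],[272,1344,1216],[384,1792,1664]]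

/-- Rows. -/
def tab2_4_3 : List (List ℤ) := [[-48,192,192],[-64,64,0],[-64,0,-128],[-48,0,-192],[-16,64,-192],[32,192,-128],[96,384,0],[176,640,192],[272,960,448],[384,1344,768],[512,1792,1152]]

/-- Rows. -/
def tab2_4_4 : List (List ℤ) := [[-64,128,384],[-64,0,128],[-48,-64,-64],[-16,-64,-192],[32,0,-256],[96,128,-256],[176,320,-192],[272,576,-64],[384,896,128],[512,1280,384],[656,1728,704]]

/-- Rows. -/
def tab2_4_5 : List (List ℤ) := [[-64,0,640],[-48,-128,320],[-16,-192,64],[32,-192,-128],[96,-128,-256],[176,0,-320],[272,192,-320],[384,448,-256],[512,768,-128],[656,1152,64],[816,1600,320]]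

/-- Rows. -/
def tab2_4_6 : List (List ℤ) := [[-48,-192,960],[-16,-320,576],[32,-384,256],[96,-384,0],[176,-320,-192],[272,-192,-320],[384,0,-384],[512,256,-384],[656,576,-320],[816,960,-192],[992,1408,0]]

/-- Rows. -/
def tab2_4_7 : List (List ℤ) := [[-16,-448,1344],[32,-576,896],[96,-640,512],[176,-640,192],[272,-576,-64],[384,-448,-256],[512,-256,-384],[656,0,-448],[816,320,-448],[992,704,-384],[1184,1152,-256]]

/-- Rows. -/
def tab2_4_8 : List (List ℤ) := [[32,-768,1792],[96,-896,1280],[176,-960,832],[272,-960,448],[384,-896,128],[512,-768,-128],[656,-576,-320],[816,-320,-448],[992,0,-512],[1184,384,-512],[1392,832,-448]]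

/-- Rows. -/
def tab2_4_9 : List (List ℤ) := [[96,-1152,2304],[176,-1280,1728],[272,-1344,1216],[384,-1344,768],[512,-1280,384],[656,-1152,64],[816,-960,-192],[992,-704,-384],[1184,-384,-512],[1392,0,-576],[1616,448,-576]]

/-- Rows. -/
def tab2_4_10 : List (List ℤ) := [[176,-1600,2880],[272,-1728,2240],[384,-1792,1664],[512,-1792,1152],[656,-1728,704],[816,-1600,320],[992,-1408,0],[1184,-1152,-256],[1392,-832,-448],[1616,-448,-576],[1856,0,-640]]

/-- Rows. -/
def tab2_4 : List (List (List ℤ)) := [tab2_4_0,tab2_4_1,tab2_4_2,tab2_4_3,tab2_4_4,tab2_4_5,tab2_4_6,tab2_4_7,tab2_4_8,tab2_4_9,tab2_4_10]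

/-- Rows. -/
def tab2_5_0 : List (List ℤ) := [[320,0,0],[160,-320,0],[32,-512,128],[-64,-576,384],[-128,-512,768],[-160,-320,1280],[-160,0,1920],[-128,448,2688],[-64,1024,3584],[32,1728,4608],[160,2560,5760]]

/-- Rows. -/
def tab2_5_1 : List (List ℤ) := [[160,320,0],[32,0,-128],[-64,-192,-128],[-128,-256,0],[-160,-192,256],[-160,0,640],[-128,320,1152],[-64,768,1792],[32,1344,2560],[160,2048,3456],[320,2880,4480]]

/-- Rows. -/
def tab2_5_2 : List (List ℤ) := [[32,512,128],[-64,192,-128],[-128,0,-256],[-160,-64,-256],[-160,0,-128],[-128,192,128],[-64,512,512],[32,960,1024],[160,1536,1664],[320,2240,2432],[512,3072,3328]]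

/-- Rows. -/
def tab2_5_3 : List (List ℤ) := [[-64,576,384],[-128,256,0],[-160,64,-256],[-160,0,-384],[-128,64,-384],[-64,256,-256],[32,576,0],[160,1024,384],[320,1600,896],[512,2304,1536],[736,3136,2304]]

/-- Rows. -/
def tab2_5_4 : List (List ℤ) := [[-128,512,768],[-160,192,256],[-160,0,-128],[-128,-64,-384],[-64,0,-512],[32,192,-512],[160,512,-384],[320,960,-128],[512,1536,256],[736,2240,768],[992,3072,1408]]

/-- Rows. -/
def tab2_5_5 : List (List ℤ) := [[-160,320,1280],[-160,0,640],[-128,-192,128],[-64,-256,-256],[32,-192,-512],[160,0,-640],[320,320,-640],[512,768,-512],[736,1344,-256],[992,2048,128],[1280,2880,640]]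

/-- Rows. -/
def tab2_5_6 : List (List ℤ) := [[-160,0,1920],[-128,-320,1152],[-64,-512,512],[32,-576,0],[160,-512,-384],[320,-320,-640],[512,0,-768],[736,448,-768],[992,1024,-640],[1280,1728,-384],[1600,2560,0]]

/-- Rows. -/
def tab2_5_7 : List (List ℤ) := [[-128,-448,2688],[-64,-768,1792],[32,-960,1024],[160,-1024,384],[320,-960,-128],[512,-768,-512],[736,-448,-768],[992,0,-896],[1280,576,-896],[1600,1280,-768],[1952,2112,-512]]

/-- Rows. -/
def tab2_5_8 : List (List ℤ) := [[-64,-1024,3584],[32,-1344,2560],[160,-1536,1664],[320,-1600,896],[512,-1536,256],[736,-1344,-256],[992,-1024,-640],[1280,-576,-896],[1600,0,-1024],[1952,704,-1024],[2336,1536,-896]]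

/-- Rows. -/
def tab2_5_9 : List (List ℤ) := [[32,-1728,4608],[160,-2048,3456],[320,-2240,2432],[512,-2304,1536],[736,-2240,768],[992,-2048,128],[1280,-1728,-384],[1600,-1280,-768],[1952,-704,-1024],[2336,0,-1152],[2752,832,-1152]]

/-- Rows. -/
def tab2_5_10 : List (List ℤ) := [[160,-2560,5760],[320,-2880,4480],[512,-3072,3328],[736,-3136,2304],[992,-3072,1408],[1280,-2880,640],[1600,-2560,0],[1952,-2112,-512],[2336,-1536,-896],[2752,-832,-1152],[3200,0,-1280]]

/-- Rows. -/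
def tab2_5 : List (List (List ℤ)) := [tab2_5_0,tab2_5_1,tab2_5_2,tab2_5_3,tab2_5_4,tab2_5_5,tab2_5_6,tab2_5_7,tab2_5_8,tab2_5_9,tab2_5_10]

/-- Rows. -/
def tab2_6_0 : List (List ℤ) := [[960,0,0],[576,-768,0],[256,-1280,256],[0,-1536,768],[-192,-1536,1536],[-320,-1280,2560],[-384,-768,3840],[-384,0,5376],[-320,1024,7168],[-192,2304,9216],[0,3840,11520]]

/-- Rows. -/
def tab2_6_1 : List (List ℤ) := [[576,768,0],[256,0,-256],[0,-512,-256],[-192,-768,0],[-320,-768,512],[-384,-512,1280],[-384,0,2304],[-320,768,3584],[-192,1792,5120],[0,3072,6912],[256,4608,8960]]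

/-- Rows. -/
def tab2_6_2 : List (List ℤ) := [[256,1280,256],[0,512,-256],[-192,0,-512],[-320,-256,-512],[-384,-256,-256],[-384,0,256],[-320,512,1024],[-192,1280,2048],[0,2304,3328],[256,3584,4864],[576,5120,6656]]

/-- Rows. -/
def tab2_6_3 : List (List ℤ) := [[0,1536,768],[-192,768,0],[-320,256,-512],[-384,0,-768],[-384,0,-768],[-320,256,-512],[-192,768,0],[0,1536,768],[256,2560,1792],[576,3840,3072],[960,5376,4608]]

/-- Rows. -/
def tab2_6_4 : List (List ℤ) := [[-192,1536,1536],[-320,768,512],[-384,256,-256],[-384,0,-768],[-320,0,-1024],[-192,256,-1024],[0,768,-768],[256,1536,-256],[576,2560,512],[960,3840,1536],[1408,5376,2816]]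

/-- Rows. -/
def tab2_6_5 : List (List ℤ) := [[-320,1280,2560],[-384,512,1280],[-384,0,256],[-320,-256,-512],[-192,-256,-1024],[0,0,-1280],[256,512,-1280],[576,1280,-1024],[960,2304,-512],[1408,3584,256],[1920,5120,1280]]

/-- Rows. -/
def tab2_6_6 : List (List ℤ) := [[-384,768,3840],[-384,0,2304],[-320,-512,1024],[-192,-768,0],[0,-768,-768],[256,-512,-1280],[576,0,-1536],[960,768,-1536],[1408,1792,-1280],[1920,3072,-768],[2496,4608,0]]

/-- Rows. -/
def tab2_6_7 : List (List ℤ) := [[-384,0,5376],[-320,-768,3584],[-192,-1280,2048],[0,-1536,768],[256,-1536,-256],[576,-1280,-1024],[960,-768,-1536],[1408,0,-1792],[1920,1024,-1792],[2496,2304,-1536],[3136,3840,-1024]]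

/-- Rows. -/
def tab2_6_8 : List (List ℤ) := [[-320,-1024,7168],[-192,-1792,5120],[0,-2304,3328],[256,-2560,1792],[576,-2560,512],[960,-2304,-512],[1408,-1792,-1280],[1920,-1024,-1792],[2496,0,-2048],[3136,1280,-2048],[3840,2816,-1792]]

/-- Rows. -/
def tab2_6_9 : List (List ℤ) := [[-192,-2304,9216],[0,-3072,6912],[256,-3584,4864],[576,-3840,3072],[960,-3840,1536],[1408,-3584,256],[1920,-3072,-768],[2496,-2304,-1536],[3136,-1280,-2048],[3840,0,-2304],[4608,1536,-2304]]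

/-- Rows. -/
def tab2_6_10 : List (List ℤ) := [[0,-3840,11520],[256,-4608,8960],[576,-5120,6656],[960,-5376,4608],[1408,-5376,2816],[1920,-5120,1280],[2496,-4608,0],[3136,-3840,-1024],[3840,-2816,-1792],[4608,-1536,-2304],[5440,0,-2560]]

/-- Rows. -/
def tab2_6 : List (List (List ℤ)) := [tab2_6_0,tab2_6_1,tab2_6_2,tab2_6_3,tab2_6_4,tab2_6_5,tab2_6_6,tab2_6_7,tab2_6_8,tab2_6_9,tab2_6_10]

/-- The table of degree 2. -/
def table2 : Tab2 := [tab2_0,tab2_1,tab2_2,tab2_3,tab2_4,tab2_5,tab2_6]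


end Vale.Agent.P359.Gap.Cert
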