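import Vale.Agent.P359.Gap.Cert.Check
import Vale.Agent.P359.Gap.Cert.Data.All
import Vale.Agent.P359.Gap.Cert.Data.Table1
import Vale.Agent.P359.Gap.Cert.Data.Table2

/-!
# P359 gap certificate data: degree 2
-/

namespace Vale.Agent.P359.Gap.Cert

open Finset Nat

/-- Layer 0 of the table. -/
lemma layer2_0 : checkLayer 11 2 table1 table2 0 = true := by decide +kernel

/-- Layer 1 of the table. -/
lemma layer2_1 : checkLayer 11 2 table1 table2 1 = true := by decide +kernel

/-- Layer 2 of the table. -/
lemma layer2_2 : checkLayer 11 2 table1 table2 2 = true := by decide +kernel

/-- Layer 3 of the table. -/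
lemma layer2_3 : checkLayer 11 2 table1 table2 3 = true := by decide +kernel

/-- Layer 4 of the table. -/
lemma layer2_4 : checkLayer 11 2 table1 table2 4 = true := by decide +kernel

/-- Layer 5 of the table. -/
lemma layer2_5 : checkLayer 11 2 table1 table2 5 = true := by decide +kernel

/-- Layer 6 of the table. -/
lemma layer2_6 : checkLayer 11 2 table1 table2 6 = true := by decide +kernel

lemma table2_check : check2 7 11 2 table1 table2 = true :=
  check2_of_layers layer2_0 layer2_1 layer2_2 layer2_3 layer2_4 layer2_5 layer2_6

/-- The linear form. -/
def lin2T : List (List ℤ) :=
  [[(Int.negSucc 535943710318149325717696262008970337447017515305482892328566783)]]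

/-- The shifted form. -/
def psd2T : List (List ℤ) :=
  [[(Int.ofNat 10869567911830018774361446826301164719507083584978182592022970368)]]

/-- The inner base. -/
def baseY2 : ℤ := Int.ofNat (2 ^ 213)

/-- The outer base. -/
def baseX2 : ℤ := Int.ofNat (2 ^ 213)

/-- Packed value of a part. -/
def packed2_0 : ℤ := (Int.ofNat 120672766051538146485906952831983766350538953335196899868672)

/-- The checks on part 0. -/
lemma part2_0 : checkPart 21 2 table2 baseX2 baseY2 (all2.take 20) packed2_0 12627920088032848555547484657028981618910663247834625723072512 = true := by
  decide +kernel

/-- Packed value of a part. -/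
def packed2_1 : ℤ := (Int.negSucc 19728658660594725232104053505125329752302718222426776549720063)

/-- The checks on part 1. -/
lemma part2_1 : checkPart 21 2 table2 baseX2 baseY2 ((all2.drop 20).take 20) packed2_1 44453092867799041175474665149692090946358360915010869826420736 = true := by
  decide +kernel

/-- Packed value of a part. -/
def packed2_2 : ℤ := (Int.negSucc 31317580432210665643029668795336773402611336909250076719710207)

/-- The checks on part 2. -/
lemma part2_2 : checkPart 21 2 table2 baseX2 baseY2 (((all2.drop 20).drop 20).take 20) packed2_2 113205227751488984562890940659969534228757879501476461727973376 = true := by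
  decide +kernel

/-- Packed value of a part. -/
def packed2_3 : ℤ := (Int.negSucc 10273930626701419739004127053173487340531490623409823256936447)

/-- The checks on part 3. -/
lemma part2_3 : checkPart 21 2 table2 baseX2 baseY2 ((((all2.drop 20).drop 20).drop 20).take 20) packed2_3 130644356981785065350933822672495783729421097629620471532093440 = true := by
  decide +kernel

/-- Packed value of a part. -/
def packed2_4 : ℤ := (Int.negSucc 284061797589824715772315613984716213077536040784801791549112319)

/-- The checks on part 4. -/
lemma part2_4 : checkPart 21 2 table2 baseX2 baseY2 (((((all2.drop 20).drop 20).drop 20).drop 20).take 20) packed2_4 574862091616189984532000396885288446438030016173653627229962240 = true := by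
  decide +kernel

/-- Packed value of a part. -/
def packed2_5 : ℤ := (Int.negSucc 5266126238770070344756331668692168762798351737682808224612351)

/-- The checks on part 5. -/
lemma part2_5 : checkPart 21 2 table2 baseX2 baseY2 ((((((all2.drop 20).drop 20).drop 20).drop 20).drop 20).take 20) packed2_5 76324195447588990533214879971155247332116802721453218927214592 = true := by
  decide +kernel

/-- Packed value of a part. -/
def packed2_6 : ℤ := (Int.negSucc 13838289254889907216963450473994119501630202407097794941681663)

/-- The checks on part 6. -/
lemma part2_6 : checkPart 21 2 table2 baseX2 baseY2 (((((((all2.drop 20).drop 20).drop 20).drop 20).drop 20).drop 20).take 20) packed2_6 146188737621198372261434583842690692723632216861007179675598848 = true := by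
  decide +kernel

/-- Packed value of a part. -/
def packed2_7 : ℤ := (Int.negSucc 171578000281209359916008923480764229375957913574149017986662399)

/-- The checks on part 7. -/
lemma part2_7 : checkPart 21 2 table2 baseX2 baseY2 (((((((all2.drop 20).drop 20).drop 20).drop 20).drop 20).drop 20).drop 20) packed2_7 297954685737746458968377131864939807420513766439821598114447360 = true := by
  decide +kernel

/-- The packed value. -/
def packed2 : ℤ := packed2_0 + (packed2_1 + (packed2_2 + (packed2_3 + (packed2_4 + (packed2_5 + (packed2_6 + (packed2_7)))))))

/-- The size. -/
def size2 : ℕ := 12627920088032848555547484657028981618910663247834625723072512 + (44453092867799041175474665149692090946358360915010869826420736 + (113205227751488984562890940659969534228757879501476461727973376 + (130644356981785065350933822672495783729421097629620471532093440 + (574862091616189984532000396885288446438030016173653627229962240 + (76324195447588990533214879971155247332116802721453218927214592 + (146188737621198372261434583842690692723632216861007179675598848 + (297954685737746458968377131864939807420513766439821598114447360)))))))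

/-- The remaining checks at degree 2. -/
lemma rest2 : checkRest 2 baseX2 baseY2 ((2 ^ 128 * 16 ^ 21 : ℕ) : ℤ) ((2 * 4 ^ 1 * 1 ! : ℕ) : ℤ) 0 packed2 size2 lin2T psd2T = true := by
  decide +kernel

end Vale.Agent.P359.Gap.Cert
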