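import Vale.Agent.P359.Gap.Cert.Expand

/-!
# P359 gap certificate data: one particle table
-/

namespace Vale.Agent.P359.Gap.Cert

/-- Row. -/
def t1r0_0 : List ℤ := [(Int.ofNat 1)]

/-- Row. -/
def t1r0_1 : List ℤ := [(Int.negSucc 0),(Int.ofNat 1)]

/-- Row. -/
def t1r0_2 : List ℤ := [(Int.ofNat 1),(Int.negSucc 1),(Int.ofNat 1)]

/-- Row. -/
def t1r0_3 : List ℤ := [(Int.negSucc 0),(Int.ofNat 3),(Int.negSucc 2),(Int.ofNat 1)]

/-- Row. -/
def t1r0_4 : List ℤ := [(Int.ofNat 1),(Int.negSucc 3),(Int.ofNat 6),(Int.negSucc 3),(Int.ofNat 1)]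

/-- Row. -/
def t1r0_5 : List ℤ := [(Int.negSucc 0),(Int.ofNat 5),(Int.negSucc 9),(Int.ofNat 10),(Int.negSucc 4),(Int.ofNat 1)]

/-- Row. -/
def t1r0_6 : List ℤ := [(Int.ofNat 1),(Int.negSucc 5),(Int.ofNat 15),(Int.negSucc 19),(Int.ofNat 15),(Int.negSucc 5),(Int.ofNat 1)]

/-- Row. -/
def t1r0_7 : List ℤ := [(Int.negSucc 0),(Int.ofNat 7),(Int.negSucc 20),(Int.ofNat 35),(Int.negSucc 34),(Int.ofNat 21),(Int.negSucc 6),(Int.ofNat 1)]

/-- Row. -/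
def t1r0_8 : List ℤ := [(Int.ofNat 1),(Int.negSucc 7),(Int.ofNat 28),(Int.negSucc 55),(Int.ofNat 70),(Int.negSucc 55),(Int.ofNat 28),(Int.negSucc 7),(Int.ofNat 1)]

/-- Row. -/
def t1r0_9 : List ℤ := [(Int.negSucc 0),(Int.ofNat 9),(Int.negSucc 35),(Int.ofNat 84),(Int.negSucc 125),(Int.ofNat 126),(Int.negSucc 83),(Int.ofNat 36),(Int.negSucc 8),(Int.ofNat 1)]

/-- Row. -/
def t1r0_10 : List ℤ := [(Int.ofNat 1),(Int.negSucc 9),(Int.ofNat 45),(Int.negSucc 119),(Int.ofNat 210),(Int.negSucc 251),(Int.ofNat 210),(Int.negSucc 119),(Int.ofNat 45),(Int.negSucc 9),(Int.ofNat 1)]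

/-- Row. -/
def t1r0_11 : List ℤ := [(Int.negSucc 0),(Int.ofNat 11),(Int.negSucc 54),(Int.ofNat 165),(Int.negSucc 329),(Int.ofNat 462),(Int.negSucc 461),(Int.ofNat 330),(Int.negSucc 164),(Int.ofNat 55),(Int.negSucc 10),(Int.ofNat 1)]

/-- Row. -/
def t1r0_12 : List ℤ := [(Int.ofNat 1),(Int.negSucc 11),(Int.ofNat 66),(Int.negSucc 219),(Int.ofNat 495),(Int.negSucc 791),(Int.ofNat 924),(Int.negSucc 791),(Int.ofNat 495),(Int.negSucc 219),(Int.ofNat 66),(Int.negSucc 11),(Int.ofNat 1)]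

/-- Row. -/
def t1r0_13 : List ℤ := [(Int.negSucc 0),(Int.ofNat 13),(Int.negSucc 77),(Int.ofNat 286),(Int.negSucc 714),(Int.ofNat 1287),(Int.negSucc 1715),(Int.ofNat 1716),(Int.negSucc 1286),(Int.ofNat 715),(Int.negSucc 285),(Int.ofNat 78),(Int.negSucc 12),(Int.ofNat 1)]

/-- Row. -/
def t1r0_14 : List ℤ := [(Int.ofNat 1),(Int.negSucc 13),(Int.ofNat 91),(Int.negSucc 363),(Int.ofNat 1001),(Int.negSucc 2001),(Int.ofNat 3003),(Int.negSucc 3431),(Int.ofNat 3003),(Int.negSucc 2001),(Int.ofNat 1001),(Int.negSucc 363),(Int.ofNat 91),(Int.negSucc 13),(Int.ofNat 1)]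

/-- Row. -/
def t1r0_15 : List ℤ := [(Int.negSucc 0),(Int.ofNat 15),(Int.negSucc 104),(Int.ofNat 455),(Int.negSucc 1364),(Int.ofNat 3003),(Int.negSucc 5004),(Int.ofNat 6435),(Int.negSucc 6434),(Int.ofNat 5005),(Int.negSucc 3002),(Int.ofNat 1365),(Int.negSucc 454),(Int.ofNat 105),(Int.negSucc 14),(Int.ofNat 1)]

/-- Row. -/
def t1r0_16 : List ℤ := [(Int.ofNat 1),(Int.negSucc 15),(Int.ofNat 120),(Int.negSucc 559),(Int.ofNat 1820),(Int.negSucc 4367),(Int.ofNat 8008),(Int.negSucc 11439),(Int.ofNat 12870),(Int.negSucc 11439),(Int.ofNat 8008),(Int.negSucc 4367),(Int.ofNat 1820),(Int.negSucc 559),(Int.ofNat 120),(Int.negSucc 15),(Int.ofNat 1)]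

/-- Row. -/
def t1r0_17 : List ℤ := [(Int.negSucc 0),(Int.ofNat 17),(Int.negSucc 135),(Int.ofNat 680),(Int.negSucc 2379),(Int.ofNat 6188),(Int.negSucc 12375),(Int.ofNat 19448),(Int.negSucc 24309),(Int.ofNat 24310),(Int.negSucc 19447),(Int.ofNat 12376),(Int.negSucc 6187),(Int.ofNat 2380),(Int.negSucc 679),(Int.ofNat 136),(Int.negSucc 16),(Int.ofNat 1)]

/-- Row. -/
def t1r0_18 : List ℤ := [(Int.ofNat 1),(Int.negSucc 17),(Int.ofNat 153),(Int.negSucc 815),(Int.ofNat 3060),(Int.negSucc 8567),(Int.ofNat 18564),(Int.negSucc 31823),(Int.ofNat 43758),(Int.negSucc 48619),(Int.ofNat 43758),(Int.negSucc 31823),(Int.ofNat 18564),(Int.negSucc 8567),(Int.ofNat 3060),(Int.negSucc 815),(Int.ofNat 153),(Int.negSucc 17),(Int.ofNat 1)]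

/-- Row. -/
def t1r0_19 : List ℤ := [(Int.negSucc 0),(Int.ofNat 19),(Int.negSucc 170),(Int.ofNat 969),(Int.negSucc 3875),(Int.ofNat 11628),(Int.negSucc 27131),(Int.ofNat 50388),(Int.negSucc 75581),(Int.ofNat 92378),(Int.negSucc 92377),(Int.ofNat 75582),(Int.negSucc 50387),(Int.ofNat 27132),(Int.negSucc 11627),(Int.ofNat 3876),(Int.negSucc 968),(Int.ofNat 171),(Int.negSucc 18),(Int.ofNat 1)]

/-- Row. -/
def t1r0_20 : List ℤ := [(Int.ofNat 1),(Int.negSucc 19),(Int.ofNat 190),(Int.negSucc 1139),(Int.ofNat 4845),(Int.negSucc 15503),(Int.ofNat 38760),(Int.negSucc 77519),(Int.ofNat 125970),(Int.negSucc 167959),(Int.ofNat 184756),(Int.negSucc 167959),(Int.ofNat 125970),(Int.negSucc 77519),(Int.ofNat 38760),(Int.negSucc 15503),(Int.ofNat 4845),(Int.negSucc 1139),(Int.ofNat 190),(Int.negSucc 19),(Int.ofNat 1)]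

/-- Row. -/
def t1r0_21 : List ℤ := [(Int.negSucc 0),(Int.ofNat 21),(Int.negSucc 209),(Int.ofNat 1330),(Int.negSucc 5984),(Int.ofNat 20349),(Int.negSucc 54263),(Int.ofNat 116280),(Int.negSucc 203489),(Int.ofNat 293930),(Int.negSucc 352715),(Int.ofNat 352716),(Int.negSucc 293929),(Int.ofNat 203490),(Int.negSucc 116279),(Int.ofNat 54264),(Int.negSucc 20348),(Int.ofNat 5985),(Int.negSucc 1329),(Int.ofNat 210),(Int.negSucc 20),(Int.ofNat 1)]

/-- Row. -/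
def t1r0_22 : List ℤ := [(Int.ofNat 1),(Int.negSucc 21),(Int.ofNat 231),(Int.negSucc 1539),(Int.ofNat 7315),(Int.negSucc 26333),(Int.ofNat 74613),(Int.negSucc 170543),(Int.ofNat 319770),(Int.negSucc 497419),(Int.ofNat 646646),(Int.negSucc 705431),(Int.ofNat 646646),(Int.negSucc 497419),(Int.ofNat 319770),(Int.negSucc 170543),(Int.ofNat 74613),(Int.negSucc 26333),(Int.ofNat 7315),(Int.negSucc 1539),(Int.ofNat 231),(Int.negSucc 21),(Int.ofNat 1)]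

/-- Row. -/
def t1r0_23 : List ℤ := [(Int.negSucc 0),(Int.ofNat 23),(Int.negSucc 252),(Int.ofNat 1771),(Int.negSucc 8854),(Int.ofNat 33649),(Int.negSucc 100946),(Int.ofNat 245157),(Int.negSucc 490313),(Int.ofNat 817190),(Int.negSucc 1144065),(Int.ofNat 1352078),(Int.negSucc 1352077),(Int.ofNat 1144066),(Int.negSucc 817189),(Int.ofNat 490314),(Int.negSucc 245156),(Int.ofNat 100947),(Int.negSucc 33648),(Int.ofNat 8855),(Int.negSucc 1770),(Int.ofNat 253),(Int.negSucc 22),(Int.ofNat 1)]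

/-- Rows. -/
def t1r0 : List (List ℤ) := [t1r0_0,t1r0_1,t1r0_2,t1r0_3,t1r0_4,t1r0_5,t1r0_6,t1r0_7,t1r0_8,t1r0_9,t1r0_10,t1r0_11,t1r0_12,t1r0_13,t1r0_14,t1r0_15,t1r0_16,t1r0_17,t1r0_18,t1r0_19,t1r0_20,t1r0_21,t1r0_22,t1r0_23]

/-- Row. -/
def t1r1_0 : List ℤ := [(Int.ofNat 1),(Int.ofNat 2)]

/-- Row. -/
def t1r1_1 : List ℤ := [(Int.negSucc 0),(Int.negSucc 0),(Int.ofNat 2)]

/-- Row. -/
def t1r1_2 : List ℤ := [(Int.ofNat 1),(Int.ofNat 0),(Int.negSucc 2),(Int.ofNat 2)]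

/-- Row. -/
def t1r1_3 : List ℤ := [(Int.negSucc 0),(Int.ofNat 1),(Int.ofNat 3),(Int.negSucc 4),(Int.ofNat 2)]

/-- Row. -/
def t1r1_4 : List ℤ := [(Int.ofNat 1),(Int.negSucc 1),(Int.negSucc 1),(Int.ofNat 8),(Int.negSucc 6),(Int.ofNat 2)]

/-- Row. -/
def t1r1_5 : List ℤ := [(Int.negSucc 0),(Int.ofNat 3),(Int.ofNat 0),(Int.negSucc 9),(Int.ofNat 15),(Int.negSucc 8),(Int.ofNat 2)]

/-- Row. -/
def t1r1_6 : List ℤ := [(Int.ofNat 1),(Int.negSucc 3),(Int.ofNat 3),(Int.ofNat 10),(Int.negSucc 24),(Int.ofNat 24),(Int.negSucc 10),(Int.ofNat 2)]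

/-- Row. -/
def t1r1_7 : List ℤ := [(Int.negSucc 0),(Int.ofNat 5),(Int.negSucc 6),(Int.negSucc 6),(Int.ofNat 35),(Int.negSucc 48),(Int.ofNat 35),(Int.negSucc 12),(Int.ofNat 2)]

/-- Row. -/
def t1r1_8 : List ℤ := [(Int.ofNat 1),(Int.negSucc 5),(Int.ofNat 12),(Int.ofNat 0),(Int.negSucc 41),(Int.ofNat 84),(Int.negSucc 83),(Int.ofNat 48),(Int.negSucc 14),(Int.ofNat 2)]

/-- Row. -/
def t1r1_9 : List ℤ := [(Int.negSucc 0),(Int.ofNat 7),(Int.negSucc 17),(Int.ofNat 12),(Int.ofNat 42),(Int.negSucc 125),(Int.ofNat 168),(Int.negSucc 131),(Int.ofNat 63),(Int.negSucc 16),(Int.ofNat 2)]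

/-- Row. -/
def t1r1_10 : List ℤ := [(Int.ofNat 1),(Int.negSucc 7),(Int.ofNat 25),(Int.negSucc 29),(Int.negSucc 29),(Int.ofNat 168),(Int.negSucc 293),(Int.ofNat 300),(Int.negSucc 194),(Int.ofNat 80),(Int.negSucc 18),(Int.ofNat 2)]

/-- Row. -/
def t1r1_11 : List ℤ := [(Int.negSucc 0),(Int.ofNat 9),(Int.negSucc 32),(Int.ofNat 55),(Int.ofNat 0),(Int.negSucc 197),(Int.ofNat 462),(Int.negSucc 593),(Int.ofNat 495),(Int.negSucc 274),(Int.ofNat 99),(Int.negSucc 20),(Int.ofNat 2)]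

/-- Row. -/
def t1r1_12 : List ℤ := [(Int.ofNat 1),(Int.negSucc 9),(Int.ofNat 42),(Int.negSucc 87),(Int.ofNat 55),(Int.ofNat 198),(Int.negSucc 659),(Int.ofNat 1056),(Int.negSucc 1088),(Int.ofNat 770),(Int.negSucc 373),(Int.ofNat 120),(Int.negSucc 22),(Int.ofNat 2)]

/-- Row. -/
def t1r1_13 : List ℤ := [(Int.negSucc 0),(Int.ofNat 11),(Int.negSucc 51),(Int.ofNat 130),(Int.negSucc 142),(Int.negSucc 142),(Int.ofNat 858),(Int.negSucc 1715),(Int.ofNat 2145),(Int.negSucc 1858),(Int.ofNat 1144),(Int.negSucc 493),(Int.ofNat 143),(Int.negSucc 24),(Int.ofNat 2)]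

/-- Row. -/
def t1r1_14 : List ℤ := [(Int.ofNat 1),(Int.negSucc 11),(Int.ofNat 63),(Int.negSucc 181),(Int.ofNat 273),(Int.ofNat 0),(Int.negSucc 1000),(Int.ofNat 2574),(Int.negSucc 3860),(Int.ofNat 4004),(Int.negSucc 3002),(Int.ofNat 1638),(Int.negSucc 636),(Int.ofNat 168),(Int.negSucc 26),(Int.ofNat 2)]

/-- Row. -/
def t1r1_15 : List ℤ := [(Int.negSucc 0),(Int.ofNat 13),(Int.negSucc 74),(Int.ofNat 245),(Int.negSucc 454),(Int.ofNat 273),(Int.ofNat 1001),(Int.negSucc 3574),(Int.ofNat 6435),(Int.negSucc 7864),(Int.ofNat 7007),(Int.negSucc 4640),(Int.ofNat 2275),(Int.negSucc 804),(Int.ofNat 195),(Int.negSucc 28),(Int.ofNat 2)]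

/-- Row. -/
def t1r1_16 : List ℤ := [(Int.ofNat 1),(Int.negSucc 13),(Int.ofNat 88),(Int.negSucc 319),(Int.ofNat 700),(Int.negSucc 727),(Int.negSucc 727),(Int.ofNat 4576),(Int.negSucc 10009),(Int.ofNat 14300),(Int.negSucc 14871),(Int.ofNat 11648),(Int.negSucc 6915),(Int.ofNat 3080),(Int.negSucc 999),(Int.ofNat 224),(Int.negSucc 30),(Int.ofNat 2)]

/-- Row. -/
def t1r1_17 : List ℤ := [(Int.negSucc 0),(Int.ofNat 15),(Int.negSucc 101),(Int.ofNat 408),(Int.negSucc 1019),(Int.ofNat 1428),(Int.ofNat 0),(Int.negSucc 5303),(Int.ofNat 14586),(Int.negSucc 24309),(Int.ofNat 29172),(Int.negSucc 26519),(Int.ofNat 18564),(Int.negSucc 9995),(Int.ofNat 4080),(Int.negSucc 1223),(Int.ofNat 255),(Int.negSucc 32),(Int.ofNat 2)]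

/-- Row. -/
def t1r1_18 : List ℤ := [(Int.ofNat 1),(Int.negSucc 15),(Int.ofNat 117),(Int.negSucc 509),(Int.ofNat 1428),(Int.negSucc 2447),(Int.ofNat 1428),(Int.ofNat 5304),(Int.negSucc 19889),(Int.ofNat 38896),(Int.negSucc 53481),(Int.ofNat 55692),(Int.negSucc 45083),(Int.ofNat 28560),(Int.negSucc 14075),(Int.ofNat 5304),(Int.negSucc 1478),(Int.ofNat 288),(Int.negSucc 34),(Int.ofNat 2)]

/-- Row. -/
def t1r1_19 : List ℤ := [(Int.negSucc 0),(Int.ofNat 17),(Int.negSucc 132),(Int.ofNat 627),(Int.negSucc 1937),(Int.ofNat 3876),(Int.negSucc 3875),(Int.negSucc 3875),(Int.ofNat 25194),(Int.negSucc 58785),(Int.ofNat 92378),(Int.negSucc 109173),(Int.ofNat 100776),(Int.negSucc 73643),(Int.ofNat 42636),(Int.negSucc 19379),(Int.ofNat 6783),(Int.negSucc 1766),(Int.ofNat 323),(Int.negSucc 36),(Int.ofNat 2)]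

/-- Row. -/
def t1r1_20 : List ℤ := [(Int.ofNat 1),(Int.negSucc 17),(Int.ofNat 150),(Int.negSucc 759),(Int.ofNat 2565),(Int.negSucc 5813),(Int.ofNat 7752),(Int.ofNat 0),(Int.negSucc 29069),(Int.ofNat 83980),(Int.negSucc 151163),(Int.ofNat 201552),(Int.negSucc 209949),(Int.ofNat 174420),(Int.negSucc 116279),(Int.ofNat 62016),(Int.negSucc 26162),(Int.ofNat 8550),(Int.negSucc 2089),(Int.ofNat 360),(Int.negSucc 38),(Int.ofNat 2)]

/-- Row. -/
def t1r1_21 : List ℤ := [(Int.negSucc 0),(Int.ofNat 19),(Int.negSucc 167),(Int.ofNat 910),(Int.negSucc 3324),(Int.ofNat 8379),(Int.negSucc 13565),(Int.ofNat 7752),(Int.ofNat 29070),(Int.negSucc 113049),(Int.ofNat 235144),(Int.negSucc 352715),(Int.ofNat 411502),(Int.negSucc 384369),(Int.ofNat 290700),(Int.negSucc 178295),(Int.ofNat 88179),(Int.negSucc 34712),(Int.ofNat 10640),(Int.negSucc 2449),(Int.ofNat 399),(Int.negSucc 40),(Int.ofNat 2)]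

/-- Row. -/
def t1r1_22 : List ℤ := [(Int.ofNat 1),(Int.negSucc 19),(Int.ofNat 187),(Int.negSucc 1077),(Int.ofNat 4235),(Int.negSucc 11703),(Int.ofNat 21945),(Int.negSucc 21317),(Int.negSucc 21317),(Int.ofNat 142120),(Int.negSucc 348193),(Int.ofNat 587860),(Int.negSucc 764217),(Int.ofNat 795872),(Int.negSucc 675069),(Int.ofNat 468996),(Int.negSucc 266474),(Int.ofNat 122892),(Int.negSucc 45352),(Int.ofNat 13090),(Int.negSucc 2848),(Int.ofNat 440),(Int.negSucc 42),(Int.ofNat 2)]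

/-- Row. -/
def t1r1_23 : List ℤ := [(Int.negSucc 0),(Int.ofNat 21),(Int.negSucc 206),(Int.ofNat 1265),(Int.negSucc 5312),(Int.ofNat 15939),(Int.negSucc 33648),(Int.ofNat 43263),(Int.ofNat 0),(Int.negSucc 163437),(Int.ofNat 490314),(Int.negSucc 936053),(Int.ofNat 1352078),(Int.negSucc 1560089),(Int.ofNat 1470942),(Int.negSucc 1144065),(Int.ofNat 735471),(Int.negSucc 389366),(Int.ofNat 168245),(Int.negSucc 58442),(Int.ofNat 15939),(Int.negSucc 3288),(Int.ofNat 483),(Int.negSucc 44),(Int.ofNat 2)]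

/-- Rows. -/
def t1r1 : List (List ℤ) := [t1r1_0,t1r1_1,t1r1_2,t1r1_3,t1r1_4,t1r1_5,t1r1_6,t1r1_7,t1r1_8,t1r1_9,t1r1_10,t1r1_11,t1r1_12,t1r1_13,t1r1_14,t1r1_15,t1r1_16,t1r1_17,t1r1_18,t1r1_19,t1r1_20,t1r1_21,t1r1_22,t1r1_23]

/-- Row. -/
def t1r2_0 : List ℤ := [(Int.ofNat 1),(Int.ofNat 4),(Int.ofNat 4)]

/-- Row. -/
def t1r2_1 : List ℤ := [(Int.negSucc 0),(Int.negSucc 2),(Int.ofNat 0),(Int.ofNat 4)]

/-- Row. -/
def t1r2_2 : List ℤ := [(Int.ofNat 1),(Int.ofNat 2),(Int.negSucc 2),(Int.negSucc 3),(Int.ofNat 4)]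

/-- Row. -/
def t1r2_3 : List ℤ := [(Int.negSucc 0),(Int.negSucc 0),(Int.ofNat 5),(Int.ofNat 1),(Int.negSucc 7),(Int.ofNat 4)]

/-- Row. -/
def t1r2_4 : List ℤ := [(Int.ofNat 1),(Int.ofNat 0),(Int.negSucc 5),(Int.ofNat 4),(Int.ofNat 9),(Int.negSucc 11),(Int.ofNat 4)]

/-- Row. -/
def t1r2_5 : List ℤ := [(Int.negSucc 0),(Int.ofNat 1),(Int.ofNat 6),(Int.negSucc 9),(Int.negSucc 4),(Int.ofNat 21),(Int.negSucc 15),(Int.ofNat 4)]

/-- Row. -/
def t1r2_6 : List ℤ := [(Int.ofNat 1),(Int.negSucc 1),(Int.negSucc 4),(Int.ofNat 16),(Int.negSucc 4),(Int.negSucc 25),(Int.ofNat 37),(Int.negSucc 19),(Int.ofNat 4)]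

/-- Row. -/
def t1r2_7 : List ℤ := [(Int.negSucc 0),(Int.ofNat 3),(Int.ofNat 3),(Int.negSucc 20),(Int.ofNat 21),(Int.ofNat 21),(Int.negSucc 62),(Int.ofNat 57),(Int.negSucc 23),(Int.ofNat 4)]

/-- Row. -/
def t1r2_8 : List ℤ := [(Int.ofNat 1),(Int.negSucc 3),(Int.ofNat 0),(Int.ofNat 24),(Int.negSucc 41),(Int.ofNat 0),(Int.ofNat 84),(Int.negSucc 119),(Int.ofNat 81),(Int.negSucc 27),(Int.ofNat 4)]

/-- Row. -/
def t1r2_9 : List ℤ := [(Int.negSucc 0),(Int.ofNat 5),(Int.negSucc 3),(Int.negSucc 23),(Int.ofNat 66),(Int.negSucc 41),(Int.negSucc 83),(Int.ofNat 204),(Int.negSucc 200),(Int.ofNat 109),(Int.negSucc 31),(Int.ofNat 4)]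

/-- Row. -/
def t1r2_10 : List ℤ := [(Int.ofNat 1),(Int.negSucc 5),(Int.ofNat 9),(Int.ofNat 20),(Int.negSucc 89),(Int.ofNat 108),(Int.ofNat 42),(Int.negSucc 287),(Int.ofNat 405),(Int.negSucc 309),(Int.ofNat 141),(Int.negSucc 35),(Int.ofNat 4)]

/-- Row. -/
def t1r2_11 : List ℤ := [(Int.negSucc 0),(Int.ofNat 7),(Int.negSucc 14),(Int.negSucc 10),(Int.ofNat 110),(Int.negSucc 197),(Int.ofNat 66),(Int.ofNat 330),(Int.negSucc 692),(Int.ofNat 715),(Int.negSucc 450),(Int.ofNat 177),(Int.negSucc 39),(Int.ofNat 4)]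

/-- Row. -/
def t1r2_12 : List ℤ := [(Int.ofNat 1),(Int.negSucc 7),(Int.ofNat 22),(Int.negSucc 3),(Int.negSucc 120),(Int.ofNat 308),(Int.negSucc 263),(Int.negSucc 263),(Int.ofNat 1023),(Int.negSucc 1407),(Int.ofNat 1166),(Int.negSucc 627),(Int.ofNat 217),(Int.negSucc 43),(Int.ofNat 4)]

/-- Row. -/
def t1r2_13 : List ℤ := [(Int.negSucc 0),(Int.ofNat 9),(Int.negSucc 29),(Int.ofNat 26),(Int.ofNat 117),(Int.negSucc 428),(Int.ofNat 572),(Int.ofNat 0),(Int.negSucc 1286),(Int.ofNat 2431),(Int.negSucc 2573),(Int.ofNat 1794),(Int.negSucc 844),(Int.ofNat 261),(Int.negSucc 47),(Int.ofNat 4)]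

/-- Row. -/
def t1r2_14 : List ℤ := [(Int.ofNat 1),(Int.negSucc 9),(Int.ofNat 39),(Int.negSucc 55),(Int.negSucc 90),(Int.ofNat 546),(Int.negSucc 1000),(Int.ofNat 572),(Int.ofNat 1287),(Int.negSucc 3717),(Int.ofNat 5005),(Int.negSucc 4367),(Int.ofNat 2639),(Int.negSucc 1105),(Int.ofNat 309),(Int.negSucc 51),(Int.ofNat 4)]

/-- Row. -/
def t1r2_15 : List ℤ := [(Int.negSucc 0),(Int.ofNat 11),(Int.negSucc 48),(Int.ofNat 95),(Int.ofNat 35),(Int.negSucc 636),(Int.ofNat 1547),(Int.negSucc 1572),(Int.negSucc 714),(Int.ofNat 5005),(Int.negSucc 8722),(Int.ofNat 9373),(Int.negSucc 7006),(Int.ofNat 3745),(Int.negSucc 1414),(Int.ofNat 361),(Int.negSucc 55),(Int.ofNat 4)]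

/-- Row. -/
def t1r2_16 : List ℤ := [(Int.ofNat 1),(Int.negSucc 11),(Int.ofNat 60),(Int.negSucc 143),(Int.ofNat 60),(Int.ofNat 672),(Int.negSucc 2183),(Int.ofNat 3120),(Int.negSucc 857),(Int.negSucc 5719),(Int.ofNat 13728),(Int.negSucc 18095),(Int.ofNat 16380),(Int.negSucc 10751),(Int.ofNat 5160),(Int.negSucc 1775),(Int.ofNat 417),(Int.negSucc 59),(Int.ofNat 4)]

/-- Row. -/
def t1r2_17 : List ℤ := [(Int.negSucc 0),(Int.ofNat 13),(Int.negSucc 71),(Int.ofNat 204),(Int.negSucc 203),(Int.negSucc 611),(Int.ofNat 2856),(Int.negSucc 5303),(Int.ofNat 3978),(Int.ofNat 4862),(Int.negSucc 19447),(Int.ofNat 31824),(Int.negSucc 34475),(Int.ofNat 27132),(Int.negSucc 15911),(Int.ofNat 6936),(Int.negSucc 2192),(Int.ofNat 477),(Int.negSucc 63),(Int.ofNat 4)]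

/-- Row. -/
def t1r2_18 : List ℤ := [(Int.ofNat 1),(Int.negSucc 13),(Int.ofNat 85),(Int.negSucc 275),(Int.ofNat 408),(Int.ofNat 408),(Int.negSucc 3467),(Int.ofNat 8160),(Int.negSucc 9281),(Int.negSucc 883),(Int.ofNat 24310),(Int.negSucc 51271),(Int.ofNat 66300),(Int.negSucc 61607),(Int.ofNat 43044),(Int.negSucc 22847),(Int.ofNat 9129),(Int.negSucc 2669),(Int.ofNat 541),(Int.negSucc 67),(Int.ofNat 4)]

/-- Row. -/
def t1r2_19 : List ℤ := [(Int.negSucc 0),(Int.ofNat 15),(Int.negSucc 98),(Int.ofNat 361),(Int.negSucc 683),(Int.ofNat 0),(Int.ofNat 3876),(Int.negSucc 11627),(Int.ofNat 17442),(Int.negSucc 8397),(Int.negSucc 25193),(Int.ofNat 75582),(Int.negSucc 117571),(Int.ofNat 127908),(Int.negSucc 104651),(Int.ofNat 65892),(Int.negSucc 31976),(Int.ofNat 11799),(Int.negSucc 3210),(Int.ofNat 609),(Int.negSucc 71),(Int.ofNat 4)]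

/-- Row. -/
def t1r2_20 : List ℤ := [(Int.ofNat 1),(Int.negSucc 15),(Int.ofNat 114),(Int.negSucc 459),(Int.ofNat 1045),(Int.negSucc 683),(Int.negSucc 3875),(Int.ofNat 15504),(Int.negSucc 29069),(Int.ofNat 25840),(Int.ofNat 16796),(Int.negSucc 100775),(Int.ofNat 193154),(Int.negSucc 245479),(Int.ofNat 232560),(Int.negSucc 170543),(Int.ofNat 97869),(Int.negSucc 43775),(Int.ofNat 15010),(Int.negSucc 3819),(Int.ofNat 681),(Int.negSucc 75),(Int.ofNat 4)]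

/-- Row. -/
def t1r2_21 : List ℤ := [(Int.negSucc 0),(Int.ofNat 17),(Int.negSucc 129),(Int.ofNat 574),(Int.negSucc 1504),(Int.ofNat 1729),(Int.ofNat 3192),(Int.negSucc 19379),(Int.ofNat 44574),(Int.negSucc 54909),(Int.ofNat 9044),(Int.ofNat 117572),(Int.negSucc 293929),(Int.ofNat 438634),(Int.negSucc 478039),(Int.ofNat 403104),(Int.negSucc 268412),(Int.ofNat 141645),(Int.negSucc 58785),(Int.ofNat 18830),(Int.negSucc 4500),(Int.ofNat 757),(Int.negSucc 79),(Int.ofNat 4)]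

/-- Row. -/
def t1r2_22 : List ℤ := [(Int.ofNat 1),(Int.negSucc 17),(Int.ofNat 147),(Int.negSucc 703),(Int.ofNat 2079),(Int.negSucc 3233),(Int.negSucc 1462),(Int.ofNat 22572),(Int.negSucc 63953),(Int.ofNat 99484),(Int.negSucc 63953),(Int.negSucc 108527),(Int.ofNat 411502),(Int.negSucc 732563),(Int.ofNat 916674),(Int.negSucc 881143),(Int.ofNat 671517),(Int.negSucc 410057),(Int.ofNat 200431),(Int.negSucc 77615),(Int.ofNat 23331),(Int.negSucc 5257),(Int.ofNat 837),(Int.negSucc 83),(Int.ofNat 4)]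

/-- Row. -/
def t1r2_23 : List ℤ := [(Int.negSucc 0),(Int.ofNat 19),(Int.negSucc 164),(Int.ofNat 851),(Int.negSucc 2782),(Int.ofNat 5313),(Int.negSucc 1770),(Int.negSucc 24034),(Int.ofNat 86526),(Int.negSucc 163437),(Int.ofNat 163438),(Int.ofNat 44574),(Int.negSucc 520029),(Int.ofNat 1144066),(Int.negSucc 1649237),(Int.ofNat 1797818),(Int.negSucc 1552660),(Int.ofNat 1081575),(Int.negSucc 610488),(Int.ofNat 278047),(Int.negSucc 100946),(Int.ofNat 28589),(Int.negSucc 6094),(Int.ofNat 921),(Int.negSucc 87),(Int.ofNat 4)]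

/-- Rows. -/
def t1r2 : List (List ℤ) := [t1r2_0,t1r2_1,t1r2_2,t1r2_3,t1r2_4,t1r2_5,t1r2_6,t1r2_7,t1r2_8,t1r2_9,t1r2_10,t1r2_11,t1r2_12,t1r2_13,t1r2_14,t1r2_15,t1r2_16,t1r2_17,t1r2_18,t1r2_19,t1r2_20,t1r2_21,t1r2_22,t1r2_23]

/-- Row. -/
def t1r3_0 : List ℤ := [(Int.ofNat 1),(Int.ofNat 6),(Int.ofNat 12),(Int.ofNat 8)]

/-- Row. -/
def t1r3_1 : List ℤ := [(Int.negSucc 0),(Int.negSucc 4),(Int.negSucc 5),(Int.ofNat 4),(Int.ofNat 8)]

/-- Row. -/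
def t1r3_2 : List ℤ := [(Int.ofNat 1),(Int.ofNat 4),(Int.ofNat 1),(Int.negSucc 9),(Int.negSucc 3),(Int.ofNat 8)]

/-- Row. -/
def t1r3_3 : List ℤ := [(Int.negSucc 0),(Int.negSucc 2),(Int.ofNat 3),(Int.ofNat 11),(Int.negSucc 5),(Int.negSucc 11),(Int.ofNat 8)]

/-- Row. -/
def t1r3_4 : List ℤ := [(Int.ofNat 1),(Int.ofNat 2),(Int.negSucc 5),(Int.negSucc 7),(Int.ofNat 17),(Int.ofNat 6),(Int.negSucc 19),(Int.ofNat 8)]

/-- Row. -/
def t1r3_5 : List ℤ := [(Int.negSucc 0),(Int.negSucc 0),(Int.ofNat 8),(Int.ofNat 2),(Int.negSucc 24),(Int.ofNat 11),(Int.ofNat 26),(Int.negSucc 27),(Int.ofNat 8)]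

/-- Row. -/
def t1r3_6 : List ℤ := [(Int.ofNat 1),(Int.ofNat 0),(Int.negSucc 8),(Int.ofNat 6),(Int.ofNat 27),(Int.negSucc 35),(Int.negSucc 14),(Int.ofNat 54),(Int.negSucc 35),(Int.ofNat 8)]

/-- Row. -/
def t1r3_7 : List ℤ := [(Int.negSucc 0),(Int.ofNat 1),(Int.ofNat 9),(Int.negSucc 14),(Int.negSucc 20),(Int.ofNat 63),(Int.negSucc 20),(Int.negSucc 68),(Int.ofNat 90),(Int.negSucc 43),(Int.ofNat 8)]

/-- Row. -/
def t1r3_8 : List ℤ := [(Int.ofNat 1),(Int.negSucc 1),(Int.negSucc 7),(Int.ofNat 24),(Int.ofNat 6),(Int.negSucc 83),(Int.ofNat 84),(Int.ofNat 48),(Int.negSucc 158),(Int.ofNat 134),(Int.negSucc 51),(Int.ofNat 8)]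

/-- Row. -/
def t1r3_9 : List ℤ := [(Int.negSucc 0),(Int.ofNat 3),(Int.ofNat 6),(Int.negSucc 31),(Int.ofNat 18),(Int.ofNat 90),(Int.negSucc 167),(Int.ofNat 36),(Int.ofNat 207),(Int.negSucc 292),(Int.ofNat 186),(Int.negSucc 59),(Int.ofNat 8)]

/-- Row. -/
def t1r3_10 : List ℤ := [(Int.ofNat 1),(Int.negSucc 3),(Int.negSucc 2),(Int.ofNat 38),(Int.negSucc 49),(Int.negSucc 71),(Int.ofNat 258),(Int.negSucc 203),(Int.negSucc 170),(Int.ofNat 500),(Int.negSucc 478),(Int.ofNat 246),(Int.negSucc 67),(Int.ofNat 8)]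

/-- Row. -/
def t1r3_11 : List ℤ := [(Int.negSucc 0),(Int.ofNat 5),(Int.negSucc 0),(Int.negSucc 40),(Int.ofNat 88),(Int.ofNat 22),(Int.negSucc 329),(Int.ofNat 462),(Int.negSucc 32),(Int.negSucc 670),(Int.ofNat 979),(Int.negSucc 724),(Int.ofNat 314),(Int.negSucc 75),(Int.ofNat 8)]

/-- Row. -/
def t1r3_12 : List ℤ := [(Int.ofNat 1),(Int.negSucc 5),(Int.ofNat 6),(Int.ofNat 40),(Int.negSucc 128),(Int.ofNat 66),(Int.ofNat 352),(Int.negSucc 791),(Int.ofNat 495),(Int.ofNat 638),(Int.negSucc 1649),(Int.ofNat 1704),(Int.negSucc 1038),(Int.ofNat 390),(Int.negSucc 83),(Int.ofNat 8)]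

/-- Row. -/
def t1r3_13 : List ℤ := [(Int.negSucc 0),(Int.ofNat 7),(Int.negSucc 11),(Int.negSucc 33),(Int.ofNat 169),(Int.negSucc 194),(Int.negSucc 285),(Int.ofNat 1144),(Int.negSucc 1286),(Int.negSucc 142),(Int.ofNat 2288),(Int.negSucc 3353),(Int.ofNat 2743),(Int.negSucc 1428),(Int.ofNat 474),(Int.negSucc 91),(Int.ofNat 8)]

/-- Row. -/
def t1r3_14 : List ℤ := [(Int.ofNat 1),(Int.negSucc 7),(Int.ofNat 19),(Int.ofNat 22),(Int.negSucc 202),(Int.ofNat 364),(Int.ofNat 91),(Int.negSucc 1429),(Int.ofNat 2431),(Int.negSucc 1143),(Int.negSucc 2430),(Int.ofNat 5642),(Int.negSucc 6096),(Int.ofNat 4172),(Int.negSucc 1902),(Int.ofNat 566),(Int.negSucc 99),(Int.ofNat 8)]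

/-- Row. -/
def t1r3_15 : List ℤ := [(Int.negSucc 0),(Int.ofNat 9),(Int.negSucc 26),(Int.negSucc 2),(Int.ofNat 225),(Int.negSucc 566),(Int.ofNat 273),(Int.ofNat 1521),(Int.negSucc 3860),(Int.ofNat 3575),(Int.ofNat 1287),(Int.negSucc 8072),(Int.ofNat 11739),(Int.negSucc 10268),(Int.ofNat 6075),(Int.negSucc 2468),(Int.ofNat 666),(Int.negSucc 107),(Int.ofNat 8)]

/-- Row. -/
def t1r3_16 : List ℤ := [(Int.ofNat 1),(Int.negSucc 9),(Int.ofNat 36),(Int.negSucc 23),(Int.negSucc 227),(Int.ofNat 792),(Int.negSucc 839),(Int.negSucc 1247),(Int.ofNat 5382),(Int.negSucc 7435),(Int.ofNat 2288),(Int.ofNat 9360),(Int.negSucc 19811),(Int.ofNat 22008),(Int.negSucc 16343),(Int.ofNat 8544),(Int.negSucc 3134),(Int.ofNat 774),(Int.negSucc 115),(Int.ofNat 8)]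

/-- Row. -/
def t1r3_17 : List ℤ := [(Int.negSucc 0),(Int.ofNat 11),(Int.negSucc 45),(Int.ofNat 60),(Int.ofNat 204),(Int.negSucc 1019),(Int.ofNat 1632),(Int.ofNat 408),(Int.negSucc 6629),(Int.ofNat 12818),(Int.negSucc 9723),(Int.negSucc 7071),(Int.ofNat 29172),(Int.negSucc 41819),(Int.ofNat 38352),(Int.negSucc 24887),(Int.ofNat 11679),(Int.negSucc 3908),(Int.ofNat 890),(Int.negSucc 123),(Int.ofNat 8)]

/-- Row. -/
def t1r3_18 : List ℤ := [(Int.ofNat 1),(Int.negSucc 11),(Int.ofNat 57),(Int.negSucc 105),(Int.negSucc 143),(Int.ofNat 1224),(Int.negSucc 2651),(Int.ofNat 1224),(Int.ofNat 7038),(Int.negSucc 19447),(Int.ofNat 22542),(Int.negSucc 2651),(Int.negSucc 36243),(Int.ofNat 70992),(Int.negSucc 80171),(Int.ofNat 63240),(Int.negSucc 36566),(Int.ofNat 15588),(Int.negSucc 4798),(Int.ofNat 1014),(Int.negSucc 131),(Int.ofNat 8)]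

/-- Row. -/
def t1r3_19 : List ℤ := [(Int.negSucc 0),(Int.ofNat 13),(Int.negSucc 68),(Int.ofNat 163),(Int.ofNat 38),(Int.negSucc 1367),(Int.ofNat 3876),(Int.negSucc 3875),(Int.negSucc 5813),(Int.ofNat 26486),(Int.negSucc 41989),(Int.ofNat 25194),(Int.ofNat 33592),(Int.negSucc 107235),(Int.ofNat 151164),(Int.negSucc 143411),(Int.ofNat 99807),(Int.negSucc 52154),(Int.ofNat 20387),(Int.negSucc 5812),(Int.ofNat 1146),(Int.negSucc 139),(Int.ofNat 8)]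

/-- Row. -/
def t1r3_20 : List ℤ := [(Int.ofNat 1),(Int.negSucc 13),(Int.ofNat 82),(Int.negSucc 231),(Int.ofNat 125),(Int.ofNat 1406),(Int.negSucc 5243),(Int.ofNat 7752),(Int.ofNat 1938),(Int.negSucc 32299),(Int.ofNat 68476),(Int.negSucc 67183),(Int.negSucc 8397),(Int.ofNat 140828),(Int.negSucc 258399),(Int.ofNat 294576),(Int.negSucc 243218),(Int.ofNat 151962),(Int.negSucc 72541),(Int.ofNat 26200),(Int.negSucc 6958),(Int.ofNat 1286),(Int.negSucc 147),(Int.ofNat 8)]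

/-- Row. -/
def t1r3_21 : List ℤ := [(Int.negSucc 0),(Int.ofNat 15),(Int.negSucc 95),(Int.ofNat 314),(Int.negSucc 356),(Int.negSucc 1280),(Int.ofNat 6650),(Int.negSucc 12995),(Int.ofNat 5814),(Int.ofNat 34238),(Int.negSucc 100775),(Int.ofNat 135660),(Int.negSucc 58785),(Int.negSucc 149225),(Int.ofNat 399228),(Int.negSucc 552975),(Int.ofNat 537795),(Int.negSucc 395180),(Int.ofNat 224504),(Int.negSucc 98741),(Int.ofNat 33159),(Int.negSucc 8244),(Int.ofNat 1434),(Int.negSucc 155),(Int.ofNat 8)]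

/-- Row. -/
def t1r3_22 : List ℤ := [(Int.ofNat 1),(Int.negSucc 15),(Int.ofNat 111),(Int.negSucc 409),(Int.ofNat 671),(Int.ofNat 924),(Int.negSucc 7930),(Int.ofNat 19646),(Int.negSucc 18809),(Int.negSucc 28423),(Int.ofNat 135014),(Int.negSucc 236435),(Int.ofNat 194446),(Int.ofNat 90440),(Int.negSucc 548453),(Int.ofNat 952204),(Int.negSucc 1090770),(Int.ofNat 932976),(Int.negSucc 619684),(Int.ofNat 323246),(Int.negSucc 131900),(Int.ofNat 41404),(Int.negSucc 9678),(Int.ofNat 1590),(Int.negSucc 163),(Int.ofNat 8)]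

/-- Row. -/
def t1r3_23 : List ℤ := [(Int.negSucc 0),(Int.ofNat 17),(Int.negSucc 126),(Int.ofNat 521),(Int.negSucc 1080),(Int.negSucc 252),(Int.ofNat 8855),(Int.negSucc 27576),(Int.ofNat 38456),(Int.ofNat 9614),(Int.negSucc 163437),(Int.ofNat 371450),(Int.negSucc 430881),(Int.ofNat 104006),(Int.ofNat 638894),(Int.negSucc 1500657),(Int.ofNat 2042975),(Int.negSucc 2023746),(Int.ofNat 1552661),(Int.negSucc 942930),(Int.ofNat 455147),(Int.negSucc 173304),(Int.ofNat 51083),(Int.negSucc 11268),(Int.ofNat 1754),(Int.negSucc 171),(Int.ofNat 8)]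

/-- Rows. -/
def t1r3 : List (List ℤ) := [t1r3_0,t1r3_1,t1r3_2,t1r3_3,t1r3_4,t1r3_5,t1r3_6,t1r3_7,t1r3_8,t1r3_9,t1r3_10,t1r3_11,t1r3_12,t1r3_13,t1r3_14,t1r3_15,t1r3_16,t1r3_17,t1r3_18,t1r3_19,t1r3_20,t1r3_21,t1r3_22,t1r3_23]

/-- Row. -/
def t1r4_0 : List ℤ := [(Int.ofNat 1),(Int.ofNat 8),(Int.ofNat 24),(Int.ofNat 32),(Int.ofNat 16)]

/-- Row. -/
def t1r4_1 : List ℤ := [(Int.negSucc 0),(Int.negSucc 6),(Int.negSucc 15),(Int.negSucc 7),(Int.ofNat 16),(Int.ofNat 16)]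

/-- Row. -/
def t1r4_2 : List ℤ := [(Int.ofNat 1),(Int.ofNat 6),(Int.ofNat 9),(Int.negSucc 7),(Int.negSucc 23),(Int.ofNat 0),(Int.ofNat 16)]

/-- Row. -/
def t1r4_3 : List ℤ := [(Int.negSucc 0),(Int.negSucc 4),(Int.negSucc 2),(Int.ofNat 17),(Int.ofNat 16),(Int.negSucc 23),(Int.negSucc 15),(Int.ofNat 16)]

/-- Row. -/
def t1r4_4 : List ℤ := [(Int.ofNat 1),(Int.ofNat 4),(Int.negSucc 1),(Int.negSucc 19),(Int.ofNat 1),(Int.ofNat 40),(Int.negSucc 7),(Int.negSucc 31),(Int.ofNat 16)]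

/-- Row. -/
def t1r4_5 : List ℤ := [(Int.negSucc 0),(Int.negSucc 2),(Int.ofNat 6),(Int.ofNat 18),(Int.negSucc 20),(Int.negSucc 38),(Int.ofNat 48),(Int.ofNat 24),(Int.negSucc 47),(Int.ofNat 16)]

/-- Row. -/
def t1r4_6 : List ℤ := [(Int.ofNat 1),(Int.ofNat 2),(Int.negSucc 8),(Int.negSucc 11),(Int.ofNat 39),(Int.ofNat 18),(Int.negSucc 86),(Int.ofNat 24),(Int.ofNat 72),(Int.negSucc 63),(Int.ofNat 16)]

/-- Row. -/
def t1r4_7 : List ℤ := [(Int.negSucc 0),(Int.negSucc 0),(Int.ofNat 11),(Int.ofNat 3),(Int.negSucc 50),(Int.ofNat 21),(Int.ofNat 105),(Int.negSucc 110),(Int.negSucc 47),(Int.ofNat 136),(Int.negSucc 79),(Int.ofNat 16)]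

/-- Row. -/
def t1r4_8 : List ℤ := [(Int.ofNat 1),(Int.ofNat 0),(Int.negSucc 11),(Int.ofNat 8),(Int.ofNat 54),(Int.negSucc 71),(Int.negSucc 83),(Int.ofNat 216),(Int.negSucc 62),(Int.negSucc 183),(Int.ofNat 216),(Int.negSucc 95),(Int.ofNat 16)]

/-- Row. -/
def t1r4_9 : List ℤ := [(Int.negSucc 0),(Int.ofNat 1),(Int.ofNat 12),(Int.negSucc 19),(Int.negSucc 45),(Int.ofNat 126),(Int.ofNat 12),(Int.negSucc 299),(Int.ofNat 279),(Int.ofNat 121),(Int.negSucc 399),(Int.ofNat 312),(Int.negSucc 111),(Int.ofNat 16)]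

/-- Row. -/
def t1r4_10 : List ℤ := [(Int.ofNat 1),(Int.negSucc 1),(Int.negSucc 10),(Int.ofNat 32),(Int.ofNat 26),(Int.negSucc 171),(Int.ofNat 114),(Int.ofNat 312),(Int.negSucc 578),(Int.ofNat 158),(Int.ofNat 521),(Int.negSucc 711),(Int.ofNat 424),(Int.negSucc 127),(Int.ofNat 16)]

/-- Row. -/
def t1r4_11 : List ℤ := [(Int.negSucc 0),(Int.ofNat 3),(Int.ofNat 9),(Int.negSucc 42),(Int.ofNat 6),(Int.ofNat 198),(Int.negSucc 285),(Int.negSucc 197),(Int.ofNat 891),(Int.negSucc 736),(Int.negSucc 362),(Int.ofNat 1233),(Int.negSucc 1135),(Int.ofNat 552),(Int.negSucc 143),(Int.ofNat 16)]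

/-- Row. -/
def t1r4_12 : List ℤ := [(Int.ofNat 1),(Int.negSucc 3),(Int.negSucc 5),(Int.ofNat 52),(Int.negSucc 48),(Int.negSucc 191),(Int.ofNat 484),(Int.negSucc 87),(Int.negSucc 1088),(Int.ofNat 1628),(Int.negSucc 373),(Int.negSucc 1595),(Int.ofNat 2369),(Int.negSucc 1687),(Int.ofNat 696),(Int.negSucc 159),(Int.ofNat 16)]

/-- Row. -/
def t1r4_13 : List ℤ := [(Int.negSucc 0),(Int.ofNat 5),(Int.ofNat 2),(Int.negSucc 57),(Int.ofNat 101),(Int.ofNat 143),(Int.negSucc 675),(Int.ofNat 572),(Int.ofNat 1001),(Int.negSucc 2716),(Int.ofNat 2002),(Int.ofNat 1222),(Int.negSucc 3964),(Int.ofNat 4057),(Int.negSucc 2383),(Int.ofNat 856),(Int.negSucc 175),(Int.ofNat 16)]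

/-- Row. -/
def t1r4_14 : List ℤ := [(Int.ofNat 1),(Int.negSucc 5),(Int.ofNat 3),(Int.ofNat 60),(Int.negSucc 158),(Int.negSucc 41),(Int.ofNat 819),(Int.negSucc 1247),(Int.negSucc 428),(Int.ofNat 3718),(Int.negSucc 4718),(Int.ofNat 780),(Int.ofNat 5187),(Int.negSucc 8021),(Int.ofNat 6441),(Int.negSucc 3239),(Int.ofNat 1032),(Int.negSucc 191),(Int.ofNat 16)]

/-- Row. -/
def t1r4_15 : List ℤ := [(Int.negSucc 0),(Int.ofNat 7),(Int.negSucc 8),(Int.negSucc 56),(Int.ofNat 219),(Int.negSucc 116),(Int.negSucc 860),(Int.ofNat 2067),(Int.negSucc 818),(Int.negSucc 4146),(Int.ofNat 8437),(Int.negSucc 5498),(Int.negSucc 4406),(Int.ofNat 13209),(Int.negSucc 14462),(Int.ofNat 9681),(Int.negSucc 4271),(Int.ofNat 1224),(Int.negSucc 207),(Int.ofNat 16)]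

/-- Row. -/
def t1r4_16 : List ℤ := [(Int.ofNat 1),(Int.negSucc 7),(Int.ofNat 16),(Int.ofNat 48),(Int.negSucc 275),(Int.ofNat 336),(Int.ofNat 744),(Int.negSucc 2927),(Int.ofNat 2886),(Int.ofNat 3328),(Int.negSucc 12583),(Int.ofNat 13936),(Int.negSucc 1091),(Int.negSucc 17615),(Int.ofNat 27672),(Int.negSucc 24143),(Int.ofNat 13953),(Int.negSucc 5495),(Int.ofNat 1432),(Int.negSucc 223),(Int.ofNat 16)]

/-- Row. -/
def t1r4_17 : List ℤ := [(Int.negSucc 0),(Int.ofNat 9),(Int.negSucc 23),(Int.negSucc 31),(Int.ofNat 324),(Int.negSucc 611),(Int.negSucc 407),(Int.ofNat 3672),(Int.negSucc 5813),(Int.negSucc 441),(Int.ofNat 15912),(Int.negSucc 26519),(Int.ofNat 15028),(Int.ofNat 16524),(Int.negSucc 45287),(Int.ofNat 51816),(Int.negSucc 38096),(Int.ofNat 19449),(Int.negSucc 6927),(Int.ofNat 1656),(Int.negSucc 239),(Int.ofNat 16)]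

/-- Row. -/
def t1r4_18 : List ℤ := [(Int.ofNat 1),(Int.negSucc 9),(Int.ofNat 33),(Int.ofNat 8),(Int.negSucc 355),(Int.ofNat 936),(Int.negSucc 203),(Int.negSucc 4079),(Int.ofNat 9486),(Int.negSucc 5371),(Int.negSucc 16353),(Int.ofNat 42432),(Int.negSucc 41547),(Int.negSucc 1495),(Int.ofNat 61812),(Int.negSucc 97103),(Int.ofNat 89913),(Int.negSucc 57545),(Int.ofNat 26377),(Int.negSucc 8583),(Int.ofNat 1896),(Int.negSucc 255),(Int.ofNat 16)]

/-- Row. -/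
def t1r4_19 : List ℤ := [(Int.negSucc 0),(Int.ofNat 11),(Int.negSucc 42),(Int.ofNat 25),(Int.ofNat 364),(Int.negSucc 1291),(Int.ofNat 1140),(Int.ofNat 3876),(Int.negSucc 13565),(Int.ofNat 14858),(Int.ofNat 10982),(Int.negSucc 58785),(Int.ofNat 83980),(Int.negSucc 40051),(Int.negSucc 63307),(Int.ofNat 158916),(Int.negSucc 187016),(Int.ofNat 147459),(Int.negSucc 83922),(Int.ofNat 34961),(Int.negSucc 10479),(Int.ofNat 2152),(Int.negSucc 271),(Int.ofNat 16)]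

/-- Row. -/
def t1r4_20 : List ℤ := [(Int.ofNat 1),(Int.negSucc 11),(Int.ofNat 54),(Int.negSucc 67),(Int.negSucc 338),(Int.ofNat 1656),(Int.negSucc 2431),(Int.negSucc 2735),(Int.ofNat 17442),(Int.negSucc 28423),(Int.ofNat 3876),(Int.ofNat 69768),(Int.negSucc 142765),(Int.ofNat 124032),(Int.ofNat 23256),(Int.negSucc 222223),(Int.ofNat 345933),(Int.negSucc 334475),(Int.ofNat 231382),(Int.negSucc 118883),(Int.ofNat 45441),(Int.negSucc 12631),(Int.ofNat 2424),(Int.negSucc 287),(Int.ofNat 16)]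

/-- Row. -/
def t1r4_21 : List ℤ := [(Int.negSucc 0),(Int.ofNat 13),(Int.negSucc 65),(Int.ofNat 122),(Int.ofNat 271),(Int.negSucc 1994),(Int.ofNat 4088),(Int.ofNat 304),(Int.negSucc 20177),(Int.ofNat 45866),(Int.negSucc 32299),(Int.negSucc 65891),(Int.ofNat 212534),(Int.negSucc 266797),(Int.ofNat 100776),(Int.ofNat 245480),(Int.negSucc 568156),(Int.ofNat 680409),(Int.negSucc 565857),(Int.ofNat 350266),(Int.negSucc 164324),(Int.ofNat 58073),(Int.negSucc 15055),(Int.ofNat 2712),(Int.negSucc 303),(Int.ofNat 16)]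

/-- Row. -/
def t1r4_22 : List ℤ := [(Int.ofNat 1),(Int.negSucc 13),(Int.ofNat 79),(Int.negSucc 187),(Int.negSucc 148),(Int.ofNat 2266),(Int.negSucc 6082),(Int.ofNat 3784),(Int.ofNat 20482),(Int.negSucc 66043),(Int.ofNat 78166),(Int.ofNat 33592),(Int.negSucc 278425),(Int.ofNat 479332),(Int.negSucc 367573),(Int.negSucc 144703),(Int.ofNat 813637),(Int.negSucc 1248565),(Int.ofNat 1246267),(Int.negSucc 916123),(Int.ofNat 514591),(Int.negSucc 222397),(Int.ofNat 73129),(Int.negSucc 17767),(Int.ofNat 3016),(Int.negSucc 319),(Int.ofNat 16)]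

/-- Row. -/
def t1r4_23 : List ℤ := [(Int.negSucc 0),(Int.ofNat 15),(Int.negSucc 92),(Int.ofNat 267),(Int.negSucc 38),(Int.negSucc 2414),(Int.ofNat 8349),(Int.negSucc 9866),(Int.negSucc 16697),(Int.ofNat 86526),(Int.negSucc 144209),(Int.ofNat 44574),(Int.ofNat 312018),(Int.negSucc 757757),(Int.ofNat 846906),(Int.negSucc 222869),(Int.negSucc 958340),(Int.ofNat 2062203),(Int.negSucc 2494832),(Int.ofNat 2162391),(Int.negSucc 1430714),(Int.ofNat 736989),(Int.negSucc 295526),(Int.ofNat 90897),(Int.negSucc 20783),(Int.ofNat 3336),(Int.negSucc 335),(Int.ofNat 16)]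

/-- Rows. -/
def t1r4 : List (List ℤ) := [t1r4_0,t1r4_1,t1r4_2,t1r4_3,t1r4_4,t1r4_5,t1r4_6,t1r4_7,t1r4_8,t1r4_9,t1r4_10,t1r4_11,t1r4_12,t1r4_13,t1r4_14,t1r4_15,t1r4_16,t1r4_17,t1r4_18,t1r4_19,t1r4_20,t1r4_21,t1r4_22,t1r4_23]

/-- Row. -/
def t1r5_0 : List ℤ := [(Int.ofNat 1),(Int.ofNat 10),(Int.ofNat 40),(Int.ofNat 80),(Int.ofNat 80),(Int.ofNat 32)]

/-- Row. -/
def t1r5_1 : List ℤ := [(Int.negSucc 0),(Int.negSucc 8),(Int.negSucc 29),(Int.negSucc 39),(Int.ofNat 0),(Int.ofNat 48),(Int.ofNat 32)]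

/-- Row. -/
def t1r5_2 : List ℤ := [(Int.ofNat 1),(Int.ofNat 8),(Int.ofNat 21),(Int.ofNat 10),(Int.negSucc 39),(Int.negSucc 47),(Int.ofNat 16),(Int.ofNat 32)]

/-- Row. -/
def t1r5_3 : List ℤ := [(Int.negSucc 0),(Int.negSucc 6),(Int.negSucc 12),(Int.ofNat 11),(Int.ofNat 50),(Int.ofNat 8),(Int.negSucc 63),(Int.negSucc 15),(Int.ofNat 32)]

/-- Row. -/
def t1r5_4 : List ℤ := [(Int.ofNat 1),(Int.ofNat 6),(Int.ofNat 6),(Int.negSucc 23),(Int.negSucc 38),(Int.ofNat 42),(Int.ofNat 72),(Int.negSucc 47),(Int.negSucc 47),(Int.ofNat 32)]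

/-- Row. -/
def t1r5_5 : List ℤ := [(Int.negSucc 0),(Int.negSucc 4),(Int.ofNat 0),(Int.ofNat 30),(Int.ofNat 15),(Int.negSucc 80),(Int.negSucc 29),(Int.ofNat 120),(Int.ofNat 0),(Int.negSucc 79),(Int.ofNat 32)]

/-- Row. -/
def t1r5_6 : List ℤ := [(Int.ofNat 1),(Int.ofNat 4),(Int.negSucc 4),(Int.negSucc 29),(Int.ofNat 15),(Int.ofNat 96),(Int.negSucc 50),(Int.negSucc 149),(Int.ofNat 120),(Int.ofNat 80),(Int.negSucc 111),(Int.ofNat 32)]

/-- Row. -/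
def t1r5_7 : List ℤ := [(Int.negSucc 0),(Int.negSucc 2),(Int.ofNat 9),(Int.ofNat 25),(Int.negSucc 44),(Int.negSucc 80),(Int.ofNat 147),(Int.ofNat 99),(Int.negSucc 269),(Int.ofNat 40),(Int.ofNat 192),(Int.negSucc 143),(Int.ofNat 32)]

/-- Row. -/
def t1r5_8 : List ℤ := [(Int.ofNat 1),(Int.ofNat 2),(Int.negSucc 11),(Int.negSucc 15),(Int.ofNat 70),(Int.ofNat 36),(Int.negSucc 227),(Int.ofNat 48),(Int.ofNat 369),(Int.negSucc 309),(Int.negSucc 151),(Int.ofNat 336),(Int.negSucc 175),(Int.ofNat 32)]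

/-- Row. -/
def t1r5_9 : List ℤ := [(Int.negSucc 0),(Int.negSucc 0),(Int.ofNat 14),(Int.ofNat 4),(Int.negSucc 85),(Int.ofNat 34),(Int.ofNat 264),(Int.negSucc 275),(Int.negSucc 320),(Int.ofNat 679),(Int.negSucc 157),(Int.negSucc 487),(Int.ofNat 512),(Int.negSucc 207),(Int.ofNat 32)]

/-- Row. -/
def t1r5_10 : List ℤ := [(Int.ofNat 1),(Int.ofNat 0),(Int.negSucc 14),(Int.ofNat 10),(Int.ofNat 90),(Int.negSucc 119),(Int.negSucc 229),(Int.ofNat 540),(Int.ofNat 45),(Int.negSucc 999),(Int.ofNat 837),(Int.ofNat 330),(Int.negSucc 999),(Int.ofNat 720),(Int.negSucc 239),(Int.ofNat 32)]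

/-- Row. -/
def t1r5_11 : List ℤ := [(Int.negSucc 0),(Int.ofNat 1),(Int.ofNat 15),(Int.negSucc 24),(Int.negSucc 79),(Int.ofNat 210),(Int.ofNat 110),(Int.negSucc 769),(Int.ofNat 495),(Int.ofNat 1045),(Int.negSucc 1836),(Int.ofNat 507),(Int.ofNat 1330),(Int.negSucc 1719),(Int.ofNat 960),(Int.negSucc 271),(Int.ofNat 32)]

/-- Row. -/
def t1r5_12 : List ℤ := [(Int.ofNat 1),(Int.negSucc 1),(Int.negSucc 13),(Int.ofNat 40),(Int.ofNat 55),(Int.negSucc 289),(Int.ofNat 100),(Int.ofNat 880),(Int.negSucc 1264),(Int.negSucc 549),(Int.ofNat 2882),(Int.negSucc 2343),(Int.negSucc 822),(Int.ofNat 3050),(Int.negSucc 2679),(Int.ofNat 1232),(Int.negSucc 303),(Int.ofNat 32)]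

/-- Row. -/
def t1r5_13 : List ℤ := [(Int.negSucc 0),(Int.ofNat 3),(Int.ofNat 12),(Int.negSucc 53),(Int.negSucc 14),(Int.ofNat 345),(Int.negSucc 389),(Int.negSucc 779),(Int.ofNat 2145),(Int.negSucc 714),(Int.negSucc 3431),(Int.ofNat 5226),(Int.negSucc 1520),(Int.negSucc 3872),(Int.ofNat 5730),(Int.negSucc 3911),(Int.ofNat 1536),(Int.negSucc 335),(Int.ofNat 32)]

/-- Row. -/
def t1r5_14 : List ℤ := [(Int.ofNat 1),(Int.negSucc 3),(Int.negSucc 8),(Int.ofNat 66),(Int.negSucc 38),(Int.negSucc 359),(Int.ofNat 735),(Int.ofNat 390),(Int.negSucc 2924),(Int.ofNat 2860),(Int.ofNat 2717),(Int.negSucc 8657),(Int.ofNat 6747),(Int.ofNat 2352),(Int.negSucc 9602),(Int.ofNat 9642),(Int.negSucc 5447),(Int.ofNat 1872),(Int.negSucc 367),(Int.ofNat 32)]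

/-- Row. -/
def t1r5_15 : List ℤ := [(Int.negSucc 0),(Int.ofNat 5),(Int.ofNat 5),(Int.negSucc 74),(Int.ofNat 105),(Int.ofNat 321),(Int.negSucc 1094),(Int.ofNat 345),(Int.ofNat 3315),(Int.negSucc 5784),(Int.ofNat 143),(Int.ofNat 11375),(Int.negSucc 15404),(Int.ofNat 4395),(Int.ofNat 11955),(Int.negSucc 19244),(Int.ofNat 15090),(Int.negSucc 7319),(Int.ofNat 2240),(Int.negSucc 399),(Int.ofNat 32)]

/-- Row. -/
def t1r5_16 : List ℤ := [(Int.ofNat 1),(Int.negSucc 5),(Int.ofNat 0),(Int.ofNat 80),(Int.negSucc 179),(Int.negSucc 215),(Int.ofNat 1416),(Int.negSucc 1439),(Int.negSucc 2969),(Int.ofNat 9100),(Int.negSucc 5927),(Int.negSucc 11231),(Int.ofNat 26780),(Int.negSucc 19799),(Int.negSucc 7559),(Int.ofNat 31200),(Int.negSucc 34334),(Int.ofNat 22410),(Int.negSucc 9559),(Int.ofNat 2640),(Int.negSucc 431),(Int.ofNat 32)]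

/-- Row. -/
def t1r5_17 : List ℤ := [(Int.negSucc 0),(Int.ofNat 7),(Int.negSucc 5),(Int.negSucc 79),(Int.ofNat 260),(Int.ofNat 36),(Int.negSucc 1631),(Int.ofNat 2856),(Int.ofNat 1530),(Int.negSucc 12069),(Int.ofNat 15028),(Int.ofNat 5304),(Int.negSucc 38011),(Int.ofNat 46580),(Int.negSucc 12239),(Int.negSucc 38759),(Int.ofNat 65535),(Int.negSucc 56744),(Int.ofNat 31970),(Int.negSucc 12199),(Int.ofNat 3072),(Int.negSucc 463),(Int.ofNat 32)]

/-- Row. -/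
def t1r5_18 : List ℤ := [(Int.ofNat 1),(Int.negSucc 7),(Int.ofNat 13),(Int.ofNat 74),(Int.negSucc 339),(Int.ofNat 224),(Int.ofNat 1668),(Int.negSucc 4487),(Int.ofNat 1326),(Int.ofNat 13600),(Int.negSucc 27097),(Int.ofNat 9724),(Int.ofNat 43316),(Int.negSucc 84591),(Int.ofNat 58820),(Int.ofNat 26520),(Int.negSucc 104294),(Int.ofNat 122280),(Int.negSucc 88714),(Int.ofNat 44170),(Int.negSucc 15271),(Int.ofNat 3536),(Int.negSucc 495),(Int.ofNat 32)]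

/-- Row. -/
def t1r5_19 : List ℤ := [(Int.negSucc 0),(Int.ofNat 9),(Int.negSucc 20),(Int.negSucc 60),(Int.ofNat 414),(Int.negSucc 563),(Int.negSucc 1443),(Int.ofNat 6156),(Int.negSucc 5813),(Int.negSucc 12273),(Int.ofNat 40698),(Int.negSucc 36821),(Int.negSucc 33591),(Int.ofNat 127908),(Int.negSucc 143411),(Int.ofNat 32300),(Int.ofNat 130815),(Int.negSucc 226574),(Int.ofNat 210995),(Int.negSucc 132884),(Int.ofNat 59442),(Int.negSucc 18807),(Int.ofNat 4032),(Int.negSucc 527),(Int.ofNat 32)]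

/-- Row. -/
def t1r5_20 : List ℤ := [(Int.ofNat 1),(Int.negSucc 9),(Int.ofNat 30),(Int.ofNat 40),(Int.negSucc 474),(Int.ofNat 978),(Int.ofNat 880),(Int.negSucc 7599),(Int.ofNat 11970),(Int.ofNat 6460),(Int.negSucc 52971),(Int.ofNat 77520),(Int.negSucc 3229),(Int.negSucc 161499),(Int.ofNat 271320),(Int.negSucc 175711),(Int.negSucc 98514),(Int.ofNat 357390),(Int.negSucc 437569),(Int.ofNat 343880),(Int.negSucc 192326),(Int.ofNat 78250),(Int.negSucc 22839),(Int.ofNat 4560),(Int.negSucc 559),(Int.ofNat 32)]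

/-- Row. -/
def t1r5_21 : List ℤ := [(Int.negSucc 0),(Int.ofNat 11),(Int.negSucc 39),(Int.negSucc 9),(Int.ofNat 515),(Int.negSucc 1452),(Int.ofNat 98),(Int.ofNat 8480),(Int.negSucc 19569),(Int.ofNat 5510),(Int.ofNat 59432),(Int.negSucc 130491),(Int.ofNat 80750),(Int.ofNat 158270),(Int.negSucc 432819),(Int.ofNat 447032),(Int.negSucc 77196),(Int.negSucc 455904),(Int.ofNat 794960),(Int.negSucc 781449),(Int.ofNat 536207),(Int.negSucc 270576),(Int.ofNat 101090),(Int.negSucc 27399),(Int.ofNat 5120),(Int.negSucc 591),(Int.ofNat 32)]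

/-- Row. -/
def t1r5_22 : List ℤ := [(Int.ofNat 1),(Int.negSucc 11),(Int.ofNat 51),(Int.negSucc 29),(Int.negSucc 524),(Int.ofNat 1968),(Int.negSucc 1550),(Int.negSucc 8381),(Int.ofNat 28050),(Int.negSucc 25079),(Int.negSucc 53921),(Int.ofNat 189924),(Int.negSucc 211241),(Int.negSucc 77519),(Int.ofNat 591090),(Int.negSucc 879851),(Int.ofNat 524229),(Int.ofNat 378708),(Int.negSucc 1250864),(Int.ofNat 1576410),(Int.negSucc 1317656),(Int.ofNat 806784),(Int.negSucc 371666),(Int.ofNat 128490),(Int.negSucc 32519),(Int.ofNat 5712),(Int.negSucc 623),(Int.ofNat 32)]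

/-- Row. -/
def t1r5_23 : List ℤ := [(Int.negSucc 0),(Int.ofNat 13),(Int.negSucc 62),(Int.ofNat 81),(Int.ofNat 495),(Int.negSucc 2492),(Int.ofNat 3519),(Int.ofNat 6831),(Int.negSucc 36431),(Int.ofNat 53130),(Int.ofNat 28842),(Int.negSucc 243845),(Int.ofNat 401166),(Int.negSucc 133721),(Int.negSucc 668609),(Int.ofNat 1470942),(Int.negSucc 1404080),(Int.ofNat 145521),(Int.ofNat 1629573),(Int.negSucc 2827274),(Int.ofNat 2894067),(Int.negSucc 2124440),(Int.ofNat 1178451),(Int.negSucc 500156),(Int.ofNat 161010),(Int.negSucc 38231),(Int.ofNat 6336),(Int.negSucc 655),(Int.ofNat 32)]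

/-- Rows. -/
def t1r5 : List (List ℤ) := [t1r5_0,t1r5_1,t1r5_2,t1r5_3,t1r5_4,t1r5_5,t1r5_6,t1r5_7,t1r5_8,t1r5_9,t1r5_10,t1r5_11,t1r5_12,t1r5_13,t1r5_14,t1r5_15,t1r5_16,t1r5_17,t1r5_18,t1r5_19,t1r5_20,t1r5_21,t1r5_22,t1r5_23]

/-- Row. -/
def t1r6_0 : List ℤ := [(Int.ofNat 1),(Int.ofNat 12),(Int.ofNat 60),(Int.ofNat 160),(Int.ofNat 240),(Int.ofNat 192),(Int.ofNat 64)]

/-- Row. -/
def t1r6_1 : List ℤ := [(Int.negSucc 0),(Int.negSucc 10),(Int.negSucc 47),(Int.negSucc 99),(Int.negSucc 79),(Int.ofNat 48),(Int.ofNat 128),(Int.ofNat 64)]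

/-- Row. -/
def t1r6_2 : List ℤ := [(Int.ofNat 1),(Int.ofNat 10),(Int.ofNat 37),(Int.ofNat 52),(Int.negSucc 19),(Int.negSucc 127),(Int.negSucc 79),(Int.ofNat 64),(Int.ofNat 64)]

/-- Row. -/
def t1r6_3 : List ℤ := [(Int.negSucc 0),(Int.negSucc 8),(Int.negSucc 26),(Int.negSucc 14),(Int.ofNat 72),(Int.ofNat 108),(Int.negSucc 47),(Int.negSucc 143),(Int.ofNat 0),(Int.ofNat 64)]

/-- Row. -/
def t1r6_4 : List ℤ := [(Int.ofNat 1),(Int.ofNat 8),(Int.ofNat 18),(Int.negSucc 11),(Int.negSucc 86),(Int.negSucc 35),(Int.ofNat 156),(Int.ofNat 96),(Int.negSucc 143),(Int.negSucc 63),(Int.ofNat 64)]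

/-- Row. -/
def t1r6_5 : List ℤ := [(Int.negSucc 0),(Int.negSucc 6),(Int.negSucc 9),(Int.ofNat 30),(Int.ofNat 75),(Int.negSucc 50),(Int.negSucc 191),(Int.ofNat 60),(Int.ofNat 240),(Int.negSucc 79),(Int.negSucc 127),(Int.ofNat 64)]

/-- Row. -/
def t1r6_6 : List ℤ := [(Int.ofNat 1),(Int.ofNat 6),(Int.ofNat 3),(Int.negSucc 39),(Int.negSucc 44),(Int.ofNat 126),(Int.ofNat 141),(Int.negSucc 251),(Int.negSucc 179),(Int.ofNat 320),(Int.ofNat 48),(Int.negSucc 191),(Int.ofNat 64)]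

/-- Row. -/
def t1r6_7 : List ℤ := [(Int.negSucc 0),(Int.negSucc 4),(Int.ofNat 3),(Int.ofNat 43),(Int.ofNat 5),(Int.negSucc 170),(Int.negSucc 14),(Int.ofNat 393),(Int.negSucc 71),(Int.negSucc 499),(Int.ofNat 272),(Int.ofNat 240),(Int.negSucc 255),(Int.ofNat 64)]

/-- Row. -/
def t1r6_8 : List ℤ := [(Int.ofNat 1),(Int.ofNat 4),(Int.negSucc 7),(Int.negSucc 39),(Int.ofNat 38),(Int.ofNat 176),(Int.negSucc 155),(Int.negSucc 407),(Int.ofNat 465),(Int.ofNat 428),(Int.negSucc 771),(Int.ofNat 32),(Int.ofNat 496),(Int.negSucc 319),(Int.ofNat 64)]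

/-- Row. -/
def t1r6_9 : List ℤ := [(Int.negSucc 0),(Int.negSucc 2),(Int.ofNat 12),(Int.ofNat 32),(Int.negSucc 77),(Int.negSucc 137),(Int.ofNat 332),(Int.ofNat 252),(Int.negSucc 872),(Int.ofNat 37),(Int.ofNat 1200),(Int.negSucc 803),(Int.negSucc 463),(Int.ofNat 816),(Int.negSucc 383),(Int.ofNat 64)]

/-- Row. -/
def t1r6_10 : List ℤ := [(Int.ofNat 1),(Int.ofNat 2),(Int.negSucc 14),(Int.negSucc 19),(Int.ofNat 110),(Int.ofNat 60),(Int.negSucc 469),(Int.ofNat 80),(Int.ofNat 1125),(Int.negSucc 909),(Int.negSucc 1162),(Int.ofNat 2004),(Int.negSucc 339),(Int.negSucc 1279),(Int.ofNat 1200),(Int.negSucc 447),(Int.ofNat 64)]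

/-- Row. -/
def t1r6_11 : List ℤ := [(Int.negSucc 0),(Int.negSucc 0),(Int.ofNat 17),(Int.ofNat 5),(Int.negSucc 129),(Int.ofNat 50),(Int.ofNat 530),(Int.negSucc 549),(Int.negSucc 1044),(Int.ofNat 2035),(Int.ofNat 253),(Int.negSucc 3166),(Int.ofNat 2344),(Int.ofNat 940),(Int.negSucc 2479),(Int.ofNat 1648),(Int.negSucc 511),(Int.ofNat 64)]

/-- Row. -/
def t1r6_12 : List ℤ := [(Int.ofNat 1),(Int.ofNat 0),(Int.negSucc 17),(Int.ofNat 12),(Int.ofNat 135),(Int.negSucc 179),(Int.negSucc 479),(Int.ofNat 1080),(Int.ofNat 495),(Int.negSucc 3079),(Int.ofNat 1782),(Int.ofNat 3420),(Int.negSucc 5510),(Int.ofNat 1404),(Int.ofNat 3420),(Int.negSucc 4127),(Int.ofNat 2160),(Int.negSucc 575),(Int.ofNat 64)]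

/-- Row. -/
def t1r6_13 : List ℤ := [(Int.negSucc 0),(Int.ofNat 1),(Int.ofNat 18),(Int.negSucc 29),(Int.negSucc 122),(Int.ofNat 315),(Int.ofNat 300),(Int.negSucc 1559),(Int.ofNat 585),(Int.ofNat 3575),(Int.negSucc 4861),(Int.negSucc 1637),(Int.ofNat 8931),(Int.negSucc 6914),(Int.negSucc 2015),(Int.ofNat 7548),(Int.negSucc 6287),(Int.ofNat 2736),(Int.negSucc 639),(Int.ofNat 64)]

/-- Row. -/
def t1r6_14 : List ℤ := [(Int.ofNat 1),(Int.negSucc 1),(Int.negSucc 16),(Int.ofNat 48),(Int.ofNat 93),(Int.negSucc 437),(Int.ofNat 15),(Int.ofNat 1860),(Int.negSucc 2144),(Int.negSucc 2989),(Int.ofNat 8437),(Int.negSucc 3223),(Int.negSucc 10568),(Int.ofNat 15846),(Int.negSucc 4898),(Int.negSucc 9563),(Int.ofNat 13836),(Int.negSucc 9023),(Int.ofNat 3376),(Int.negSucc 703),(Int.ofNat 64)]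

/-- Row. -/
def t1r6_15 : List ℤ := [(Int.negSucc 0),(Int.ofNat 3),(Int.ofNat 15),(Int.negSucc 64),(Int.negSucc 44),(Int.ofNat 531),(Int.negSucc 452),(Int.negSucc 1844),(Int.ofNat 4005),(Int.ofNat 845),(Int.negSucc 11426),(Int.ofNat 11661),(Int.ofNat 7345),(Int.negSucc 26414),(Int.ofNat 20745),(Int.ofNat 4665),(Int.negSucc 23399),(Int.ofNat 22860),(Int.negSucc 12399),(Int.ofNat 4080),(Int.negSucc 767),(Int.ofNat 64)]

/-- Row. -/
def t1r6_16 : List ℤ := [(Int.ofNat 1),(Int.negSucc 3),(Int.negSucc 11),(Int.ofNat 80),(Int.negSucc 19),(Int.negSucc 575),(Int.ofNat 984),(Int.ofNat 1392),(Int.negSucc 5849),(Int.ofNat 3160),(Int.ofNat 12272),(Int.negSucc 23087),(Int.ofNat 4316),(Int.ofNat 33760),(Int.negSucc 47159),(Int.ofNat 16080),(Int.ofNat 28065),(Int.negSucc 46259),(Int.ofNat 35260),(Int.negSucc 16479),(Int.ofNat 4848),(Int.negSucc 831),(Int.ofNat 64)]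

/-- Row. -/
def t1r6_17 : List ℤ := [(Int.negSucc 0),(Int.ofNat 5),(Int.ofNat 8),(Int.negSucc 91),(Int.ofNat 100),(Int.ofNat 556),(Int.negSucc 1559),(Int.negSucc 407),(Int.ofNat 7242),(Int.negSucc 9009),(Int.negSucc 9111),(Int.ofNat 35360),(Int.negSucc 27403),(Int.negSucc 29443),(Int.ofNat 80920),(Int.negSucc 63239),(Int.negSucc 11984),(Int.ofNat 74325),(Int.negSucc 81519),(Int.ofNat 51740),(Int.negSucc 21327),(Int.ofNat 5680),(Int.negSucc 895),(Int.ofNat 64)]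

/-- Row. -/
def t1r6_18 : List ℤ := [(Int.ofNat 1),(Int.negSucc 5),(Int.negSucc 2),(Int.ofNat 100),(Int.negSucc 191),(Int.negSucc 455),(Int.ofNat 2116),(Int.negSucc 1151),(Int.negSucc 7649),(Int.ofNat 16252),(Int.ofNat 102),(Int.negSucc 44471),(Int.ofNat 62764),(Int.ofNat 2040),(Int.negSucc 110363),(Int.ofNat 144160),(Int.negSucc 51254),(Int.negSucc 86309),(Int.ofNat 155845),(Int.negSucc 133259),(Int.ofNat 73068),(Int.negSucc 27007),(Int.ofNat 6576),(Int.negSucc 959),(Int.ofNat 64)]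

/-- Row. -/
def t1r6_19 : List ℤ := [(Int.negSucc 0),(Int.ofNat 7),(Int.negSucc 2),(Int.negSucc 102),(Int.ofNat 292),(Int.ofNat 264),(Int.negSucc 2571),(Int.ofNat 3268),(Int.ofNat 6498),(Int.negSucc 23901),(Int.ofNat 16150),(Int.ofNat 44574),(Int.negSucc 107235),(Int.ofNat 60724),(Int.ofNat 112404),(Int.negSucc 254523),(Int.ofNat 195415),(Int.ofNat 35055),(Int.negSucc 242154),(Int.ofNat 289105),(Int.negSucc 206327),(Int.ofNat 100076),(Int.negSucc 33583),(Int.ofNat 7536),(Int.negSucc 1023),(Int.ofNat 64)]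

/-- Row. -/
def t1r6_20 : List ℤ := [(Int.ofNat 1),(Int.negSucc 7),(Int.ofNat 10),(Int.ofNat 100),(Int.negSucc 394),(Int.ofNat 28),(Int.ofNat 2836),(Int.negSucc 5839),(Int.negSucc 3229),(Int.ofNat 30400),(Int.negSucc 40051),(Int.negSucc 28423),(Int.ofNat 151810),(Int.negSucc 167959),(Int.negSucc 51679),(Int.ofNat 366928),(Int.negSucc 449938),(Int.ofNat 160360),(Int.ofNat 277210),(Int.negSucc 531259),(Int.ofNat 495433),(Int.negSucc 306403),(Int.ofNat 133660),(Int.negSucc 41119),(Int.ofNat 8560),(Int.negSucc 1087),(Int.ofNat 64)]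

/-- Row. -/
def t1r6_21 : List ℤ := [(Int.negSucc 0),(Int.ofNat 9),(Int.negSucc 17),(Int.negSucc 89),(Int.ofNat 495),(Int.negSucc 422),(Int.negSucc 2807),(Int.ofNat 8676),(Int.negSucc 2609),(Int.negSucc 33629),(Int.ofNat 70452),(Int.negSucc 11627),(Int.negSucc 180233),(Int.ofNat 319770),(Int.negSucc 116279),(Int.negSucc 418607),(Int.ofNat 816867),(Int.negSucc 610298),(Int.negSucc 116849),(Int.ofNat 808470),(Int.negSucc 1026692),(Int.ofNat 801837),(Int.negSucc 440063),(Int.ofNat 174780),(Int.negSucc 49679),(Int.ofNat 9648),(Int.negSucc 1151),(Int.ofNat 64)]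

/-- Row. -/
def t1r6_22 : List ℤ := [(Int.ofNat 1),(Int.negSucc 9),(Int.ofNat 27),(Int.ofNat 72),(Int.negSucc 584),(Int.ofNat 918),(Int.ofNat 2385),(Int.negSucc 11483),(Int.ofNat 11286),(Int.ofNat 31020),(Int.negSucc 104081),(Int.ofNat 82080),(Int.ofNat 168606),(Int.negSucc 500003),(Int.ofNat 436050),(Int.ofNat 302328),(Int.negSucc 1235474),(Int.ofNat 1427166),(Int.negSucc 493448),(Int.negSucc 925319),(Int.ofNat 1835163),(Int.negSucc 1828529),(Int.ofNat 1241901),(Int.negSucc 614843),(Int.ofNat 224460),(Int.negSucc 59327),(Int.ofNat 10800),(Int.negSucc 1215),(Int.ofNat 64)]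

/-- Row. -/
def t1r6_23 : List ℤ := [(Int.negSucc 0),(Int.ofNat 11),(Int.negSucc 36),(Int.negSucc 44),(Int.ofNat 657),(Int.negSucc 1502),(Int.negSucc 1466),(Int.ofNat 13869),(Int.negSucc 22769),(Int.negSucc 19733),(Int.ofNat 135102),(Int.negSucc 186161),(Int.negSucc 86525),(Int.ofNat 668610),(Int.negSucc 936053),(Int.ofNat 133722),(Int.ofNat 1537803),(Int.negSucc 2662640),(Int.ofNat 1920615),(Int.ofNat 431871),(Int.negSucc 2760482),(Int.ofNat 3663693),(Int.negSucc 3070430),(Int.ofNat 1856745),(Int.negSucc 839303),(Int.ofNat 283788),(Int.negSucc 70127),(Int.ofNat 12016),(Int.negSucc 1279),(Int.ofNat 64)]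

/-- Rows. -/
def t1r6 : List (List ℤ) := [t1r6_0,t1r6_1,t1r6_2,t1r6_3,t1r6_4,t1r6_5,t1r6_6,t1r6_7,t1r6_8,t1r6_9,t1r6_10,t1r6_11,t1r6_12,t1r6_13,t1r6_14,t1r6_15,t1r6_16,t1r6_17,t1r6_18,t1r6_19,t1r6_20,t1r6_21,t1r6_22,t1r6_23]

/-- Row. -/
def t1r7_0 : List ℤ := [(Int.ofNat 1),(Int.ofNat 14),(Int.ofNat 84),(Int.ofNat 280),(Int.ofNat 560),(Int.ofNat 672),(Int.ofNat 448),(Int.ofNat 128)]

/-- Row. -/
def t1r7_1 : List ℤ := [(Int.negSucc 0),(Int.negSucc 12),(Int.negSucc 69),(Int.negSucc 195),(Int.negSucc 279),(Int.negSucc 111),(Int.ofNat 224),(Int.ofNat 320),(Int.ofNat 128)]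

/-- Row. -/
def t1r7_2 : List ℤ := [(Int.ofNat 1),(Int.ofNat 12),(Int.ofNat 57),(Int.ofNat 126),(Int.ofNat 84),(Int.negSucc 167),(Int.negSucc 335),(Int.negSucc 95),(Int.ofNat 192),(Int.ofNat 128)]

/-- Row. -/
def t1r7_3 : List ℤ := [(Int.negSucc 0),(Int.negSucc 10),(Int.negSucc 44),(Int.negSucc 68),(Int.ofNat 42),(Int.ofNat 252),(Int.ofNat 168),(Int.negSucc 239),(Int.negSucc 287),(Int.ofNat 64),(Int.ofNat 128)]

/-- Row. -/
def t1r7_4 : List ℤ := [(Int.ofNat 1),(Int.ofNat 10),(Int.ofNat 34),(Int.ofNat 24),(Int.negSucc 110),(Int.negSucc 209),(Int.ofNat 84),(Int.ofNat 408),(Int.ofNat 48),(Int.negSucc 351),(Int.negSucc 63),(Int.ofNat 128)]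

/-- Row. -/
def t1r7_5 : List ℤ := [(Int.negSucc 0),(Int.negSucc 8),(Int.negSucc 23),(Int.ofNat 10),(Int.ofNat 135),(Int.ofNat 99),(Int.negSucc 293),(Int.negSucc 323),(Int.ofNat 360),(Int.ofNat 400),(Int.negSucc 287),(Int.negSucc 191),(Int.ofNat 128)]

/-- Row. -/
def t1r7_6 : List ℤ := [(Int.ofNat 1),(Int.ofNat 8),(Int.ofNat 15),(Int.negSucc 33),(Int.negSucc 124),(Int.ofNat 36),(Int.ofNat 393),(Int.ofNat 30),(Int.negSucc 683),(Int.negSucc 39),(Int.ofNat 688),(Int.negSucc 95),(Int.negSucc 319),(Int.ofNat 128)]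

/-- Row. -/
def t1r7_7 : List ℤ := [(Int.negSucc 0),(Int.negSucc 6),(Int.negSucc 6),(Int.ofNat 49),(Int.ofNat 91),(Int.negSucc 160),(Int.negSucc 356),(Int.ofNat 363),(Int.ofNat 714),(Int.negSucc 643),(Int.negSucc 727),(Int.ofNat 784),(Int.ofNat 224),(Int.negSucc 447),(Int.ofNat 128)]

/-- Row. -/
def t1r7_8 : List ℤ := [(Int.ofNat 1),(Int.ofNat 6),(Int.ofNat 0),(Int.negSucc 55),(Int.negSucc 41),(Int.ofNat 252),(Int.ofNat 196),(Int.negSucc 719),(Int.negSucc 350),(Int.ofNat 1358),(Int.ofNat 84),(Int.negSucc 1511),(Int.ofNat 560),(Int.ofNat 672),(Int.negSucc 575),(Int.ofNat 128)]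

/-- Row. -/
def t1r7_9 : List ℤ := [(Int.negSucc 0),(Int.negSucc 4),(Int.ofNat 6),(Int.ofNat 56),(Int.negSucc 13),(Int.negSucc 293),(Int.ofNat 56),(Int.ofNat 916),(Int.negSucc 368),(Int.negSucc 1708),(Int.ofNat 1274),(Int.ofNat 1596),(Int.negSucc 2071),(Int.negSucc 111),(Int.ofNat 1248),(Int.negSucc 703),(Int.ofNat 128)]

/-- Row. -/
def t1r7_10 : List ℤ := [(Int.ofNat 1),(Int.ofNat 4),(Int.negSucc 10),(Int.negSucc 49),(Int.ofNat 70),(Int.ofNat 280),(Int.negSucc 349),(Int.negSucc 859),(Int.ofNat 1285),(Int.ofNat 1340),(Int.negSucc 2982),(Int.negSucc 321),(Int.ofNat 3668),(Int.negSucc 1959),(Int.negSucc 1359),(Int.ofNat 1952),(Int.negSucc 831),(Int.ofNat 128)]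

/-- Row. -/
def t1r7_11 : List ℤ := [(Int.negSucc 0),(Int.negSucc 2),(Int.ofNat 15),(Int.ofNat 39),(Int.negSucc 119),(Int.negSucc 209),(Int.ofNat 630),(Int.ofNat 510),(Int.negSucc 2144),(Int.negSucc 54),(Int.ofNat 4323),(Int.negSucc 2660),(Int.negSucc 3989),(Int.ofNat 5628),(Int.negSucc 599),(Int.negSucc 3311),(Int.ofNat 2784),(Int.negSucc 959),(Int.ofNat 128)]

/-- Row. -/
def t1r7_12 : List ℤ := [(Int.ofNat 1),(Int.ofNat 2),(Int.negSucc 17),(Int.negSucc 23),(Int.ofNat 159),(Int.ofNat 90),(Int.negSucc 839),(Int.ofNat 120),(Int.ofNat 2655),(Int.negSucc 2089),(Int.negSucc 4377),(Int.ofNat 6984),(Int.ofNat 1329),(Int.negSucc 9617),(Int.ofNat 6228),(Int.ofNat 2712),(Int.negSucc 6095),(Int.ofNat 3744),(Int.negSucc 1087),(Int.ofNat 128)]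

/-- Row. -/
def t1r7_13 : List ℤ := [(Int.negSucc 0),(Int.negSucc 0),(Int.ofNat 20),(Int.ofNat 6),(Int.negSucc 182),(Int.ofNat 69),(Int.ofNat 930),(Int.negSucc 959),(Int.negSucc 2534),(Int.ofNat 4745),(Int.ofNat 2288),(Int.negSucc 11361),(Int.ofNat 5655),(Int.ofNat 10947),(Int.negSucc 15845),(Int.ofNat 3516),(Int.ofNat 8808),(Int.negSucc 9839),(Int.ofNat 4832),(Int.negSucc 1215),(Int.ofNat 128)]

/-- Row. -/
def t1r7_14 : List ℤ := [(Int.ofNat 1),(Int.ofNat 0),(Int.negSucc 20),(Int.ofNat 14),(Int.ofNat 189),(Int.negSucc 251),(Int.negSucc 860),(Int.ofNat 1890),(Int.ofNat 1575),(Int.negSucc 7279),(Int.ofNat 2457),(Int.ofNat 13650),(Int.negSucc 17016),(Int.negSucc 5291),(Int.ofNat 26793),(Int.negSucc 19361),(Int.negSucc 5291),(Int.ofNat 18648),(Int.negSucc 14671),(Int.ofNat 6048),(Int.negSucc 1343),(Int.ofNat 128)]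

/-- Row. -/
def t1r7_15 : List ℤ := [(Int.negSucc 0),(Int.ofNat 1),(Int.ofNat 21),(Int.negSucc 34),(Int.negSucc 174),(Int.ofNat 441),(Int.ofNat 609),(Int.negSucc 2750),(Int.ofNat 315),(Int.ofNat 8855),(Int.negSucc 9736),(Int.negSucc 11192),(Int.ofNat 30667),(Int.negSucc 11724),(Int.negSucc 32084),(Int.ofNat 46155),(Int.negSucc 14069),(Int.negSucc 23939),(Int.ofNat 33320),(Int.negSucc 20719),(Int.ofNat 7392),(Int.negSucc 1471),(Int.ofNat 128)]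

/-- Row. -/
def t1r7_16 : List ℤ := [(Int.ofNat 1),(Int.negSucc 1),(Int.negSucc 19),(Int.ofNat 56),(Int.ofNat 140),(Int.negSucc 615),(Int.negSucc 167),(Int.ofNat 3360),(Int.negSucc 3065),(Int.negSucc 8539),(Int.ofNat 18592),(Int.ofNat 1456),(Int.negSucc 41859),(Int.ofNat 42392),(Int.ofNat 20360),(Int.negSucc 78239),(Int.ofNat 60225),(Int.ofNat 9870),(Int.negSucc 57259),(Int.ofNat 54040),(Int.negSucc 28111),(Int.ofNat 8864),(Int.negSucc 1599),(Int.ofNat 128)]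

/-- Row. -/
def t1r7_17 : List ℤ := [(Int.negSucc 0),(Int.ofNat 3),(Int.ofNat 18),(Int.negSucc 75),(Int.negSucc 83),(Int.ofNat 756),(Int.negSucc 447),(Int.negSucc 3527),(Int.ofNat 6426),(Int.ofNat 5474),(Int.negSucc 27131),(Int.ofNat 17136),(Int.ofNat 43316),(Int.negSucc 84251),(Int.ofNat 22032),(Int.ofNat 98600),(Int.negSucc 138464),(Int.ofNat 50355),(Int.ofNat 67130),(Int.negSucc 111299),(Int.ofNat 82152),(Int.negSucc 36975),(Int.ofNat 10464),(Int.negSucc 1727),(Int.ofNat 128)]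

/-- Row. -/
def t1r7_18 : List ℤ := [(Int.ofNat 1),(Int.negSucc 3),(Int.negSucc 14),(Int.ofNat 94),(Int.ofNat 8),(Int.negSucc 839),(Int.ofNat 1204),(Int.ofNat 3080),(Int.negSucc 9953),(Int.ofNat 952),(Int.ofNat 32606),(Int.negSucc 44267),(Int.negSucc 26179),(Int.ofNat 127568),(Int.negSucc 106283),(Int.negSucc 76567),(Int.ofNat 237065),(Int.negSucc 188819),(Int.negSucc 16774),(Int.ofNat 178430),(Int.negSucc 193451),(Int.ofNat 119128),(Int.negSucc 47439),(Int.ofNat 12192),(Int.negSucc 1855),(Int.ofNat 128)]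

/-- Row. -/
def t1r7_19 : List ℤ := [(Int.negSucc 0),(Int.ofNat 5),(Int.ofNat 11),(Int.negSucc 108),(Int.ofNat 86),(Int.ofNat 848),(Int.negSucc 2043),(Int.negSucc 1875),(Int.ofNat 13034),(Int.negSucc 10905),(Int.negSucc 31653),(Int.ofNat 76874),(Int.negSucc 18087),(Int.negSucc 153747),(Int.ofNat 233852),(Int.negSucc 29715),(Int.negSucc 313632),(Int.ofNat 425885),(Int.negSucc 172044),(Int.negSucc 195204),(Int.ofNat 371882),(Int.negSucc 312579),(Int.ofNat 166568),(Int.negSucc 59631),(Int.ofNat 14048),(Int.negSucc 1983),(Int.ofNat 128)]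

/-- Row. -/
def t1r7_20 : List ℤ := [(Int.ofNat 1),(Int.negSucc 5),(Int.negSucc 5),(Int.ofNat 120),(Int.negSucc 194),(Int.negSucc 761),(Int.ofNat 2892),(Int.negSucc 167),(Int.negSucc 14909),(Int.ofNat 23940),(Int.ofNat 20748),(Int.negSucc 108527),(Int.ofNat 94962),(Int.ofNat 135660),(Int.negSucc 387599),(Int.ofNat 263568),(Int.ofNat 283917),(Int.negSucc 739517),(Int.ofNat 597930),(Int.ofNat 23160),(Int.negSucc 567086),(Int.ofNat 684462),(Int.negSucc 479147),(Int.ofNat 226200),(Int.negSucc 73679),(Int.ofNat 16032),(Int.negSucc 2111),(Int.ofNat 128)]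

/-- Row. -/
def t1r7_21 : List ℤ := [(Int.negSucc 0),(Int.ofNat 7),(Int.ofNat 0),(Int.negSucc 125),(Int.ofNat 315),(Int.ofNat 567),(Int.negSucc 3653),(Int.ofNat 3060),(Int.ofNat 14742),(Int.negSucc 38849),(Int.ofNat 3192),(Int.ofNat 129276),(Int.negSucc 203489),(Int.negSucc 40697),(Int.ofNat 523260),(Int.negSucc 651167),(Int.negSucc 20348),(Int.ofNat 1023435),(Int.negSucc 1337447),(Int.ofNat 574770),(Int.ofNat 590247),(Int.negSucc 1251548),(Int.ofNat 1163610),(Int.negSucc 705347),(Int.ofNat 299880),(Int.negSucc 89711),(Int.ofNat 18144),(Int.negSucc 2239),(Int.ofNat 128)]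

/-- Row. -/
def t1r7_22 : List ℤ := [(Int.ofNat 1),(Int.negSucc 7),(Int.ofNat 7),(Int.ofNat 126),(Int.negSucc 440),(Int.negSucc 251),(Int.ofNat 4221),(Int.negSucc 6713),(Int.negSucc 11681),(Int.ofNat 53592),(Int.negSucc 42041),(Int.negSucc 126083),(Int.ofNat 332766),(Int.negSucc 162791),(Int.negSucc 563957),(Int.ofNat 1174428),(Int.negSucc 630818),(Int.negSucc 1043783),(Int.ofNat 2360883),(Int.negSucc 1912217),(Int.negSucc 15476),(Int.ofNat 1841796),(Int.negSucc 2415158),(Int.ofNat 1868958),(Int.negSucc 1005227),(Int.ofNat 389592),(Int.negSucc 107855),(Int.ofNat 20384),(Int.negSucc 2367),(Int.ofNat 128)]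

/-- Row. -/
def t1r7_23 : List ℤ := [(Int.negSucc 0),(Int.ofNat 9),(Int.negSucc 14),(Int.negSucc 118),(Int.ofNat 567),(Int.negSucc 188),(Int.negSucc 4472),(Int.ofNat 10935),(Int.ofNat 4968),(Int.negSucc 65273),(Int.ofNat 95634),(Int.ofNat 84042),(Int.negSucc 458849),(Int.ofNat 495558),(Int.ofNat 401166),(Int.negSucc 1738385),(Int.ofNat 1805247),(Int.ofNat 412965),(Int.negSucc 3404666),(Int.ofNat 4273101),(Int.negSucc 1896740),(Int.negSucc 1857272),(Int.ofNat 4256955),(Int.negSucc 4284116),(Int.ofNat 2874186),(Int.negSucc 1394819),(Int.ofNat 497448),(Int.negSucc 128239),(Int.ofNat 22752),(Int.negSucc 2495),(Int.ofNat 128)]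

/-- Rows. -/
def t1r7 : List (List ℤ) := [t1r7_0,t1r7_1,t1r7_2,t1r7_3,t1r7_4,t1r7_5,t1r7_6,t1r7_7,t1r7_8,t1r7_9,t1r7_10,t1r7_11,t1r7_12,t1r7_13,t1r7_14,t1r7_15,t1r7_16,t1r7_17,t1r7_18,t1r7_19,t1r7_20,t1r7_21,t1r7_22,t1r7_23]

/-- Row. -/
def t1r8_0 : List ℤ := [(Int.ofNat 1),(Int.ofNat 16),(Int.ofNat 112),(Int.ofNat 448),(Int.ofNat 1120),(Int.ofNat 1792),(Int.ofNat 1792),(Int.ofNat 1024),(Int.ofNat 256)]

/-- Row. -/
def t1r8_1 : List ℤ := [(Int.negSucc 0),(Int.negSucc 14),(Int.negSucc 95),(Int.negSucc 335),(Int.negSucc 671),(Int.negSucc 671),(Int.ofNat 0),(Int.ofNat 768),(Int.ofNat 768),(Int.ofNat 256)]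

/-- Row. -/
def t1r8_2 : List ℤ := [(Int.ofNat 1),(Int.ofNat 14),(Int.ofNat 81),(Int.ofNat 240),(Int.ofNat 336),(Int.ofNat 0),(Int.negSucc 671),(Int.negSucc 767),(Int.ofNat 0),(Int.ofNat 512),(Int.ofNat 256)]

/-- Row. -/
def t1r8_3 : List ℤ := [(Int.negSucc 0),(Int.negSucc 12),(Int.negSucc 66),(Int.negSucc 158),(Int.negSucc 95),(Int.ofNat 336),(Int.ofNat 672),(Int.ofNat 96),(Int.negSucc 767),(Int.negSucc 511),(Int.ofNat 256),(Int.ofNat 256)]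

/-- Row. -/
def t1r8_4 : List ℤ := [(Int.ofNat 1),(Int.ofNat 12),(Int.ofNat 54),(Int.ofNat 92),(Int.negSucc 62),(Int.negSucc 431),(Int.negSucc 335),(Int.ofNat 576),(Int.ofNat 864),(Int.negSucc 255),(Int.negSucc 767),(Int.ofNat 0),(Int.ofNat 256)]

/-- Row. -/
def t1r8_5 : List ℤ := [(Int.negSucc 0),(Int.negSucc 10),(Int.negSucc 41),(Int.negSucc 37),(Int.ofNat 155),(Int.ofNat 369),(Int.negSucc 95),(Int.negSucc 911),(Int.negSucc 287),(Int.ofNat 1120),(Int.ofNat 512),(Int.negSucc 767),(Int.negSucc 255),(Int.ofNat 256)]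

/-- Row. -/
def t1r8_6 : List ℤ := [(Int.ofNat 1),(Int.ofNat 10),(Int.ofNat 31),(Int.negSucc 3),(Int.negSucc 192),(Int.negSucc 213),(Int.ofNat 465),(Int.ofNat 816),(Int.negSucc 623),(Int.negSucc 1407),(Int.ofNat 608),(Int.ofNat 1280),(Int.negSucc 511),(Int.negSucc 511),(Int.ofNat 256)]

/-- Row. -/
def t1r8_7 : List ℤ := [(Int.negSucc 0),(Int.negSucc 8),(Int.negSucc 20),(Int.ofNat 35),(Int.ofNat 189),(Int.ofNat 21),(Int.negSucc 678),(Int.negSucc 350),(Int.ofNat 1440),(Int.ofNat 784),(Int.negSucc 2015),(Int.negSucc 671),(Int.ofNat 1792),(Int.ofNat 0),(Int.negSucc 767),(Int.ofNat 256)]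

/-- Row. -/
def t1r8_8 : List ℤ := [(Int.ofNat 1),(Int.ofNat 8),(Int.ofNat 12),(Int.negSucc 55),(Int.negSucc 153),(Int.ofNat 168),(Int.ofNat 700),(Int.negSucc 327),(Int.negSucc 1790),(Int.ofNat 656),(Int.ofNat 2800),(Int.negSucc 1343),(Int.negSucc 2463),(Int.ofNat 1792),(Int.ofNat 768),(Int.negSucc 1023),(Int.ofNat 256)]

/-- Row. -/
def t1r8_9 : List ℤ := [(Int.negSucc 0),(Int.negSucc 6),(Int.negSucc 3),(Int.ofNat 68),(Int.ofNat 98),(Int.negSucc 321),(Int.negSucc 531),(Int.ofNat 1028),(Int.ofNat 1463),(Int.negSucc 2446),(Int.negSucc 2143),(Int.ofNat 4144),(Int.ofNat 1120),(Int.negSucc 4255),(Int.ofNat 1024),(Int.ofNat 1792),(Int.negSucc 1279),(Int.ofNat 256)]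

/-- Row. -/
def t1r8_10 : List ℤ := [(Int.ofNat 1),(Int.ofNat 6),(Int.negSucc 2),(Int.negSucc 71),(Int.negSucc 29),(Int.ofNat 420),(Int.ofNat 210),(Int.negSucc 1559),(Int.negSucc 434),(Int.ofNat 3910),(Int.negSucc 302),(Int.negSucc 6287),(Int.ofNat 3024),(Int.ofNat 5376),(Int.negSucc 5279),(Int.negSucc 767),(Int.ofNat 3072),(Int.negSucc 1535),(Int.ofNat 256)]

/-- Row. -/
def t1r8_11 : List ℤ := [(Int.negSucc 0),(Int.negSucc 4),(Int.ofNat 9),(Int.ofNat 69),(Int.negSucc 41),(Int.negSucc 449),(Int.ofNat 210),(Int.ofNat 1770),(Int.negSucc 1124),(Int.negSucc 4344),(Int.ofNat 4213),(Int.ofNat 5985),(Int.negSucc 9311),(Int.negSucc 2351),(Int.ofNat 10656),(Int.negSucc 4511),(Int.negSucc 3839),(Int.ofNat 4608),(Int.negSucc 1791),(Int.ofNat 256)]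

/-- Row. -/
def t1r8_12 : List ℤ := [(Int.ofNat 1),(Int.ofNat 4),(Int.negSucc 13),(Int.negSucc 59),(Int.ofNat 111),(Int.ofNat 408),(Int.negSucc 659),(Int.negSucc 1559),(Int.ofNat 2895),(Int.ofNat 3220),(Int.negSucc 8557),(Int.negSucc 1771),(Int.ofNat 15297),(Int.negSucc 6959),(Int.negSucc 13007),(Int.ofNat 15168),(Int.negSucc 671),(Int.negSucc 8447),(Int.ofNat 6400),(Int.negSucc 2047),(Int.ofNat 256)]

/-- Row. -/
def t1r8_13 : List ℤ := [(Int.negSucc 0),(Int.negSucc 2),(Int.ofNat 18),(Int.ofNat 46),(Int.negSucc 170),(Int.negSucc 296),(Int.ofNat 1068),(Int.ofNat 900),(Int.negSucc 4454),(Int.negSucc 324),(Int.ofNat 11778),(Int.negSucc 6785),(Int.negSucc 17068),(Int.ofNat 22257),(Int.ofNat 6048),(Int.negSucc 28175),(Int.ofNat 15840),(Int.ofNat 7776),(Int.negSucc 14847),(Int.ofNat 8448),(Int.negSucc 2303),(Int.ofNat 256)]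

/-- Row. -/
def t1r8_14 : List ℤ := [(Int.ofNat 1),(Int.ofNat 2),(Int.negSucc 20),(Int.negSucc 27),(Int.ofNat 217),(Int.ofNat 126),(Int.negSucc 1364),(Int.ofNat 168),(Int.ofNat 5355),(Int.negSucc 4129),(Int.negSucc 12102),(Int.ofNat 18564),(Int.ofNat 10283),(Int.negSucc 39325),(Int.ofNat 16209),(Int.ofNat 34224),(Int.negSucc 44015),(Int.ofNat 8064),(Int.ofNat 22624),(Int.negSucc 23295),(Int.ofNat 10752),(Int.negSucc 2559),(Int.ofNat 256)]

/-- Row. -/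
def t1r8_15 : List ℤ := [(Int.negSucc 0),(Int.negSucc 0),(Int.ofNat 23),(Int.ofNat 7),(Int.negSucc 244),(Int.ofNat 91),(Int.ofNat 1491),(Int.negSucc 1532),(Int.negSucc 5186),(Int.ofNat 9485),(Int.ofNat 7973),(Int.negSucc 30666),(Int.ofNat 8281),(Int.ofNat 49609),(Int.negSucc 55534),(Int.negSucc 18014),(Int.ofNat 78240),(Int.negSucc 52079),(Int.negSucc 14559),(Int.ofNat 45920),(Int.negSucc 34047),(Int.ofNat 13312),(Int.negSucc 2815),(Int.ofNat 256)]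

/-- Row. -/
def t1r8_16 : List ℤ := [(Int.ofNat 1),(Int.ofNat 0),(Int.negSucc 23),(Int.ofNat 16),(Int.ofNat 252),(Int.negSucc 335),(Int.negSucc 1399),(Int.ofNat 3024),(Int.ofNat 3654),(Int.negSucc 14671),(Int.ofNat 1512),(Int.ofNat 38640),(Int.negSucc 38947),(Int.negSucc 41327),(Int.ofNat 105144),(Int.negSucc 37519),(Int.negSucc 96254),(Int.ofNat 130320),(Int.negSucc 37519),(Int.negSucc 60479),(Int.ofNat 79968),(Int.negSucc 47359),(Int.ofNat 16128),(Int.negSucc 3071),(Int.ofNat 256)]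

/-- Row. -/
def t1r8_17 : List ℤ := [(Int.negSucc 0),(Int.ofNat 1),(Int.ofNat 24),(Int.negSucc 39),(Int.negSucc 235),(Int.ofNat 588),(Int.ofNat 1064),(Int.negSucc 4423),(Int.negSucc 629),(Int.ofNat 18326),(Int.negSucc 16183),(Int.negSucc 37127),(Int.ofNat 77588),(Int.ofNat 2380),(Int.negSucc 146471),(Int.ofNat 142664),(Int.ofNat 58735),(Int.negSucc 226574),(Int.ofNat 167840),(Int.ofNat 22960),(Int.negSucc 140447),(Int.ofNat 127328),(Int.negSucc 63487),(Int.ofNat 19200),(Int.negSucc 3327),(Int.ofNat 256)]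

/-- Row. -/
def t1r8_18 : List ℤ := [(Int.ofNat 1),(Int.negSucc 1),(Int.negSucc 22),(Int.ofNat 64),(Int.ofNat 196),(Int.negSucc 823),(Int.negSucc 475),(Int.ofNat 5488),(Int.negSucc 3793),(Int.negSucc 18955),(Int.ofNat 34510),(Int.ofNat 20944),(Int.negSucc 114715),(Int.ofNat 75208),(Int.ofNat 148852),(Int.negSucc 289135),(Int.ofNat 83929),(Int.ofNat 285310),(Int.negSucc 394414),(Int.ofNat 144880),(Int.ofNat 163408),(Int.negSucc 267775),(Int.ofNat 190816),(Int.negSucc 82687),(Int.ofNat 22528),(Int.negSucc 3583),(Int.ofNat 256)]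

/-- Row. -/
def t1r8_19 : List ℤ := [(Int.negSucc 0),(Int.ofNat 3),(Int.ofNat 21),(Int.negSucc 86),(Int.negSucc 131),(Int.ofNat 1020),(Int.negSucc 347),(Int.negSucc 5963),(Int.ofNat 9282),(Int.ofNat 15162),(Int.negSucc 53465),(Int.ofNat 13566),(Int.ofNat 135660),(Int.negSucc 189923),(Int.negSucc 73643),(Int.ofNat 437988),(Int.negSucc 373064),(Int.negSucc 201380),(Int.ofNat 679725),(Int.negSucc 539294),(Int.negSucc 18527),(Int.ofNat 431184),(Int.negSucc 458591),(Int.ofNat 273504),(Int.negSucc 105215),(Int.ofNat 26112),(Int.negSucc 3839),(Int.ofNat 256)]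

/-- Row. -/
def t1r8_20 : List ℤ := [(Int.ofNat 1),(Int.negSucc 3),(Int.negSucc 17),(Int.ofNat 108),(Int.ofNat 45),(Int.negSucc 1151),(Int.ofNat 1368),(Int.ofNat 5616),(Int.negSucc 15245),(Int.negSucc 5879),(Int.ofNat 68628),(Int.negSucc 67031),(Int.negSucc 122093),(Int.ofNat 325584),(Int.negSucc 116279),(Int.negSucc 511631),(Int.ofNat 811053),(Int.negSucc 171683),(Int.negSucc 881105),(Int.ofNat 1219020),(Int.negSucc 520766),(Int.negSucc 449711),(Int.ofNat 889776),(Int.negSucc 732095),(Int.ofNat 378720),(Int.negSucc 131327),(Int.ofNat 29952),(Int.negSucc 4095),(Int.ofNat 256)]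

/-- Row. -/
def t1r8_21 : List ℤ := [(Int.negSucc 0),(Int.ofNat 5),(Int.ofNat 14),(Int.negSucc 125),(Int.ofNat 63),(Int.ofNat 1197),(Int.negSucc 2519),(Int.negSucc 4247),(Int.ofNat 20862),(Int.negSucc 9365),(Int.negSucc 74507),(Int.ofNat 135660),(Int.ofNat 55062),(Int.negSucc 447677),(Int.ofNat 441864),(Int.ofNat 395352),(Int.negSucc 1322684),(Int.ofNat 982737),(Int.ofNat 709422),(Int.negSucc 2100125),(Int.ofNat 1739787),(Int.negSucc 71054),(Int.negSucc 1339487),(Int.ofNat 1621872),(Int.negSucc 1110815),(Int.ofNat 510048),(Int.negSucc 161279),(Int.ofNat 34048),(Int.negSucc 4351),(Int.ofNat 256)]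

/-- Row. -/
def t1r8_22 : List ℤ := [(Int.ofNat 1),(Int.negSucc 5),(Int.negSucc 8),(Int.ofNat 140),(Int.negSucc 188),(Int.negSucc 1133),(Int.ofNat 3717),(Int.ofNat 1728),(Int.negSucc 25109),(Int.ofNat 30228),(Int.ofNat 65142),(Int.negSucc 210167),(Int.ofNat 80598),(Int.ofNat 502740),(Int.negSucc 889541),(Int.ofNat 46512),(Int.ofNat 1718037),(Int.negSucc 2305421),(Int.ofNat 273315),(Int.ofNat 2809548),(Int.negSucc 3839912),(Int.ofNat 1810842),(Int.ofNat 1268433),(Int.negSucc 2961359),(Int.ofNat 2732688),(Int.negSucc 1620863),(Int.ofNat 671328),(Int.negSucc 195327),(Int.ofNat 38400),(Int.negSucc 4607),(Int.ofNat 256)]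

/-- Row. -/
def t1r8_23 : List ℤ := [(Int.negSucc 0),(Int.ofNat 7),(Int.ofNat 3),(Int.negSucc 148),(Int.ofNat 329),(Int.ofNat 945),(Int.negSucc 4850),(Int.ofNat 1989),(Int.ofNat 26838),(Int.negSucc 55337),(Int.negSucc 34913),(Int.ofNat 275310),(Int.negSucc 290765),(Int.negSucc 422141),(Int.ofNat 1392282),(Int.negSucc 936053),(Int.negSucc 1671524),(Int.ofNat 4023459),(Int.negSucc 2578736),(Int.negSucc 2536232),(Int.ofNat 6649461),(Int.negSucc 5650754),(Int.ofNat 542409),(Int.ofNat 4229793),(Int.negSucc 5694047),(Int.ofNat 4353552),(Int.negSucc 2292191),(Int.ofNat 866656),(Int.negSucc 233727),(Int.ofNat 43008),(Int.negSucc 4863),(Int.ofNat 256)]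

/-- Rows. -/
def t1r8 : List (List ℤ) := [t1r8_0,t1r8_1,t1r8_2,t1r8_3,t1r8_4,t1r8_5,t1r8_6,t1r8_7,t1r8_8,t1r8_9,t1r8_10,t1r8_11,t1r8_12,t1r8_13,t1r8_14,t1r8_15,t1r8_16,t1r8_17,t1r8_18,t1r8_19,t1r8_20,t1r8_21,t1r8_22,t1r8_23]

/-- Row. -/
def t1r9_0 : List ℤ := [(Int.ofNat 1),(Int.ofNat 18),(Int.ofNat 144),(Int.ofNat 672),(Int.ofNat 2016),(Int.ofNat 4032),(Int.ofNat 5376),(Int.ofNat 4608),(Int.ofNat 2304),(Int.ofNat 512)]

/-- Row. -/
def t1r9_1 : List ℤ := [(Int.negSucc 0),(Int.negSucc 16),(Int.negSucc 125),(Int.negSucc 527),(Int.negSucc 1343),(Int.negSucc 2015),(Int.negSucc 1343),(Int.ofNat 768),(Int.ofNat 2304),(Int.ofNat 1792),(Int.ofNat 512)]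

/-- Row. -/
def t1r9_2 : List ℤ := [(Int.ofNat 1),(Int.ofNat 16),(Int.ofNat 109),(Int.ofNat 402),(Int.ofNat 816),(Int.ofNat 672),(Int.negSucc 671),(Int.negSucc 2111),(Int.negSucc 1535),(Int.ofNat 512),(Int.ofNat 1280),(Int.ofNat 512)]

/-- Row. -/
def t1r9_3 : List ℤ := [(Int.negSucc 0),(Int.negSucc 14),(Int.negSucc 92),(Int.negSucc 292),(Int.negSucc 413),(Int.ofNat 144),(Int.ofNat 1344),(Int.ofNat 1440),(Int.negSucc 575),(Int.negSucc 2047),(Int.negSucc 767),(Int.ofNat 768),(Int.ofNat 512)]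

/-- Row. -/
def t1r9_4 : List ℤ := [(Int.ofNat 1),(Int.ofNat 14),(Int.ofNat 78),(Int.ofNat 200),(Int.ofNat 121),(Int.negSucc 557),(Int.negSucc 1199),(Int.negSucc 95),(Int.ofNat 2016),(Int.ofNat 1472),(Int.negSucc 1279),(Int.negSucc 1535),(Int.ofNat 256),(Int.ofNat 512)]

/-- Row. -/
def t1r9_5 : List ℤ := [(Int.negSucc 0),(Int.negSucc 12),(Int.negSucc 63),(Int.negSucc 121),(Int.ofNat 79),(Int.ofNat 679),(Int.ofNat 642),(Int.negSucc 1103),(Int.negSucc 2111),(Int.ofNat 544),(Int.ofNat 2752),(Int.ofNat 256),(Int.negSucc 1791),(Int.negSucc 255),(Int.ofNat 512)]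

/-- Row. -/
def t1r9_6 : List ℤ := [(Int.ofNat 1),(Int.ofNat 12),(Int.ofNat 51),(Int.ofNat 58),(Int.negSucc 200),(Int.negSucc 599),(Int.ofNat 37),(Int.ofNat 1746),(Int.ofNat 1008),(Int.negSucc 2655),(Int.negSucc 2207),(Int.ofNat 2496),(Int.ofNat 2048),(Int.negSucc 1535),(Int.negSucc 767),(Int.ofNat 512)]

/-- Row. -/
def t1r9_7 : List ℤ := [(Int.negSucc 0),(Int.negSucc 10),(Int.negSucc 38),(Int.negSucc 6),(Int.ofNat 259),(Int.ofNat 399),(Int.negSucc 636),(Int.negSucc 1708),(Int.ofNat 738),(Int.ofNat 3664),(Int.negSucc 447),(Int.negSucc 4703),(Int.ofNat 448),(Int.ofNat 3584),(Int.negSucc 767),(Int.negSucc 1279),(Int.ofNat 512)]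

/-- Row. -/
def t1r9_8 : List ℤ := [(Int.ofNat 1),(Int.ofNat 10),(Int.ofNat 28),(Int.negSucc 31),(Int.negSucc 265),(Int.negSucc 139),(Int.ofNat 1036),(Int.ofNat 1072),(Int.negSucc 2446),(Int.negSucc 2925),(Int.ofNat 4112),(Int.ofNat 4256),(Int.negSucc 5151),(Int.negSucc 3135),(Int.ofNat 4352),(Int.ofNat 512),(Int.negSucc 1791),(Int.ofNat 512)]

/-- Row. -/
def t1r9_9 : List ℤ := [(Int.negSucc 0),(Int.negSucc 8),(Int.negSucc 17),(Int.ofNat 60),(Int.ofNat 234),(Int.negSucc 125),(Int.negSucc 1175),(Int.negSucc 35),(Int.ofNat 3519),(Int.ofNat 479),(Int.negSucc 7037),(Int.negSucc 143),(Int.ofNat 9408),(Int.negSucc 2015),(Int.negSucc 7487),(Int.ofNat 3840),(Int.ofNat 2304),(Int.negSucc 2303),(Int.ofNat 512)]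

/-- Row. -/
def t1r9_10 : List ℤ := [(Int.ofNat 1),(Int.ofNat 8),(Int.ofNat 9),(Int.negSucc 77),(Int.negSucc 173),(Int.ofNat 360),(Int.ofNat 1050),(Int.negSucc 1139),(Int.negSucc 3554),(Int.ofNat 3040),(Int.ofNat 7517),(Int.negSucc 6893),(Int.negSucc 9551),(Int.ofNat 11424),(Int.ofNat 5472),(Int.negSucc 11327),(Int.ofNat 1536),(Int.ofNat 4608),(Int.negSucc 2815),(Int.ofNat 512)]

/-- Row. -/
def t1r9_11 : List ℤ := [(Int.negSucc 0),(Int.negSucc 6),(Int.negSucc 0),(Int.ofNat 87),(Int.ofNat 96),(Int.negSucc 533),(Int.negSucc 689),(Int.ofNat 2190),(Int.ofNat 2415),(Int.negSucc 6594),(Int.negSucc 4476),(Int.ofNat 14411),(Int.ofNat 2658),(Int.negSucc 20975),(Int.ofNat 5952),(Int.ofNat 16800),(Int.negSucc 12863),(Int.negSucc 3071),(Int.ofNat 7424),(Int.negSucc 3327),(Int.ofNat 512)]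

/-- Row. -/
def t1r9_12 : List ℤ := [(Int.ofNat 1),(Int.ofNat 6),(Int.negSucc 5),(Int.negSucc 87),(Int.negSucc 8),(Int.ofNat 630),(Int.ofNat 156),(Int.negSucc 2879),(Int.negSucc 224),(Int.ofNat 9010),(Int.negSucc 2117),(Int.negSucc 18887),(Int.ofNat 11753),(Int.ofNat 23634),(Int.negSucc 26927),(Int.negSucc 10847),(Int.ofNat 29664),(Int.negSucc 9791),(Int.negSucc 10495),(Int.ofNat 10752),(Int.negSucc 3839),(Int.ofNat 512)]

/-- Row. -/
def t1r9_13 : List ℤ := [(Int.negSucc 0),(Int.negSucc 4),(Int.ofNat 12),(Int.ofNat 82),(Int.negSucc 78),(Int.negSucc 638),(Int.ofNat 474),(Int.ofNat 3036),(Int.negSucc 2654),(Int.negSucc 9234),(Int.ofNat 11128),(Int.ofNat 16770),(Int.negSucc 30640),(Int.negSucc 11880),(Int.ofNat 50562),(Int.negSucc 16079),(Int.negSucc 40511),(Int.ofNat 39456),(Int.ofNat 704),(Int.negSucc 21247),(Int.ofNat 14592),(Int.negSucc 4351),(Int.ofNat 512)]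

/-- Row. -/
def t1r9_14 : List ℤ := [(Int.ofNat 1),(Int.ofNat 4),(Int.negSucc 16),(Int.negSucc 69),(Int.ofNat 161),(Int.ofNat 560),(Int.negSucc 1112),(Int.negSucc 2561),(Int.ofNat 5691),(Int.ofNat 6580),(Int.negSucc 20362),(Int.negSucc 5641),(Int.ofNat 47411),(Int.negSucc 18759),(Int.negSucc 62442),(Int.ofNat 66642),(Int.ofNat 24432),(Int.negSucc 79967),(Int.ofNat 38752),(Int.ofNat 21952),(Int.negSucc 35839),(Int.ofNat 18944),(Int.negSucc 4863),(Int.ofNat 512)]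

/-- Row. -/
def t1r9_15 : List ℤ := [(Int.negSucc 0),(Int.negSucc 2),(Int.ofNat 21),(Int.ofNat 53),(Int.negSucc 230),(Int.negSucc 398),(Int.ofNat 1673),(Int.ofNat 1449),(Int.negSucc 8252),(Int.negSucc 888),(Int.ofNat 26943),(Int.negSucc 14720),(Int.negSucc 53052),(Int.ofNat 66171),(Int.ofNat 43683),(Int.negSucc 129084),(Int.ofNat 42210),(Int.ofNat 104400),(Int.negSucc 118719),(Int.ofNat 16800),(Int.ofNat 57792),(Int.negSucc 54783),(Int.ofNat 23808),(Int.negSucc 5375),(Int.ofNat 512)]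

/-- Row. -/
def t1r9_16 : List ℤ := [(Int.ofNat 1),(Int.ofNat 2),(Int.negSucc 23),(Int.negSucc 31),(Int.ofNat 284),(Int.ofNat 168),(Int.negSucc 2071),(Int.ofNat 224),(Int.ofNat 9702),(Int.negSucc 7363),(Int.negSucc 27831),(Int.ofNat 41664),(Int.ofNat 38332),(Int.negSucc 119223),(Int.ofNat 22488),(Int.ofNat 172768),(Int.negSucc 171294),(Int.negSucc 62189),(Int.ofNat 223120),(Int.negSucc 135519),(Int.negSucc 40991),(Int.ofNat 112576),(Int.negSucc 78591),(Int.ofNat 29184),(Int.negSucc 5887),(Int.ofNat 512)]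

/-- Row. -/
def t1r9_17 : List ℤ := [(Int.negSucc 0),(Int.negSucc 0),(Int.ofNat 26),(Int.ofNat 8),(Int.negSucc 315),(Int.ofNat 116),(Int.ofNat 2240),(Int.negSucc 2295),(Int.negSucc 9477),(Int.ofNat 17066),(Int.ofNat 20468),(Int.negSucc 69495),(Int.ofNat 3332),(Int.ofNat 157556),(Int.negSucc 141711),(Int.negSucc 150279),(Int.ofNat 344063),(Int.negSucc 109104),(Int.negSucc 285309),(Int.ofNat 358640),(Int.negSucc 94527),(Int.negSucc 153567),(Int.ofNat 191168),(Int.negSucc 107775),(Int.ofNat 35072),(Int.negSucc 6399),(Int.ofNat 512)]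

/-- Row. -/
def t1r9_18 : List ℤ := [(Int.ofNat 1),(Int.ofNat 0),(Int.negSucc 26),(Int.ofNat 18),(Int.ofNat 324),(Int.negSucc 431),(Int.negSucc 2123),(Int.ofNat 4536),(Int.ofNat 7182),(Int.negSucc 26543),(Int.negSucc 3401),(Int.ofNat 89964),(Int.negSucc 72827),(Int.negSucc 154223),(Int.ofNat 299268),(Int.ofNat 8568),(Int.negSucc 494342),(Int.ofNat 453168),(Int.ofNat 176205),(Int.negSucc 643949),(Int.ofNat 453168),(Int.ofNat 59040),(Int.negSucc 344735),(Int.ofNat 298944),(Int.negSucc 142847),(Int.ofNat 41472),(Int.negSucc 6911),(Int.ofNat 512)]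

/-- Row. -/
def t1r9_19 : List ℤ := [(Int.negSucc 0),(Int.ofNat 1),(Int.ofNat 27),(Int.negSucc 44),(Int.negSucc 305),(Int.ofNat 756),(Int.ofNat 1692),(Int.negSucc 6659),(Int.negSucc 2645),(Int.ofNat 33726),(Int.negSucc 23141),(Int.negSucc 93365),(Int.ofNat 162792),(Int.ofNat 81396),(Int.negSucc 453491),(Int.ofNat 290700),(Int.ofNat 502911),(Int.negSucc 947510),(Int.ofNat 276963),(Int.ofNat 820155),(Int.negSucc 1097117),(Int.ofNat 394128),(Int.ofNat 403776),(Int.negSucc 643679),(Int.ofNat 441792),(Int.negSucc 184319),(Int.ofNat 48384),(Int.negSucc 7423),(Int.ofNat 512)]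

/-- Row. -/
def t1r9_20 : List ℤ := [(Int.ofNat 1),(Int.negSucc 1),(Int.negSucc 25),(Int.ofNat 72),(Int.ofNat 261),(Int.negSucc 1061),(Int.negSucc 935),(Int.ofNat 8352),(Int.negSucc 4013),(Int.negSucc 36371),(Int.ofNat 56868),(Int.ofNat 70224),(Int.negSucc 256157),(Int.ofNat 81396),(Int.ofNat 534888),(Int.negSucc 744191),(Int.negSucc 212210),(Int.ofNat 1450422),(Int.negSucc 1224473),(Int.negSucc 543191),(Int.ofNat 1917273),(Int.negSucc 1491245),(Int.negSucc 9647),(Int.ofNat 1047456),(Int.negSucc 1085471),(Int.ofNat 626112),(Int.negSucc 232703),(Int.ofNat 55808),(Int.negSucc 7935),(Int.ofNat 512)]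

/-- Row. -/
def t1r9_21 : List ℤ := [(Int.negSucc 0),(Int.ofNat 3),(Int.ofNat 24),(Int.negSucc 97),(Int.negSucc 188),(Int.ofNat 1323),(Int.negSucc 125),(Int.negSucc 9287),(Int.ofNat 12366),(Int.ofNat 32358),(Int.negSucc 93239),(Int.negSucc 13355),(Int.ofNat 326382),(Int.negSucc 337553),(Int.negSucc 453491),(Int.ofNat 1279080),(Int.negSucc 531980),(Int.negSucc 1662632),(Int.ofNat 2674896),(Int.negSucc 681281),(Int.negSucc 2460464),(Int.ofNat 3408519),(Int.negSucc 1481597),(Int.negSucc 1057103),(Int.ofNat 2132928),(Int.negSucc 1711583),(Int.ofNat 858816),(Int.negSucc 288511),(Int.ofNat 63744),(Int.negSucc 8447),(Int.ofNat 512)]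

/-- Row. -/
def t1r9_22 : List ℤ := [(Int.ofNat 1),(Int.negSucc 3),(Int.negSucc 20),(Int.ofNat 122),(Int.ofNat 91),(Int.negSucc 1511),(Int.ofNat 1449),(Int.ofNat 9162),(Int.negSucc 21653),(Int.negSucc 19991),(Int.ofNat 125598),(Int.negSucc 79883),(Int.negSucc 339737),(Int.ofNat 663936),(Int.ofNat 115938),(Int.negSucc 1732571),(Int.ofNat 1811061),(Int.ofNat 1130652),(Int.negSucc 4337528),(Int.ofNat 3356178),(Int.ofNat 1779183),(Int.negSucc 5868983),(Int.ofNat 4890117),(Int.negSucc 424493),(Int.negSucc 3190031),(Int.ofNat 3844512),(Int.negSucc 2570399),(Int.ofNat 1147328),(Int.negSucc 352255),(Int.ofNat 72192),(Int.negSucc 8959),(Int.ofNat 512)]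

/-- Row. -/
def t1r9_23 : List ℤ := [(Int.negSucc 0),(Int.ofNat 5),(Int.ofNat 17),(Int.negSucc 142),(Int.ofNat 31),(Int.ofNat 1603),(Int.negSucc 2960),(Int.negSucc 7712),(Int.ofNat 30816),(Int.negSucc 1661),(Int.negSucc 145589),(Int.ofNat 205482),(Int.ofNat 259854),(Int.negSucc 1003673),(Int.ofNat 547998),(Int.ofNat 1848510),(Int.negSucc 3543632),(Int.ofNat 680409),(Int.ofNat 5468181),(Int.negSucc 7693706),(Int.ofNat 1576995),(Int.ofNat 7648167),(Int.negSucc 10759100),(Int.ofNat 5314611),(Int.ofNat 2765538),(Int.negSucc 7034543),(Int.ofNat 6414912),(Int.negSucc 3717727),(Int.ofNat 1499584),(Int.negSucc 424447),(Int.ofNat 81152),(Int.negSucc 9471),(Int.ofNat 512)]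

/-- Rows. -/
def t1r9 : List (List ℤ) := [t1r9_0,t1r9_1,t1r9_2,t1r9_3,t1r9_4,t1r9_5,t1r9_6,t1r9_7,t1r9_8,t1r9_9,t1r9_10,t1r9_11,t1r9_12,t1r9_13,t1r9_14,t1r9_15,t1r9_16,t1r9_17,t1r9_18,t1r9_19,t1r9_20,t1r9_21,t1r9_22,t1r9_23]

/-- The one particle table. -/
def tableOne : Tab1 := [t1r0,t1r1,t1r2,t1r3,t1r4,t1r5,t1r6,t1r7,t1r8,t1r9]

lemma tableOne_check : check1 10 24 tableOne = true := by decide +kernel

end Vale.Agent.P359.Gap.Cert
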