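import Vale.Agent.P359.Gap.Cert.Combine
import Vale.Agent.P359.Gap.Cert.Data.All
import Vale.Agent.P359.Gap.Cert.Data.TableOne
import Vale.Agent.P359.Gap.Cert.Data.Table0

/-!
# P359 gap certificate data: the one particle checks
-/

namespace Vale.Agent.P359.Gap.Cert

open Nat

/-- The check of one particle level `M`, chunk by chunk. -/
def oneChunks (T : Tab1) (ls : List (List (ℤ × X1 × X1))) (M : ℕ) : Bool :=
  decide ((ls.map fun c => lin1 32 T c M).sum * ((2 ^ (M + 1) * 6 ^ M * M ! : ℕ) : ℤ) ≤
    9 ^ 32 * 2 ^ 240 * 3 * (-1) ^ M * (3 * (M : ℤ) - 1))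

/-- Whether a list of pairs lies in the table box. -/
def inBox1 (ls : List (List (ℤ × X1 × X1))) : Bool :=
  ls.all fun c => c.all fun p => decide ((p.2.1.1 < 10 ∧ p.2.1.2 < 24) ∧
    (p.2.2.1 < 10 ∧ p.2.2.2 < 24) ∧ p.2.1.1 + p.2.1.2 ≤ 32)

/-- Whether a list of pairs lies in the table box. -/
def inBox2 (ls : List (List (ℤ × X2 × X2))) : Bool :=
  ls.all fun c => c.all fun p => decide ((p.2.1.1 < 7 ∧ p.2.1.2.1 < 11 ∧ p.2.1.2.2 < 11) ∧
    (p.2.2.1 < 7 ∧ p.2.2.2.1 < 11 ∧ p.2.2.2.2 < 11) ∧ p.2.1.1 + p.2.1.2.1 + p.2.1.2.2 ≤ 21)

lemma all1_box : inBox1 all1 = true := by decide +kernel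

lemma all2_box : inBox2 all2 = true := by decide +kernel

lemma allConst_le : decide (100 * allConst ≤ 97 * 2 ^ 240) = true := by decide +kernel

lemma one_2 : oneChunks tableOne all1 2 = true := by decide +kernel

lemma one_4 : oneChunks tableOne all1 4 = true := by decide +kernel

lemma one_5 : oneChunks tableOne all1 5 = true := by decide +kernel

lemma one_6 : oneChunks tableOne all1 6 = true := by decide +kernel

lemma one_7 : oneChunks tableOne all1 7 = true := by decide +kernel

lemma one_8 : oneChunks tableOne all1 8 = true := by decide +kernel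

lemma one_9 : oneChunks tableOne all1 9 = true := by decide +kernel

lemma one_10 : oneChunks tableOne all1 10 = true := by decide +kernel

lemma one_11 : oneChunks tableOne all1 11 = true := by decide +kernel

lemma one_12 : oneChunks tableOne all1 12 = true := by decide +kernel

lemma one_13 : oneChunks tableOne all1 13 = true := by decide +kernel

lemma one_14 : oneChunks tableOne all1 14 = true := by decide +kernel

lemma one_15 : oneChunks tableOne all1 15 = true := by decide +kernel

lemma one_16 : oneChunks tableOne all1 16 = true := by decide +kernel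

lemma one_17 : oneChunks tableOne all1 17 = true := by decide +kernel

lemma one_18 : oneChunks tableOne all1 18 = true := by decide +kernel

lemma one_19 : oneChunks tableOne all1 19 = true := by decide +kernel

lemma one_20 : oneChunks tableOne all1 20 = true := by decide +kernel

lemma one_21 : oneChunks tableOne all1 21 = true := by decide +kernel

lemma one_22 : oneChunks tableOne all1 22 = true := by decide +kernel

lemma one_23 : oneChunks tableOne all1 23 = true := by decide +kernel

lemma one_24 : oneChunks tableOne all1 24 = true := by decide +kernel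

lemma one_25 : oneChunks tableOne all1 25 = true := by decide +kernel

lemma one_26 : oneChunks tableOne all1 26 = true := by decide +kernel

lemma one_27 : oneChunks tableOne all1 27 = true := by decide +kernel

lemma one_28 : oneChunks tableOne all1 28 = true := by decide +kernel

lemma one_29 : oneChunks tableOne all1 29 = true := by decide +kernel

lemma one_30 : oneChunks tableOne all1 30 = true := by decide +kernel

lemma one_31 : oneChunks tableOne all1 31 = true := by decide +kernel

lemma one_32 : oneChunks tableOne all1 32 = true := by decide +kernel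

/-- All one particle levels outside the constraint levels. -/
lemma one_all (M : ℕ) (hM : M < 33) (h0 : M ≠ 0) (h1 : M ≠ 1) (h3 : M ≠ 3) :
    oneChunks tableOne all1 M = true :=
  match M, hM, h0, h1, h3 with
  | 2, _, _, _, _ => one_2
  | 4, _, _, _, _ => one_4
  | 5, _, _, _, _ => one_5
  | 6, _, _, _, _ => one_6
  | 7, _, _, _, _ => one_7
  | 8, _, _, _, _ => one_8
  | 9, _, _, _, _ => one_9
  | 10, _, _, _, _ => one_10
  | 11, _, _, _, _ => one_11
  | 12, _, _, _, _ => one_12
  | 13, _, _, _, _ => one_13
  | 14, _, _, _, _ => one_14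
  | 15, _, _, _, _ => one_15
  | 16, _, _, _, _ => one_16
  | 17, _, _, _, _ => one_17
  | 18, _, _, _, _ => one_18
  | 19, _, _, _, _ => one_19
  | 20, _, _, _, _ => one_20
  | 21, _, _, _, _ => one_21
  | 22, _, _, _, _ => one_22
  | 23, _, _, _, _ => one_23
  | 24, _, _, _, _ => one_24
  | 25, _, _, _, _ => one_25
  | 26, _, _, _, _ => one_26
  | 27, _, _, _, _ => one_27
  | 28, _, _, _, _ => one_28
  | 29, _, _, _, _ => one_29
  | 30, _, _, _, _ => one_30
  | 31, _, _, _, _ => one_31
  | 32, _, _, _, _ => one_32
  | 0, _, h0, _, _ => absurd rfl h0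
  | 1, _, _, h1, _ => absurd rfl h1
  | 3, _, _, _, h3 => absurd rfl h3
  | M + 33, hM, _, _, _ => absurd hM (by omega)

end Vale.Agent.P359.Gap.Cert
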