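import Vale.Agent.P359.Gap.Cert.Expand

/-!
# P359 gap certificate data: two particle table, degree 20
-/

namespace Vale.Agent.P359.Gap.Cert

/-- Rows. -/
def tab20_0_0 : List (List ℤ) := [[],[],[],[],[],[],[],[],[],[],[]]

/-- Rows. -/
def tab20_0_1 : List (List ℤ) := [[],[],[],[],[],[],[],[],[],[],[]]

/-- Rows. -/
def tab20_0_2 : List (List ℤ) := [[],[],[],[],[],[],[],[],[],[],[]]

/-- Rows. -/
def tab20_0_3 : List (List ℤ) := [[],[],[],[],[],[],[],[],[],[],[]]

/-- Rows. -/
def tab20_0_4 : List (List ℤ) := [[],[],[],[],[],[],[],[],[],[],[]]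

/-- Rows. -/
def tab20_0_5 : List (List ℤ) := [[],[],[],[],[],[],[],[],[],[],[]]

/-- Rows. -/
def tab20_0_6 : List (List ℤ) := [[],[],[],[],[],[],[],[],[],[],[]]

/-- Rows. -/
def tab20_0_7 : List (List ℤ) := [[],[],[],[],[],[],[],[],[],[],[]]

/-- Rows. -/
def tab20_0_8 : List (List ℤ) := [[],[],[],[],[],[],[],[],[],[],[]]

/-- Rows. -/
def tab20_0_9 : List (List ℤ) := [[],[],[],[],[],[],[],[],[],[],[]]

/-- Rows. -/
def tab20_0_10 : List (List ℤ) := [[],[],[],[],[],[],[],[],[],[],[1,0,-40,0,720,0,-7680,0,53760,0,-258048,0,860160,0,-1966080,0,2949120,0,-2621440,0,1048576]]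

/-- Rows. -/
def tab20_0 : List (List (List ℤ)) := [tab20_0_0,tab20_0_1,tab20_0_2,tab20_0_3,tab20_0_4,tab20_0_5,tab20_0_6,tab20_0_7,tab20_0_8,tab20_0_9,tab20_0_10]

/-- Rows. -/
def tab20_1_0 : List (List ℤ) := [[],[],[],[],[],[],[],[],[],[],[]]

/-- Rows. -/
def tab20_1_1 : List (List ℤ) := [[],[],[],[],[],[],[],[],[],[],[]]

/-- Rows. -/
def tab20_1_2 : List (List ℤ) := [[],[],[],[],[],[],[],[],[],[],[]]

/-- Rows. -/
def tab20_1_3 : List (List ℤ) := [[],[],[],[],[],[],[],[],[],[],[]]

/-- Rows. -/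
def tab20_1_4 : List (List ℤ) := [[],[],[],[],[],[],[],[],[],[],[]]

/-- Rows. -/
def tab20_1_5 : List (List ℤ) := [[],[],[],[],[],[],[],[],[],[],[]]

/-- Rows. -/
def tab20_1_6 : List (List ℤ) := [[],[],[],[],[],[],[],[],[],[],[]]

/-- Rows. -/
def tab20_1_7 : List (List ℤ) := [[],[],[],[],[],[],[],[],[],[],[]]

/-- Rows. -/
def tab20_1_8 : List (List ℤ) := [[],[],[],[],[],[],[],[],[],[],[]]

/-- Rows. -/
def tab20_1_9 : List (List ℤ) := [[],[],[],[],[],[],[],[],[],[],[-2,-4,72,144,-1152,-2304,10752,21504,-64512,-129024,258048,516096,-688128,-1376256,1179648,2359296,-1179648,-2359296,524288,1048576,0]]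

/-- Rows. -/
def tab20_1_10 : List (List ℤ) := [[],[],[],[],[],[],[],[],[],[-2,4,72,-144,-1152,2304,10752,-21504,-64512,129024,258048,-516096,-688128,1376256,1179648,-2359296,-1179648,2359296,524288,-1048576,0],[-38,0,1360,0,-21600,0,199680,0,-1182720,0,4644864,0,-12042240,0,19660800,0,-17694720,0,5242880,0,2097152]]

/-- Rows. -/
def tab20_1 : List (List (List ℤ)) := [tab20_1_0,tab20_1_1,tab20_1_2,tab20_1_3,tab20_1_4,tab20_1_5,tab20_1_6,tab20_1_7,tab20_1_8,tab20_1_9,tab20_1_10]

/-- Rows. -/
def tab20_2_0 : List (List ℤ) := [[],[],[],[],[],[],[],[],[],[],[]]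

/-- Rows. -/
def tab20_2_1 : List (List ℤ) := [[],[],[],[],[],[],[],[],[],[],[]]

/-- Rows. -/
def tab20_2_2 : List (List ℤ) := [[],[],[],[],[],[],[],[],[],[],[]]

/-- Rows. -/
def tab20_2_3 : List (List ℤ) := [[],[],[],[],[],[],[],[],[],[],[]]

/-- Rows. -/
def tab20_2_4 : List (List ℤ) := [[],[],[],[],[],[],[],[],[],[],[]]

/-- Rows. -/
def tab20_2_5 : List (List ℤ) := [[],[],[],[],[],[],[],[],[],[],[]]

/-- Rows. -/
def tab20_2_6 : List (List ℤ) := [[],[],[],[],[],[],[],[],[],[],[]]

/-- Rows. -/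
def tab20_2_7 : List (List ℤ) := [[],[],[],[],[],[],[],[],[],[],[]]

/-- Rows. -/
def tab20_2_8 : List (List ℤ) := [[],[],[],[],[],[],[],[],[],[],[4,16,-112,-512,1280,7168,-7168,-57344,14336,286720,57344,-917504,-458752,1835008,1310720,-2097152,-1835008,1048576,1048576,0,0]]

/-- Rows. -/
def tab20_2_9 : List (List ℤ) := [[],[],[],[],[],[],[],[],[],[4,0,-144,0,2304,0,-21504,0,129024,0,-516096,0,1376256,0,-2359296,0,2359296,0,-1048576,0,0],[68,128,-2160,-4032,29952,55296,-236544,-430080,1161216,2064384,-3612672,-6193152,6881280,11010048,-7077888,-9437184,2359296,0,1048576,4194304,0]]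

/-- Rows. -/
def tab20_2_10 : List (List ℤ) := [[],[],[],[],[],[],[],[],[4,-16,-112,512,1280,-7168,-7168,57344,14336,-286720,57344,917504,-458752,-1835008,1310720,2097152,-1835008,-1048576,1048576,0,0],[68,-128,-2160,4032,29952,-55296,-236544,430080,1161216,-2064384,-3612672,6193152,6881280,-11010048,-7077888,9437184,2359296,0,1048576,-4194304,0],[604,0,-18880,0,256320,0,-1966080,0,9246720,0,-26836992,0,44728320,0,-31457280,0,-11796480,0,20971520,0,4194304]]

/-- Rows. -/
def tab20_2 : List (List (List ℤ)) := [tab20_2_0,tab20_2_1,tab20_2_2,tab20_2_3,tab20_2_4,tab20_2_5,tab20_2_6,tab20_2_7,tab20_2_8,tab20_2_9,tab20_2_10]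

/-- Rows. -/
def tab20_3_0 : List (List ℤ) := [[],[],[],[],[],[],[],[],[],[],[]]

/-- Rows. -/
def tab20_3_1 : List (List ℤ) := [[],[],[],[],[],[],[],[],[],[],[]]

/-- Rows. -/
def tab20_3_2 : List (List ℤ) := [[],[],[],[],[],[],[],[],[],[],[]]

/-- Rows. -/
def tab20_3_3 : List (List ℤ) := [[],[],[],[],[],[],[],[],[],[],[]]

/-- Rows. -/
def tab20_3_4 : List (List ℤ) := [[],[],[],[],[],[],[],[],[],[],[]]

/-- Rows. -/
def tab20_3_5 : List (List ℤ) := [[],[],[],[],[],[],[],[],[],[],[]]

/-- Rows. -/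
def tab20_3_6 : List (List ℤ) := [[],[],[],[],[],[],[],[],[],[],[]]

/-- Rows. -/
def tab20_3_7 : List (List ℤ) := [[],[],[],[],[],[],[],[],[],[],[-8,-48,128,1280,0,-14336,-14336,86016,143360,-286720,-688128,458752,1835008,0,-2621440,-1048576,1572864,1048576,0,0,0]]

/-- Rows. -/
def tab20_3_8 : List (List ℤ) := [[],[],[],[],[],[],[],[],[],[-8,-16,256,512,-3584,-7168,28672,57344,-143360,-286720,458752,917504,-917504,-1835008,1048576,2097152,-524288,-1048576,0,0,0],[-120,-448,2912,12288,-28160,-143360,129024,917504,-200704,-3440640,-573440,7340032,2752512,-7340032,-2621440,0,-3670016,4194304,6291456,0,0]]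

/-- Rows. -/
def tab20_3_9 : List (List ℤ) := [[],[],[],[],[],[],[],[],[-8,16,256,-512,-3584,7168,28672,-57344,-143360,286720,458752,-917504,-917504,1835008,1048576,-2097152,-524288,1048576,0,0,0],[-120,0,3744,0,-50688,0,387072,0,-1806336,0,5160960,0,-8257536,0,4718592,0,4718592,0,-6291456,0,0],[-936,-1632,25344,43200,-290304,-479232,1806336,2838528,-6451200,-9289728,12386304,14450688,-8257536,0,-9437184,-28311552,14155776,18874368,0,12582912,0]]

/-- Rows. -/
def tab20_3_10 : List (List ℤ) := [[],[],[],[],[],[],[],[-8,48,128,-1280,0,14336,-14336,-86016,143360,286720,-688128,-458752,1835008,0,-2621440,1048576,1572864,-1048576,0,0,0],[-120,448,2912,-12288,-28160,143360,129024,-917504,-200704,3440640,-573440,-7340032,2752512,7340032,-2621440,0,-3670016,-4194304,6291456,0,0],[-936,1632,25344,-43200,-290304,479232,1806336,-2838528,-6451200,9289728,12386304,-14450688,-8257536,0,-9437184,28311552,14155776,-18874368,0,-12582912,0],[-5032,0,131200,0,-1422720,0,8110080,0,-24514560,0,28901376,0,34406400,0,-125829120,0,70778880,0,41943040,0,8388608]]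

/-- Rows. -/
def tab20_3 : List (List (List ℤ)) := [tab20_3_0,tab20_3_1,tab20_3_2,tab20_3_3,tab20_3_4,tab20_3_5,tab20_3_6,tab20_3_7,tab20_3_8,tab20_3_9,tab20_3_10]

/-- Rows. -/
def tab20_4_0 : List (List ℤ) := [[],[],[],[],[],[],[],[],[],[],[]]

/-- Rows. -/
def tab20_4_1 : List (List ℤ) := [[],[],[],[],[],[],[],[],[],[],[]]

/-- Rows. -/
def tab20_4_2 : List (List ℤ) := [[],[],[],[],[],[],[],[],[],[],[]]

/-- Rows. -/
def tab20_4_3 : List (List ℤ) := [[],[],[],[],[],[],[],[],[],[],[]]

/-- Rows. -/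
def tab20_4_4 : List (List ℤ) := [[],[],[],[],[],[],[],[],[],[],[]]

/-- Rows. -/
def tab20_4_5 : List (List ℤ) := [[],[],[],[],[],[],[],[],[],[],[]]

/-- Rows. -/
def tab20_4_6 : List (List ℤ) := [[],[],[],[],[],[],[],[],[],[],[16,128,0,-2560,-5120,18432,65536,-40960,-368640,-163840,1048576,1179648,-1310720,-2621440,0,2097152,1048576,0,0,0,0]]

/-- Rows. -/
def tab20_4_7 : List (List ℤ) := [[],[],[],[],[],[],[],[],[],[16,64,-384,-1792,3584,21504,-14336,-143360,0,573440,229376,-1376256,-917504,1835008,1572864,-1048576,-1048576,0,0,0,0],[208,1152,-2816,-25600,0,229376,200704,-1032192,-1433600,2293760,4128768,-1835008,-3670016,0,-5242880,-4194304,9437184,8388608,0,0,0]]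

/-- Rows. -/
def tab20_4_8 : List (List ℤ) := [[],[],[],[],[],[],[],[],[16,0,-512,0,7168,0,-57344,0,286720,0,-917504,0,1835008,0,-2097152,0,1048576,0,0,0,0],[208,384,-5632,-10240,64512,114688,-401408,-688128,1433600,2293760,-2752512,-3670016,1835008,0,2097152,8388608,-3145728,-8388608,0,0,0],[1392,4736,-27776,-104448,209920,917504,-688128,-3899392,630784,6881280,458752,3670016,5505024,-29360128,-20971520,25165824,7340032,8388608,25165824,0,0]]

/-- Rows. -/
def tab20_4_9 : List (List ℤ) := [[],[],[],[],[],[],[],[16,-64,-384,1792,3584,-21504,-14336,143360,0,-573440,229376,1376256,-917504,-1835008,1572864,1048576,-1048576,0,0,0,0],[208,-384,-5632,10240,64512,-114688,-401408,688128,1433600,-2293760,-2752512,3670016,1835008,0,2097152,-8388608,-3145728,8388608,0,0,0],[1392,0,-35712,0,377856,0,-2064384,0,5677056,0,-4128768,0,-16515072,0,37748736,0,-9437184,0,-25165824,0,0],[6320,9856,-134784,-198144,1115136,1474560,-4128768,-4128768,3612672,-4128768,20643840,49545216,-60555264,-88080384,37748736,0,28311552,75497472,-8388608,33554432,0]]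

/-- Rows. -/
def tab20_4_10 : List (List ℤ) := [[],[],[],[],[],[],[16,-128,0,2560,-5120,-18432,65536,40960,-368640,163840,1048576,-1179648,-1310720,2621440,0,-2097152,1048576,0,0,0,0],[208,-1152,-2816,25600,0,-229376,200704,1032192,-1433600,-2293760,4128768,1835008,-3670016,0,-5242880,4194304,9437184,-8388608,0,0,0],[1392,-4736,-27776,104448,209920,-917504,-688128,3899392,630784,-6881280,458752,-3670016,5505024,29360128,-20971520,-25165824,7340032,-8388608,25165824,0,0],[6320,-9856,-134784,198144,1115136,-1474560,-4128768,4128768,3612672,4128768,20643840,-49545216,-60555264,88080384,37748736,0,28311552,-75497472,-8388608,-33554432,0],[21536,0,-411520,0,2730240,0,-4423680,0,-30965760,0,161021952,0,-233963520,0,-62914560,0,283115520,0,41943040,0,16777216]]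

/-- Rows. -/
def tab20_4 : List (List (List ℤ)) := [tab20_4_0,tab20_4_1,tab20_4_2,tab20_4_3,tab20_4_4,tab20_4_5,tab20_4_6,tab20_4_7,tab20_4_8,tab20_4_9,tab20_4_10]

/-- Rows. -/
def tab20_5_0 : List (List ℤ) := [[],[],[],[],[],[],[],[],[],[],[]]

/-- Rows. -/
def tab20_5_1 : List (List ℤ) := [[],[],[],[],[],[],[],[],[],[],[]]

/-- Rows. -/
def tab20_5_2 : List (List ℤ) := [[],[],[],[],[],[],[],[],[],[],[]]

/-- Rows. -/
def tab20_5_3 : List (List ℤ) := [[],[],[],[],[],[],[],[],[],[],[]]

/-- Rows. -/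
def tab20_5_4 : List (List ℤ) := [[],[],[],[],[],[],[],[],[],[],[]]

/-- Rows. -/
def tab20_5_5 : List (List ℤ) := [[],[],[],[],[],[],[],[],[],[],[-32,-320,-640,3840,17920,-1024,-133120,-184320,368640,1064960,32768,-2293760,-1966080,1310720,2621440,1048576,0,0,0,0,0]]

/-- Rows. -/
def tab20_5_6 : List (List ℤ) := [[],[],[],[],[],[],[],[],[],[-32,-192,384,4352,1536,-39936,-51200,184320,368640,-409600,-1277952,196608,2228224,786432,-1572864,-1048576,0,0,0,0,0],[-352,-2560,0,40960,71680,-221184,-655360,327680,2211840,655360,-2097152,0,-2621440,-10485760,0,16777216,10485760,0,0,0,0]]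

/-- Rows. -/
def tab20_5_7 : List (List ℤ) := [[],[],[],[],[],[],[],[],[-32,-64,896,1792,-10752,-21504,71680,143360,-286720,-573440,688128,1376256,-917504,-1835008,524288,1048576,0,0,0,0,0],[-352,-1280,6912,28672,-50176,-258048,143360,1146880,0,-2293760,-458752,0,-1835008,7340032,9437184,-8388608,-10485760,0,0,0,0],[-1952,-9600,20480,158720,0,-917504,-573440,1720320,573440,2293760,11010048,-9175040,-36700160,0,20971520,-4194304,31457280,41943040,0,0,0]]

/-- Rows. -/
def tab20_5_8 : List (List ℤ) := [[],[],[],[],[],[],[],[-32,64,896,-1792,-10752,21504,71680,-143360,-286720,573440,688128,-1376256,-917504,1835008,524288,-1048576,0,0,0,0,0],[-352,0,9216,0,-100352,0,573440,0,-1720320,0,1835008,0,3670016,0,-12582912,0,10485760,0,0,0,0],[-1952,-3200,40960,63488,-329728,-458752,1146880,1146880,-573440,2293760,-7340032,-18350080,18350080,29360128,-8388608,8388608,-10485760,-41943040,0,0,0],[-7072,-20480,98560,286720,-399360,-917504,0,-4587520,1720320,36700160,6422528,-73400320,-18350080,0,-41943040,100663296,73400320,0,83886080,0,0]]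

/-- Rows. -/
def tab20_5_9 : List (List ℤ) := [[],[],[],[],[],[],[-32,192,384,-4352,1536,39936,-51200,-184320,368640,409600,-1277952,-196608,2228224,-786432,-1572864,1048576,0,0,0,0,0],[-352,1280,6912,-28672,-50176,258048,143360,-1146880,0,2293760,-458752,0,-1835008,-7340032,9437184,8388608,-10485760,0,0,0,0],[-1952,3200,40960,-63488,-329728,458752,1146880,-1146880,-573440,-2293760,-7340032,18350080,18350080,-29360128,-8388608,-8388608,-10485760,41943040,0,0,0],[-7072,0,126720,0,-718848,0,0,0,15482880,0,-57802752,0,55050240,0,75497472,0,-94371840,0,-83886080,0,0],[-17792,-21440,201600,149760,92160,1622016,-10321920,-20643840,51609600,72253440,-78446592,-41287680,-55050240,-220200960,188743680,226492416,0,188743680,-41943040,83886080,0]]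

/-- Rows. -/
def tab20_5_10 : List (List ℤ) := [[],[],[],[],[],[-32,320,-640,-3840,17920,1024,-133120,184320,368640,-1064960,32768,2293760,-1966080,-1310720,2621440,-1048576,0,0,0,0,0],[-352,2560,0,-40960,71680,221184,-655360,-327680,2211840,-655360,-2097152,0,-2621440,10485760,0,-16777216,10485760,0,0,0,0],[-1952,9600,20480,-158720,0,917504,-573440,-1720320,573440,-2293760,11010048,9175040,-36700160,0,20971520,4194304,31457280,-41943040,0,0,0],[-7072,20480,98560,-286720,-399360,917504,0,4587520,1720320,-36700160,6422528,73400320,-18350080,0,-41943040,-100663296,73400320,0,83886080,0,0],[-17792,21440,201600,-149760,92160,-1622016,-10321920,20643840,51609600,-72253440,-78446592,41287680,-55050240,220200960,188743680,-226492416,0,-188743680,-41943040,-83886080,0],[-28096,0,-16640,0,5829120,0,-50135040,0,144506880,0,8257536,0,-688128000,0,629145600,0,566231040,0,-83886080,0,33554432]]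

/-- Rows. -/
def tab20_5 : List (List (List ℤ)) := [tab20_5_0,tab20_5_1,tab20_5_2,tab20_5_3,tab20_5_4,tab20_5_5,tab20_5_6,tab20_5_7,tab20_5_8,tab20_5_9,tab20_5_10]

/-- Rows. -/
def tab20_6_0 : List (List ℤ) := [[],[],[],[],[],[],[],[],[],[],[]]

/-- Rows. -/
def tab20_6_1 : List (List ℤ) := [[],[],[],[],[],[],[],[],[],[],[]]

/-- Rows. -/
def tab20_6_2 : List (List ℤ) := [[],[],[],[],[],[],[],[],[],[],[]]

/-- Rows. -/
def tab20_6_3 : List (List ℤ) := [[],[],[],[],[],[],[],[],[],[],[]]

/-- Rows. -/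
def tab20_6_4 : List (List ℤ) := [[],[],[],[],[],[],[],[],[],[],[64,768,2816,-2048,-39936,-77824,110592,589824,442368,-1245184,-2555904,-524288,2883584,3145728,1048576,0,0,0,0,0,0]]

/-- Rows. -/
def tab20_6_5 : List (List ℤ) := [[],[],[],[],[],[],[],[],[],[64,512,256,-8192,-19456,40960,184320,0,-737280,-655360,1245184,2097152,-262144,-2097152,-1048576,0,0,0,0,0,0],[576,5120,8960,-46080,-179200,8192,798720,737280,-737280,0,65536,-9175040,-11796480,10485760,26214400,12582912,0,0,0,0,0]]

/-- Rows. -/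
def tab20_6_6 : List (List ℤ) := [[],[],[],[],[],[],[],[],[64,256,-1280,-6144,9216,61440,-20480,-327680,-81920,983040,589824,-1572864,-1310720,1048576,1048576,0,0,0,0,0,0],[576,3072,-5376,-52224,-15360,319488,307200,-737280,-737280,0,-2555904,786432,13369344,6291456,-15728640,-12582912,0,0,0,0,0],[2496,15360,0,-153600,-184320,294912,0,491520,7372800,3932160,-25165824,-23592960,15728640,0,0,75497472,62914560,0,0,0,0]]

/-- Rows. -/
def tab20_6_7 : List (List ℤ) := [[],[],[],[],[],[],[],[64,0,-1792,0,21504,0,-143360,0,573440,0,-1376256,0,1835008,0,-1048576,0,0,0,0,0,0],[576,1024,-12544,-21504,107520,172032,-430080,-573440,573440,0,1376256,5505024,-5505024,-14680064,5242880,12582912,0,0,0,0,0],[2496,7680,-33792,-107520,129024,344064,0,1720320,0,-13762560,-5505024,27525120,11010048,0,25165824,-37748736,-62914560,0,0,0,0],[6336,23040,-30720,-81920,0,-1835008,-2293760,13762560,19496960,-27525120,-33030144,0,-73400320,0,167772160,33554432,62914560,167772160,0,0,0]]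

/-- Rows. -/
def tab20_6_8 : List (List ℤ) := [[],[],[],[],[],[],[64,-256,-1280,6144,9216,-61440,-20480,327680,-81920,-983040,589824,1572864,-1310720,-1048576,1048576,0,0,0,0,0,0],[576,-1024,-12544,21504,107520,-172032,-430080,573440,573440,0,1376256,-5505024,-5505024,14680064,5242880,-12582912,0,0,0,0,0],[2496,0,-45056,0,258048,0,0,0,-5734400,0,22020096,0,-22020096,0,-33554432,0,62914560,0,0,0,0],[6336,7680,-61440,-32768,-200704,-917504,4587520,9175040,-19496960,-27525120,22020096,0,36700160,117440512,-67108864,-67108864,-20971520,-167772160,0,0,0],[7296,3840,80640,614400,-1699840,-8716288,6881280,36700160,-4587520,-13762560,8257536,-220200960,-110100480,293601280,41943040,201326592,293601280,-83886080,251658240,0,0]]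

/-- Rows. -/
def tab20_6_9 : List (List ℤ) := [[],[],[],[],[],[64,-512,256,8192,-19456,-40960,184320,0,-737280,655360,1245184,-2097152,-262144,2097152,-1048576,0,0,0,0,0,0],[576,-3072,-5376,52224,-15360,-319488,307200,737280,-737280,0,-2555904,-786432,13369344,-6291456,-15728640,12582912,0,0,0,0,0],[2496,-7680,-33792,107520,129024,-344064,0,-1720320,0,13762560,-5505024,-27525120,11010048,0,25165824,37748736,-62914560,0,0,0,0],[6336,-7680,-61440,32768,-200704,917504,4587520,-9175040,-19496960,27525120,22020096,0,36700160,-117440512,-67108864,67108864,-20971520,167772160,0,0,0],[7296,0,103680,0,-3059712,0,20643840,0,-41287680,0,-74317824,0,330301440,0,-75497472,0,-377487360,0,-251658240,0,0],[-14976,-44544,836352,1465344,-8957952,-11796480,28901376,16515072,33030144,148635648,-322043904,-495452160,330301440,0,377487360,905969664,-226492416,301989888,-150994944,201326592,0]]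

/-- Rows. -/
def tab20_6_10 : List (List ℤ) := [[],[],[],[],[64,-768,2816,2048,-39936,77824,110592,-589824,442368,1245184,-2555904,524288,2883584,-3145728,1048576,0,0,0,0,0,0],[576,-5120,8960,46080,-179200,-8192,798720,-737280,-737280,0,65536,9175040,-11796480,-10485760,26214400,-12582912,0,0,0,0,0],[2496,-15360,0,153600,-184320,-294912,0,-491520,7372800,-3932160,-25165824,23592960,15728640,0,0,-75497472,62914560,0,0,0,0],[6336,-23040,-30720,81920,0,1835008,-2293760,-13762560,19496960,27525120,-33030144,0,-73400320,0,167772160,-33554432,62914560,-167772160,0,0,0],[7296,-3840,80640,-614400,-1699840,8716288,6881280,-36700160,-4587520,13762560,8257536,220200960,-110100480,-293601280,41943040,-201326592,293601280,83886080,251658240,0,0],[-14976,44544,836352,-1465344,-8957952,11796480,28901376,-16515072,33030144,-148635648,-322043904,495452160,330301440,0,377487360,-905969664,-226492416,-301989888,-150994944,-201326592,0],[-106112,0,2754560,0,-18201600,0,-3932160,0,399114240,0,-1056964608,0,-275251200,0,2516582400,0,377487360,0,-671088640,0,67108864]]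

/-- Rows. -/
def tab20_6 : List (List (List ℤ)) := [tab20_6_0,tab20_6_1,tab20_6_2,tab20_6_3,tab20_6_4,tab20_6_5,tab20_6_6,tab20_6_7,tab20_6_8,tab20_6_9,tab20_6_10]

/-- The table of degree 20. -/
def table20 : Tab2 := [tab20_0,tab20_1,tab20_2,tab20_3,tab20_4,tab20_5,tab20_6]


end Vale.Agent.P359.Gap.Cert
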