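import Vale.Agent.P359.Gap.Cert.Expand

/-!
# P359 gap certificate data: two particle table, degree 21
-/

namespace Vale.Agent.P359.Gap.Cert

/-- Rows. -/
def tab21_0_0 : List (List ℤ) := [[],[],[],[],[],[],[],[],[],[],[]]

/-- Rows. -/
def tab21_0_1 : List (List ℤ) := [[],[],[],[],[],[],[],[],[],[],[]]

/-- Rows. -/
def tab21_0_2 : List (List ℤ) := [[],[],[],[],[],[],[],[],[],[],[]]

/-- Rows. -/
def tab21_0_3 : List (List ℤ) := [[],[],[],[],[],[],[],[],[],[],[]]

/-- Rows. -/
def tab21_0_4 : List (List ℤ) := [[],[],[],[],[],[],[],[],[],[],[]]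

/-- Rows. -/
def tab21_0_5 : List (List ℤ) := [[],[],[],[],[],[],[],[],[],[],[]]

/-- Rows. -/
def tab21_0_6 : List (List ℤ) := [[],[],[],[],[],[],[],[],[],[],[]]

/-- Rows. -/
def tab21_0_7 : List (List ℤ) := [[],[],[],[],[],[],[],[],[],[],[]]

/-- Rows. -/
def tab21_0_8 : List (List ℤ) := [[],[],[],[],[],[],[],[],[],[],[]]

/-- Rows. -/
def tab21_0_9 : List (List ℤ) := [[],[],[],[],[],[],[],[],[],[],[]]

/-- Rows. -/
def tab21_0_10 : List (List ℤ) := [[],[],[],[],[],[],[],[],[],[],[]]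

/-- Rows. -/
def tab21_0 : List (List (List ℤ)) := [tab21_0_0,tab21_0_1,tab21_0_2,tab21_0_3,tab21_0_4,tab21_0_5,tab21_0_6,tab21_0_7,tab21_0_8,tab21_0_9,tab21_0_10]

/-- Rows. -/
def tab21_1_0 : List (List ℤ) := [[],[],[],[],[],[],[],[],[],[],[]]

/-- Rows. -/
def tab21_1_1 : List (List ℤ) := [[],[],[],[],[],[],[],[],[],[],[]]

/-- Rows. -/
def tab21_1_2 : List (List ℤ) := [[],[],[],[],[],[],[],[],[],[],[]]

/-- Rows. -/
def tab21_1_3 : List (List ℤ) := [[],[],[],[],[],[],[],[],[],[],[]]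

/-- Rows. -/
def tab21_1_4 : List (List ℤ) := [[],[],[],[],[],[],[],[],[],[],[]]

/-- Rows. -/
def tab21_1_5 : List (List ℤ) := [[],[],[],[],[],[],[],[],[],[],[]]

/-- Rows. -/
def tab21_1_6 : List (List ℤ) := [[],[],[],[],[],[],[],[],[],[],[]]

/-- Rows. -/
def tab21_1_7 : List (List ℤ) := [[],[],[],[],[],[],[],[],[],[],[]]

/-- Rows. -/
def tab21_1_8 : List (List ℤ) := [[],[],[],[],[],[],[],[],[],[],[]]

/-- Rows. -/
def tab21_1_9 : List (List ℤ) := [[],[],[],[],[],[],[],[],[],[],[]]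

/-- Rows. -/
def tab21_1_10 : List (List ℤ) := [[],[],[],[],[],[],[],[],[],[],[2,0,-80,0,1440,0,-15360,0,107520,0,-516096,0,1720320,0,-3932160,0,5898240,0,-5242880,0,2097152,0]]

/-- Rows. -/
def tab21_1 : List (List (List ℤ)) := [tab21_1_0,tab21_1_1,tab21_1_2,tab21_1_3,tab21_1_4,tab21_1_5,tab21_1_6,tab21_1_7,tab21_1_8,tab21_1_9,tab21_1_10]

/-- Rows. -/
def tab21_2_0 : List (List ℤ) := [[],[],[],[],[],[],[],[],[],[],[]]

/-- Rows. -/
def tab21_2_1 : List (List ℤ) := [[],[],[],[],[],[],[],[],[],[],[]]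

/-- Rows. -/
def tab21_2_2 : List (List ℤ) := [[],[],[],[],[],[],[],[],[],[],[]]

/-- Rows. -/
def tab21_2_3 : List (List ℤ) := [[],[],[],[],[],[],[],[],[],[],[]]

/-- Rows. -/
def tab21_2_4 : List (List ℤ) := [[],[],[],[],[],[],[],[],[],[],[]]

/-- Rows. -/
def tab21_2_5 : List (List ℤ) := [[],[],[],[],[],[],[],[],[],[],[]]

/-- Rows. -/
def tab21_2_6 : List (List ℤ) := [[],[],[],[],[],[],[],[],[],[],[]]

/-- Rows. -/
def tab21_2_7 : List (List ℤ) := [[],[],[],[],[],[],[],[],[],[],[]]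

/-- Rows. -/
def tab21_2_8 : List (List ℤ) := [[],[],[],[],[],[],[],[],[],[],[]]

/-- Rows. -/
def tab21_2_9 : List (List ℤ) := [[],[],[],[],[],[],[],[],[],[],[-4,-8,144,288,-2304,-4608,21504,43008,-129024,-258048,516096,1032192,-1376256,-2752512,2359296,4718592,-2359296,-4718592,1048576,2097152,0,0]]

/-- Rows. -/
def tab21_2_10 : List (List ℤ) := [[],[],[],[],[],[],[],[],[],[-4,8,144,-288,-2304,4608,21504,-43008,-129024,258048,516096,-1032192,-1376256,2752512,2359296,-4718592,-2359296,4718592,1048576,-2097152,0,0],[-72,0,2560,0,-40320,0,368640,0,-2150400,0,8257536,0,-20643840,0,31457280,0,-23592960,0,0,0,8388608,0]]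

/-- Rows. -/
def tab21_2 : List (List (List ℤ)) := [tab21_2_0,tab21_2_1,tab21_2_2,tab21_2_3,tab21_2_4,tab21_2_5,tab21_2_6,tab21_2_7,tab21_2_8,tab21_2_9,tab21_2_10]

/-- Rows. -/
def tab21_3_0 : List (List ℤ) := [[],[],[],[],[],[],[],[],[],[],[]]

/-- Rows. -/
def tab21_3_1 : List (List ℤ) := [[],[],[],[],[],[],[],[],[],[],[]]

/-- Rows. -/
def tab21_3_2 : List (List ℤ) := [[],[],[],[],[],[],[],[],[],[],[]]

/-- Rows. -/
def tab21_3_3 : List (List ℤ) := [[],[],[],[],[],[],[],[],[],[],[]]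

/-- Rows. -/
def tab21_3_4 : List (List ℤ) := [[],[],[],[],[],[],[],[],[],[],[]]

/-- Rows. -/
def tab21_3_5 : List (List ℤ) := [[],[],[],[],[],[],[],[],[],[],[]]

/-- Rows. -/
def tab21_3_6 : List (List ℤ) := [[],[],[],[],[],[],[],[],[],[],[]]

/-- Rows. -/
def tab21_3_7 : List (List ℤ) := [[],[],[],[],[],[],[],[],[],[],[]]

/-- Rows. -/
def tab21_3_8 : List (List ℤ) := [[],[],[],[],[],[],[],[],[],[],[8,32,-224,-1024,2560,14336,-14336,-114688,28672,573440,114688,-1835008,-917504,3670016,2621440,-4194304,-3670016,2097152,2097152,0,0,0]]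

/-- Rows. -/
def tab21_3_9 : List (List ℤ) := [[],[],[],[],[],[],[],[],[],[8,0,-288,0,4608,0,-43008,0,258048,0,-1032192,0,2752512,0,-4718592,0,4718592,0,-2097152,0,0,0],[128,240,-4032,-7488,55296,101376,-430080,-774144,2064384,3612672,-6193152,-10321920,11010048,16515072,-9437184,-9437184,0,-9437184,4194304,12582912,0,0]]

/-- Rows. -/
def tab21_3_10 : List (List ℤ) := [[],[],[],[],[],[],[],[],[8,-32,-224,1024,2560,-14336,-14336,114688,28672,-573440,114688,1835008,-917504,-3670016,2621440,4194304,-3670016,-2097152,2097152,0,0,0],[128,-240,-4032,7488,55296,-101376,-430080,774144,2064384,-3612672,-6193152,10321920,11010048,-16515072,-9437184,9437184,0,9437184,4194304,-12582912,0,0],[1064,0,-32640,0,432000,0,-3194880,0,14192640,0,-37158912,0,48168960,0,0,0,-70778880,0,41943040,0,25165824,0]]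

/-- Rows. -/
def tab21_3 : List (List (List ℤ)) := [tab21_3_0,tab21_3_1,tab21_3_2,tab21_3_3,tab21_3_4,tab21_3_5,tab21_3_6,tab21_3_7,tab21_3_8,tab21_3_9,tab21_3_10]

/-- Rows. -/
def tab21_4_0 : List (List ℤ) := [[],[],[],[],[],[],[],[],[],[],[]]

/-- Rows. -/
def tab21_4_1 : List (List ℤ) := [[],[],[],[],[],[],[],[],[],[],[]]

/-- Rows. -/
def tab21_4_2 : List (List ℤ) := [[],[],[],[],[],[],[],[],[],[],[]]

/-- Rows. -/
def tab21_4_3 : List (List ℤ) := [[],[],[],[],[],[],[],[],[],[],[]]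

/-- Rows. -/
def tab21_4_4 : List (List ℤ) := [[],[],[],[],[],[],[],[],[],[],[]]

/-- Rows. -/
def tab21_4_5 : List (List ℤ) := [[],[],[],[],[],[],[],[],[],[],[]]

/-- Rows. -/
def tab21_4_6 : List (List ℤ) := [[],[],[],[],[],[],[],[],[],[],[]]

/-- Rows. -/
def tab21_4_7 : List (List ℤ) := [[],[],[],[],[],[],[],[],[],[],[-16,-96,256,2560,0,-28672,-28672,172032,286720,-573440,-1376256,917504,3670016,0,-5242880,-2097152,3145728,2097152,0,0,0,0]]

/-- Rows. -/
def tab21_4_8 : List (List ℤ) := [[],[],[],[],[],[],[],[],[],[-16,-32,512,1024,-7168,-14336,57344,114688,-286720,-573440,917504,1835008,-1835008,-3670016,2097152,4194304,-1048576,-2097152,0,0,0,0],[-224,-832,5376,22528,-51200,-258048,229376,1605632,-344064,-5734400,-917504,11010048,3670016,-7340032,0,-8388608,-14680064,12582912,16777216,0,0,0]]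

/-- Rows. -/
def tab21_4_9 : List (List ℤ) := [[],[],[],[],[],[],[],[],[-16,32,512,-1024,-7168,14336,57344,-114688,-286720,573440,917504,-1835008,-1835008,3670016,2097152,-4194304,-1048576,2097152,0,0,0,0],[-224,0,6912,0,-92160,0,688128,0,-3096576,0,8257536,0,-11010048,0,0,0,18874368,0,-16777216,0,0,0],[-1616,-2784,42624,71424,-470016,-755712,2752512,4128768,-8773632,-11354112,12386304,8257536,5505024,33030144,-37748736,-75497472,28311552,18874368,8388608,50331648,0,0]]

/-- Rows. -/
def tab21_4_10 : List (List ℤ) := [[],[],[],[],[],[],[],[-16,96,256,-2560,0,28672,-28672,-172032,286720,573440,-1376256,-917504,3670016,0,-5242880,2097152,3145728,-2097152,0,0,0,0],[-224,832,5376,-22528,-51200,258048,229376,-1605632,-344064,5734400,-917504,-11010048,3670016,7340032,0,8388608,-14680064,-12582912,16777216,0,0,0],[-1616,2784,42624,-71424,-470016,755712,2752512,-4128768,-8773632,11354112,12386304,-8257536,5505024,-33030144,-37748736,75497472,28311552,-18874368,8388608,-50331648,0,0],[-7936,0,197120,0,-1981440,0,9830400,0,-20643840,0,-16515072,0,165150720,0,-251658240,0,0,0,167772160,0,67108864,0]]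

/-- Rows. -/
def tab21_4 : List (List (List ℤ)) := [tab21_4_0,tab21_4_1,tab21_4_2,tab21_4_3,tab21_4_4,tab21_4_5,tab21_4_6,tab21_4_7,tab21_4_8,tab21_4_9,tab21_4_10]

/-- Rows. -/
def tab21_5_0 : List (List ℤ) := [[],[],[],[],[],[],[],[],[],[],[]]

/-- Rows. -/
def tab21_5_1 : List (List ℤ) := [[],[],[],[],[],[],[],[],[],[],[]]

/-- Rows. -/
def tab21_5_2 : List (List ℤ) := [[],[],[],[],[],[],[],[],[],[],[]]

/-- Rows. -/
def tab21_5_3 : List (List ℤ) := [[],[],[],[],[],[],[],[],[],[],[]]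

/-- Rows. -/
def tab21_5_4 : List (List ℤ) := [[],[],[],[],[],[],[],[],[],[],[]]

/-- Rows. -/
def tab21_5_5 : List (List ℤ) := [[],[],[],[],[],[],[],[],[],[],[]]

/-- Rows. -/
def tab21_5_6 : List (List ℤ) := [[],[],[],[],[],[],[],[],[],[],[32,256,0,-5120,-10240,36864,131072,-81920,-737280,-327680,2097152,2359296,-2621440,-5242880,0,4194304,2097152,0,0,0,0,0]]

/-- Rows. -/
def tab21_5_7 : List (List ℤ) := [[],[],[],[],[],[],[],[],[],[32,128,-768,-3584,7168,43008,-28672,-286720,0,1146880,458752,-2752512,-1835008,3670016,3145728,-2097152,-2097152,0,0,0,0,0],[384,2112,-5120,-46080,0,401408,344064,-1720320,-2293760,3440640,5505024,-1835008,0,0,-20971520,-12582912,25165824,20971520,0,0,0,0]]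

/-- Rows. -/
def tab21_5_8 : List (List ℤ) := [[],[],[],[],[],[],[],[],[32,0,-1024,0,14336,0,-114688,0,573440,0,-1835008,0,3670016,0,-4194304,0,2097152,0,0,0,0,0],[384,704,-10240,-18432,114688,200704,-688128,-1146880,2293760,3440640,-3670016,-3670016,0,-7340032,8388608,25165824,-8388608,-20971520,0,0,0,0],[2336,7808,-44800,-163840,317440,1318912,-917504,-4587520,573440,2293760,-917504,29360128,18350080,-73400320,-41943040,33554432,-14680064,41943040,83886080,0,0,0]]

/-- Rows. -/
def tab21_5_9 : List (List ℤ) := [[],[],[],[],[],[],[],[32,-128,-768,3584,7168,-43008,-28672,286720,0,-1146880,458752,2752512,-1835008,-3670016,3145728,2097152,-2097152,0,0,0,0,0],[384,-704,-10240,18432,114688,-200704,-688128,1146880,2293760,-3440640,-3670016,3670016,0,7340032,8388608,-25165824,-8388608,20971520,0,0,0,0],[2336,0,-57600,0,571392,0,-2752512,0,5160960,0,8257536,0,-55050240,0,75497472,0,18874368,0,-83886080,0,0,0],[9408,14144,-184320,-253440,1290240,1437696,-2752512,0,-10321920,-30965760,66060288,115605504,-110100480,-110100480,0,-150994944,113246208,188743680,0,167772160,0,0]]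

/-- Rows. -/
def tab21_5_10 : List (List ℤ) := [[],[],[],[],[],[],[32,-256,0,5120,-10240,-36864,131072,81920,-737280,327680,2097152,-2359296,-2621440,5242880,0,-4194304,2097152,0,0,0,0,0],[384,-2112,-5120,46080,0,-401408,344064,1720320,-2293760,-3440640,5505024,1835008,0,0,-20971520,12582912,25165824,-20971520,0,0,0,0],[2336,-7808,-44800,163840,317440,-1318912,-917504,4587520,573440,-2293760,-917504,-29360128,18350080,73400320,-41943040,-33554432,-14680064,-41943040,83886080,0,0,0],[9408,-14144,-184320,253440,1290240,-1437696,-2752512,0,-10321920,30965760,66060288,-115605504,-110100480,110100480,0,150994944,113246208,-188743680,0,-167772160,0,0],[27200,0,-428800,0,1497600,0,10813440,0,-103219200,0,289013760,0,-137625600,0,-629145600,0,566231040,0,419430400,0,167772160,0]]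

/-- Rows. -/
def tab21_5 : List (List (List ℤ)) := [tab21_5_0,tab21_5_1,tab21_5_2,tab21_5_3,tab21_5_4,tab21_5_5,tab21_5_6,tab21_5_7,tab21_5_8,tab21_5_9,tab21_5_10]

/-- Rows. -/
def tab21_6_0 : List (List ℤ) := [[],[],[],[],[],[],[],[],[],[],[]]

/-- Rows. -/
def tab21_6_1 : List (List ℤ) := [[],[],[],[],[],[],[],[],[],[],[]]

/-- Rows. -/
def tab21_6_2 : List (List ℤ) := [[],[],[],[],[],[],[],[],[],[],[]]

/-- Rows. -/
def tab21_6_3 : List (List ℤ) := [[],[],[],[],[],[],[],[],[],[],[]]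

/-- Rows. -/
def tab21_6_4 : List (List ℤ) := [[],[],[],[],[],[],[],[],[],[],[]]

/-- Rows. -/
def tab21_6_5 : List (List ℤ) := [[],[],[],[],[],[],[],[],[],[],[-64,-640,-1280,7680,35840,-2048,-266240,-368640,737280,2129920,65536,-4587520,-3932160,2621440,5242880,2097152,0,0,0,0,0,0]]

/-- Rows. -/
def tab21_6_6 : List (List ℤ) := [[],[],[],[],[],[],[],[],[],[-64,-384,768,8704,3072,-79872,-102400,368640,737280,-819200,-2555904,393216,4456448,1572864,-3145728,-2097152,0,0,0,0,0,0],[-640,-4608,0,71680,122880,-368640,-1048576,491520,2949120,655360,0,4718592,-10485760,-31457280,0,41943040,25165824,0,0,0,0,0]]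

/-- Rows. -/
def tab21_6_7 : List (List ℤ) := [[],[],[],[],[],[],[],[],[-64,-128,1792,3584,-21504,-43008,143360,286720,-573440,-1146880,1376256,2752512,-1835008,-3670016,1048576,2097152,0,0,0,0,0,0],[-640,-2304,12288,50176,-86016,-430080,229376,1720320,0,-2293760,0,-5505024,-7340032,22020096,25165824,-20971520,-25165824,0,0,0,0,0],[-3136,-14976,30720,225280,0,-1032192,-458752,0,-3440640,11468800,33030144,-22020096,-73400320,0,0,-33554432,113246208,125829120,0,0,0,0]]

/-- Rows. -/
def tab21_6_8 : List (List ℤ) := [[],[],[],[],[],[],[],[-64,128,1792,-3584,-21504,43008,143360,-286720,-573440,1146880,1376256,-2752512,-1835008,3670016,1048576,-2097152,0,0,0,0,0,0],[-640,0,16384,0,-172032,0,917504,0,-2293760,0,0,0,14680064,0,-33554432,0,25165824,0,0,0,0,0],[-3136,-4992,61440,90112,-430080,-516096,917504,0,3440640,11468800,-22020096,-44040192,36700160,44040192,0,67108864,-37748736,-125829120,0,0,0,0],[-9472,-25344,107520,245760,-163840,802816,-1835008,-18350080,4587520,77987840,11010048,-88080384,0,-146800640,-167772160,268435456,117440512,83886080,335544320,0,0,0]]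

/-- Rows. -/
def tab21_6_9 : List (List ℤ) := [[],[],[],[],[],[],[-64,384,768,-8704,3072,79872,-102400,-368640,737280,819200,-2555904,-393216,4456448,-1572864,-3145728,2097152,0,0,0,0,0,0],[-640,2304,12288,-50176,-86016,430080,229376,-1720320,0,2293760,0,5505024,-7340032,-22020096,25165824,20971520,-25165824,0,0,0,0,0],[-3136,4992,61440,-90112,-430080,516096,917504,0,3440640,-11468800,-22020096,44040192,36700160,-44040192,0,-67108864,-37748736,125829120,0,0,0,0],[-9472,0,138240,0,-294912,0,-5505024,0,41287680,0,-99090432,0,0,0,301989888,0,-150994944,0,-335544320,0,0,0],[-16768,-14592,34560,-207360,2764800,6119424,-26148864,-41287680,82575360,82575360,-24772608,148635648,-330301440,-660602880,377487360,150994944,226492416,754974720,-83886080,503316480,0,0]]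

/-- Rows. -/
def tab21_6_10 : List (List ℤ) := [[],[],[],[],[],[-64,640,-1280,-7680,35840,2048,-266240,368640,737280,-2129920,65536,4587520,-3932160,-2621440,5242880,-2097152,0,0,0,0,0,0],[-640,4608,0,-71680,122880,368640,-1048576,-491520,2949120,-655360,0,-4718592,-10485760,31457280,0,-41943040,25165824,0,0,0,0,0],[-3136,14976,30720,-225280,0,1032192,-458752,0,-3440640,-11468800,33030144,22020096,-73400320,0,0,33554432,113246208,-125829120,0,0,0,0],[-9472,25344,107520,-245760,-163840,-802816,-1835008,18350080,4587520,-77987840,11010048,88080384,0,146800640,-167772160,-268435456,117440512,-83886080,335544320,0,0,0],[-16768,14592,34560,207360,2764800,-6119424,-26148864,41287680,82575360,-82575360,-24772608,-148635648,-330301440,660602880,377487360,-150994944,226492416,-754974720,-83886080,-503316480,0,0],[-1792,0,-890880,0,14653440,0,-78643200,0,82575360,0,594542592,0,-1651507200,0,0,0,2264924160,0,671088640,0,402653184,0]]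

/-- Rows. -/
def tab21_6 : List (List (List ℤ)) := [tab21_6_0,tab21_6_1,tab21_6_2,tab21_6_3,tab21_6_4,tab21_6_5,tab21_6_6,tab21_6_7,tab21_6_8,tab21_6_9,tab21_6_10]

/-- The table of degree 21. -/
def table21 : Tab2 := [tab21_0,tab21_1,tab21_2,tab21_3,tab21_4,tab21_5,tab21_6]


end Vale.Agent.P359.Gap.Cert
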