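import Vale.Agent.P359.Gap.Cert.Expand

/-!
# P359 gap certificate data: two particle table, degree 3
-/

namespace Vale.Agent.P359.Gap.Cert

/-- Rows. -/
def tab3_0_0 : List (List ℤ) := [[],[],[],[-1,-6,-12,-8],[-4,-24,-48,-32],[-10,-60,-120,-80],[-20,-120,-240,-160],[-35,-210,-420,-280],[-56,-336,-672,-448],[-84,-504,-1008,-672],[-120,-720,-1440,-960]]

/-- Rows. -/
def tab3_0_1 : List (List ℤ) := [[],[],[-1,-2,4,8],[-4,-12,0,16],[-10,-36,-24,16],[-20,-80,-80,0],[-35,-150,-180,-40],[-56,-252,-336,-112],[-84,-392,-560,-224],[-120,-576,-864,-384],[-165,-810,-1260,-600]]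

/-- Rows. -/
def tab3_0_2 : List (List ℤ) := [[],[-1,2,4,-8],[-4,0,16,0],[-10,-12,24,16],[-20,-40,16,32],[-35,-90,-20,40],[-56,-168,-96,32],[-84,-280,-224,0],[-120,-432,-416,-64],[-165,-630,-684,-168],[-220,-880,-1040,-320]]

/-- Rows. -/
def tab3_0_3 : List (List ℤ) := [[-1,6,-12,8],[-4,12,0,-16],[-10,12,24,-16],[-20,0,48,0],[-35,-30,60,24],[-56,-84,48,48],[-84,-168,0,64],[-120,-288,-96,64],[-165,-450,-252,40],[-220,-660,-480,-16],[-286,-924,-792,-112]]

/-- Rows. -/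
def tab3_0_4 : List (List ℤ) := [[-4,24,-48,32],[-10,36,-24,-16],[-20,40,16,-32],[-35,30,60,-24],[-56,0,96,0],[-84,-56,112,32],[-120,-144,96,64],[-165,-270,36,88],[-220,-440,-80,96],[-286,-660,-264,80],[-364,-936,-528,32]]

/-- Rows. -/
def tab3_0_5 : List (List ℤ) := [[-10,60,-120,80],[-20,80,-80,0],[-35,90,-20,-40],[-56,84,48,-48],[-84,56,112,-32],[-120,0,160,0],[-165,-90,180,40],[-220,-220,160,80],[-286,-396,88,112],[-364,-624,-48,128],[-455,-910,-260,120]]

/-- Rows. -/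
def tab3_0_6 : List (List ℤ) := [[-20,120,-240,160],[-35,150,-180,40],[-56,168,-96,-32],[-84,168,0,-64],[-120,144,96,-64],[-165,90,180,-40],[-220,0,240,0],[-286,-132,264,48],[-364,-312,240,96],[-455,-546,156,136],[-560,-840,0,160]]

/-- Rows. -/
def tab3_0_7 : List (List ℤ) := [[-35,210,-420,280],[-56,252,-336,112],[-84,280,-224,0],[-120,288,-96,-64],[-165,270,36,-88],[-220,220,160,-80],[-286,132,264,-48],[-364,0,336,0],[-455,-182,364,56],[-560,-420,336,112],[-680,-720,240,160]]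

/-- Rows. -/
def tab3_0_8 : List (List ℤ) := [[-56,336,-672,448],[-84,392,-560,224],[-120,432,-416,64],[-165,450,-252,-40],[-220,440,-80,-96],[-286,396,88,-112],[-364,312,240,-96],[-455,182,364,-56],[-560,0,448,0],[-680,-240,480,64],[-816,-544,448,128]]

/-- Rows. -/
def tab3_0_9 : List (List ℤ) := [[-84,504,-1008,672],[-120,576,-864,384],[-165,630,-684,168],[-220,660,-480,16],[-286,660,-264,-80],[-364,624,-48,-128],[-455,546,156,-136],[-560,420,336,-112],[-680,240,480,-64],[-816,0,576,0],[-969,-306,612,72]]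

/-- Rows. -/
def tab3_0_10 : List (List ℤ) := [[-120,720,-1440,960],[-165,810,-1260,600],[-220,880,-1040,320],[-286,924,-792,112],[-364,936,-528,-32],[-455,910,-260,-120],[-560,840,0,-160],[-680,720,240,-160],[-816,544,448,-128],[-969,306,612,-72],[-1140,0,720,0]]

/-- Rows. -/
def tab3_0 : List (List (List ℤ)) := [tab3_0_0,tab3_0_1,tab3_0_2,tab3_0_3,tab3_0_4,tab3_0_5,tab3_0_6,tab3_0_7,tab3_0_8,tab3_0_9,tab3_0_10]

/-- Rows. -/
def tab3_1_0 : List (List ℤ) := [[],[],[2,8,8,0],[4,12,0,-16],[4,0,-48,-64],[0,-40,-160,-160],[-10,-120,-360,-320],[-28,-252,-672,-560],[-56,-448,-1120,-896],[-96,-720,-1728,-1344],[-150,-1080,-2520,-1920]]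

/-- Rows. -/
def tab3_1_1 : List (List ℤ) := [[],[2,0,-8,0],[4,4,0,16],[4,0,0,32],[0,-24,-32,32],[-10,-80,-120,0],[-28,-180,-288,-80],[-56,-336,-560,-224],[-96,-560,-960,-448],[-150,-864,-1512,-768],[-220,-1260,-2240,-1200]]

/-- Rows. -/
def tab3_1_2 : List (List ℤ) := [[2,-8,8,0],[4,-4,0,-16],[4,0,16,0],[0,-8,32,32],[-10,-40,24,64],[-28,-108,-32,80],[-56,-224,-160,64],[-96,-400,-384,0],[-150,-648,-728,-128],[-220,-980,-1216,-336],[-308,-1408,-1872,-640]]

/-- Rows. -/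
def tab3_1_3 : List (List ℤ) := [[4,-12,0,16],[4,0,0,-32],[0,8,32,-32],[-10,0,72,0],[-28,-36,96,48],[-56,-112,80,96],[-96,-240,0,128],[-150,-432,-168,128],[-220,-700,-448,80],[-308,-1056,-864,-32],[-416,-1512,-1440,-224]]

/-- Rows. -/
def tab3_1_4 : List (List ℤ) := [[4,0,-48,64],[0,24,-32,-32],[-10,40,24,-64],[-28,36,96,-48],[-56,0,160,0],[-96,-80,192,64],[-150,-216,168,128],[-220,-420,64,176],[-308,-704,-144,192],[-416,-1080,-480,160],[-546,-1560,-968,64]]

/-- Rows. -/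
def tab3_1_5 : List (List ℤ) := [[0,40,-160,160],[-10,80,-120,0],[-28,108,-32,-80],[-56,112,80,-96],[-96,80,192,-64],[-150,0,280,0],[-220,-140,320,80],[-308,-352,288,160],[-416,-648,160,224],[-546,-1040,-88,256],[-700,-1540,-480,240]]

/-- Rows. -/
def tab3_1_6 : List (List ℤ) := [[-10,120,-360,320],[-28,180,-288,80],[-56,224,-160,-64],[-96,240,0,-128],[-150,216,168,-128],[-220,140,320,-80],[-308,0,432,0],[-416,-216,480,96],[-546,-520,440,192],[-700,-924,288,272],[-880,-1440,0,320]]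

/-- Rows. -/
def tab3_1_7 : List (List ℤ) := [[-28,252,-672,560],[-56,336,-560,224],[-96,400,-384,0],[-150,432,-168,-128],[-220,420,64,-176],[-308,352,288,-160],[-416,216,480,-96],[-546,0,616,0],[-700,-308,672,112],[-880,-720,624,224],[-1088,-1248,448,320]]

/-- Rows. -/
def tab3_1_8 : List (List ℤ) := [[-56,448,-1120,896],[-96,560,-960,448],[-150,648,-728,128],[-220,700,-448,-80],[-308,704,-144,-192],[-416,648,160,-224],[-546,520,440,-192],[-700,308,672,-112],[-880,0,832,0],[-1088,-416,896,128],[-1326,-952,840,256]]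

/-- Rows. -/
def tab3_1_9 : List (List ℤ) := [[-96,720,-1728,1344],[-150,864,-1512,768],[-220,980,-1216,336],[-308,1056,-864,32],[-416,1080,-480,-160],[-546,1040,-88,-256],[-700,924,288,-272],[-880,720,624,-224],[-1088,416,896,-128],[-1326,0,1080,0],[-1596,-540,1152,144]]

/-- Rows. -/
def tab3_1_10 : List (List ℤ) := [[-150,1080,-2520,1920],[-220,1260,-2240,1200],[-308,1408,-1872,640],[-416,1512,-1440,224],[-546,1560,-968,-64],[-700,1540,-480,-240],[-880,1440,0,-320],[-1088,1248,448,-320],[-1326,952,840,-256],[-1596,540,1152,-144],[-1900,0,1360,0]]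

/-- Rows. -/
def tab3_1 : List (List (List ℤ)) := [tab3_1_0,tab3_1_1,tab3_1_2,tab3_1_3,tab3_1_4,tab3_1_5,tab3_1_6,tab3_1_7,tab3_1_8,tab3_1_9,tab3_1_10]

/-- Rows. -/
def tab3_2_0 : List (List ℤ) := [[],[-4,-8,0,0],[0,16,32,0],[8,48,48,-32],[16,64,0,-128],[20,40,-160,-320],[16,-48,-480,-640],[0,-224,-1008,-1120],[-32,-512,-1792,-1792],[-84,-936,-2880,-2688],[-160,-1520,-4320,-3840]]

/-- Rows. -/
def tab3_2_1 : List (List ℤ) := [[-4,8,0,0],[0,0,-32,0],[8,16,-16,32],[16,32,0,64],[20,24,-32,64],[16,-32,-160,0],[0,-160,-432,-160],[-32,-384,-896,-448],[-84,-728,-1600,-896],[-160,-1216,-2592,-1536],[-264,-1872,-3920,-2400]]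

/-- Rows. -/
def tab3_2_2 : List (List ℤ) := [[0,-16,32,0],[8,-16,-16,-32],[16,0,0,0],[20,8,32,64],[16,-16,32,128],[0,-96,-48,160],[-32,-256,-256,128],[-84,-520,-640,0],[-160,-912,-1248,-256],[-264,-1456,-2128,-672],[-400,-2176,-3328,-1280]]

/-- Rows. -/
def tab3_2_3 : List (List ℤ) := [[8,-48,48,32],[16,-32,0,-64],[20,-8,32,-64],[16,0,96,0],[0,-32,144,96],[-32,-128,128,192],[-84,-312,0,256],[-160,-608,-288,256],[-264,-1040,-784,160],[-400,-1632,-1536,-64],[-572,-2408,-2592,-448]]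

/-- Rows. -/
def tab3_2_4 : List (List ℤ) := [[16,-64,0,128],[20,-24,-32,-64],[16,16,32,-128],[0,32,144,-96],[-32,0,256,0],[-84,-104,320,128],[-160,-304,288,256],[-264,-624,112,352],[-400,-1088,-256,384],[-572,-1720,-864,320],[-784,-2544,-1760,128]]

/-- Rows. -/
def tab3_2_5 : List (List ℤ) := [[20,-40,-160,320],[16,32,-160,0],[0,96,-48,-160],[-32,128,128,-192],[-84,104,320,-128],[-160,0,480,0],[-264,-208,560,160],[-400,-544,512,320],[-572,-1032,288,448],[-784,-1696,-160,512],[-1040,-2560,-880,480]]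

/-- Rows. -/
def tab3_2_6 : List (List ℤ) := [[16,48,-480,640],[0,160,-432,160],[-32,256,-256,-128],[-84,312,0,-256],[-160,304,288,-256],[-264,208,560,-160],[-400,0,768,0],[-572,-344,864,192],[-784,-848,800,384],[-1040,-1536,528,544],[-1344,-2432,0,640]]

/-- Rows. -/
def tab3_2_7 : List (List ℤ) := [[0,224,-1008,1120],[-32,384,-896,448],[-84,520,-640,0],[-160,608,-288,-256],[-264,624,112,-352],[-400,544,512,-320],[-572,344,864,-192],[-784,0,1120,0],[-1040,-512,1232,224],[-1344,-1216,1152,448],[-1700,-2136,832,640]]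

/-- Rows. -/
def tab3_2_8 : List (List ℤ) := [[-32,512,-1792,1792],[-84,728,-1600,896],[-160,912,-1248,256],[-264,1040,-784,-160],[-400,1088,-256,-384],[-572,1032,288,-448],[-784,848,800,-384],[-1040,512,1232,-224],[-1344,0,1536,0],[-1700,-712,1664,256],[-2112,-1648,1568,512]]

/-- Rows. -/
def tab3_2_9 : List (List ℤ) := [[-84,936,-2880,2688],[-160,1216,-2592,1536],[-264,1456,-2128,672],[-400,1632,-1536,64],[-572,1720,-864,-320],[-784,1696,-160,-512],[-1040,1536,528,-544],[-1344,1216,1152,-448],[-1700,712,1664,-256],[-2112,0,2016,0],[-2584,-944,2160,288]]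

/-- Rows. -/
def tab3_2_10 : List (List ℤ) := [[-160,1520,-4320,3840],[-264,1872,-3920,2400],[-400,2176,-3328,1280],[-572,2408,-2592,448],[-784,2544,-1760,-128],[-1040,2560,-880,-480],[-1344,2432,0,-640],[-1700,2136,832,-640],[-2112,1648,1568,-512],[-2584,944,2160,-288],[-3120,0,2560,0]]

/-- Rows. -/
def tab3_2 : List (List (List ℤ)) := [tab3_2_0,tab3_2_1,tab3_2_2,tab3_2_3,tab3_2_4,tab3_2_5,tab3_2_6,tab3_2_7,tab3_2_8,tab3_2_9,tab3_2_10]

/-- Rows. -/
def tab3_3_0 : List (List ℤ) := [[8,0,0,0],[-16,-48,0,0],[-16,0,96,0],[0,96,192,-64],[24,192,192,-256],[48,240,0,-640],[64,192,-480,-1280],[64,0,-1344,-2240],[40,-384,-2688,-3584],[-16,-1008,-4608,-5376],[-112,-1920,-7200,-7680]]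

/-- Rows. -/
def tab3_3_1 : List (List ℤ) := [[-16,48,0,0],[-16,0,-96,0],[0,32,-64,64],[24,96,0,128],[48,144,0,128],[64,128,-160,0],[64,0,-576,-320],[40,-288,-1344,-896],[-16,-784,-2560,-1792],[-112,-1536,-4320,-3072],[-256,-2592,-6720,-4800]]

/-- Rows. -/
def tab3_3_2 : List (List ℤ) := [[-16,0,96,0],[0,-32,-64,-64],[24,0,-64,0],[48,48,0,128],[64,64,32,256],[64,0,-64,320],[40,-192,-384,256],[-16,-560,-1024,0],[-112,-1152,-2080,-512],[-256,-2016,-3648,-1344],[-456,-3200,-5824,-2560]]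

/-- Rows. -/
def tab3_3_3 : List (List ℤ) := [[0,-96,192,64],[24,-96,0,-128],[48,-48,0,-128],[64,0,96,0],[64,0,192,192],[40,-96,192,384],[-16,-336,0,512],[-112,-768,-480,512],[-256,-1440,-1344,320],[-456,-2400,-2688,-128],[-720,-3696,-4608,-896]]

/-- Rows. -/
def tab3_3_4 : List (List ℤ) := [[24,-192,192,256],[48,-144,0,-128],[64,-64,32,-256],[64,0,192,-192],[40,0,384,0],[-16,-112,512,256],[-112,-384,480,512],[-256,-864,192,704],[-456,-1600,-448,768],[-720,-2640,-1536,640],[-1056,-4032,-3168,256]]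

/-- Rows. -/
def tab3_3_5 : List (List ℤ) := [[48,-240,0,640],[64,-128,-160,0],[64,0,-64,-320],[40,96,192,-384],[-16,112,512,-256],[-112,0,800,0],[-256,-288,960,320],[-456,-800,896,640],[-720,-1584,512,896],[-1056,-2688,-288,1024],[-1472,-4160,-1600,960]]

/-- Rows. -/
def tab3_3_6 : List (List ℤ) := [[64,-192,-480,1280],[64,0,-576,320],[40,192,-384,-256],[-16,336,0,-512],[-112,384,480,-512],[-256,288,960,-320],[-456,0,1344,0],[-720,-528,1536,384],[-1056,-1344,1440,768],[-1472,-2496,960,1088],[-1976,-4032,0,1280]]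

/-- Rows. -/
def tab3_3_7 : List (List ℤ) := [[64,0,-1344,2240],[40,288,-1344,896],[-16,560,-1024,0],[-112,768,-480,-512],[-256,864,192,-704],[-456,800,896,-640],[-720,528,1536,-384],[-1056,0,2016,0],[-1472,-832,2240,448],[-1976,-2016,2112,896],[-2576,-3600,1536,1280]]

/-- Rows. -/
def tab3_3_8 : List (List ℤ) := [[40,384,-2688,3584],[-16,784,-2560,1792],[-112,1152,-2080,512],[-256,1440,-1344,-320],[-456,1600,-448,-768],[-720,1584,512,-896],[-1056,1344,1440,-768],[-1472,832,2240,-448],[-1976,0,2816,0],[-2576,-1200,3072,512],[-3280,-2816,2912,1024]]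

/-- Rows. -/
def tab3_3_9 : List (List ℤ) := [[-16,1008,-4608,5376],[-112,1536,-4320,3072],[-256,2016,-3648,1344],[-456,2400,-2688,128],[-720,2640,-1536,-640],[-1056,2688,-288,-1024],[-1472,2496,960,-1088],[-1976,2016,2112,-896],[-2576,1200,3072,-512],[-3280,0,3744,0],[-4096,-1632,4032,576]]

/-- Rows. -/
def tab3_3_10 : List (List ℤ) := [[-112,1920,-7200,7680],[-256,2592,-6720,4800],[-456,3200,-5824,2560],[-720,3696,-4608,896],[-1056,4032,-3168,-256],[-1472,4160,-1600,-960],[-1976,4032,0,-1280],[-2576,3600,1536,-1280],[-3280,2816,2912,-1024],[-4096,1632,4032,-576],[-5032,0,4800,0]]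

/-- Rows. -/
def tab3_3 : List (List (List ℤ)) := [tab3_3_0,tab3_3_1,tab3_3_2,tab3_3_3,tab3_3_4,tab3_3_5,tab3_3_6,tab3_3_7,tab3_3_8,tab3_3_9,tab3_3_10]

/-- Rows. -/
def tab3_4_0 : List (List ℤ) := [[64,0,0,0],[-32,-192,0,0],[-64,-128,256,0],[-48,96,576,-128],[0,384,768,-512],[64,640,640,-1280],[128,768,0,-2560],[176,672,-1344,-4480],[192,256,-3584,-7168],[160,-576,-6912,-10752],[64,-1920,-11520,-15360]]

/-- Rows. -/
def tab3_4_1 : List (List ℤ) := [[-32,192,0,0],[-64,0,-256,0],[-48,32,-192,128],[0,192,0,256],[64,384,128,256],[128,512,0,0],[176,480,-576,-640],[192,192,-1792,-1792],[160,-448,-3840,-3584],[64,-1536,-6912,-6144],[-112,-3168,-11200,-9600]]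

/-- Rows. -/
def tab3_4_2 : List (List ℤ) := [[-64,128,256,0],[-48,-32,-192,-128],[0,0,-256,0],[64,128,-128,256],[128,256,0,512],[176,288,-64,640],[192,128,-512,512],[160,-320,-1536,0],[64,-1152,-3328,-1024],[-112,-2464,-6080,-2688],[-384,-4352,-9984,-5120]]

/-- Rows. -/
def tab3_4_3 : List (List ℤ) := [[-48,-96,576,128],[0,-192,0,-256],[64,-128,-128,-256],[128,0,0,0],[176,96,192,384],[192,64,256,768],[160,-192,0,1024],[64,-768,-768,1024],[-112,-1760,-2240,640],[-384,-3264,-4608,-256],[-768,-5376,-8064,-1792]]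

/-- Rows. -/
def tab3_4_4 : List (List ℤ) := [[0,-384,768,512],[64,-384,128,-256],[128,-256,0,-512],[176,-96,192,-384],[192,0,512,0],[160,-64,768,512],[64,-384,768,1024],[-112,-1056,320,1408],[-384,-2176,-768,1536],[-768,-3840,-2688,1280],[-1280,-6144,-5632,512]]

/-- Rows. -/
def tab3_4_5 : List (List ℤ) := [[64,-640,640,1280],[128,-512,0,0],[176,-288,-64,-640],[192,-64,256,-768],[160,64,768,-512],[64,0,1280,0],[-112,-352,1600,640],[-384,-1088,1536,1280],[-768,-2304,896,1792],[-1280,-4096,-512,2048],[-1936,-6560,-2880,1920]]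

/-- Rows. -/
def tab3_4_6 : List (List ℤ) := [[128,-768,0,2560],[176,-480,-576,640],[192,-128,-512,-512],[160,192,0,-1024],[64,384,768,-1024],[-112,352,1600,-640],[-384,0,2304,0],[-768,-768,2688,768],[-1280,-2048,2560,1536],[-1936,-3936,1728,2176],[-2752,-6528,0,2560]]

/-- Rows. -/
def tab3_4_7 : List (List ℤ) := [[176,-672,-1344,4480],[192,-192,-1792,1792],[160,320,-1536,0],[64,768,-768,-1024],[-112,1056,320,-1408],[-384,1088,1536,-1280],[-768,768,2688,-768],[-1280,0,3584,0],[-1936,-1312,4032,896],[-2752,-3264,3840,1792],[-3744,-5952,2816,2560]]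

/-- Rows. -/
def tab3_4_8 : List (List ℤ) := [[192,-256,-3584,7168],[160,448,-3840,3584],[64,1152,-3328,1024],[-112,1760,-2240,-640],[-384,2176,-768,-1536],[-768,2304,896,-1792],[-1280,2048,2560,-1536],[-1936,1312,4032,-896],[-2752,0,5120,0],[-3744,-1984,5632,1024],[-4928,-4736,5376,2048]]

/-- Rows. -/
def tab3_4_9 : List (List ℤ) := [[160,576,-6912,10752],[64,1536,-6912,6144],[-112,2464,-6080,2688],[-384,3264,-4608,256],[-768,3840,-2688,-1280],[-1280,4096,-512,-2048],[-1936,3936,1728,-2176],[-2752,3264,3840,-1792],[-3744,1984,5632,-1024],[-4928,0,6912,0],[-6320,-2784,7488,1152]]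

/-- Rows. -/
def tab3_4_10 : List (List ℤ) := [[64,1920,-11520,15360],[-112,3168,-11200,9600],[-384,4352,-9984,5120],[-768,5376,-8064,1792],[-1280,6144,-5632,-512],[-1936,6560,-2880,-1920],[-2752,6528,0,-2560],[-3744,5952,2816,-2560],[-4928,4736,5376,-2048],[-6320,2784,7488,-1152],[-7936,0,8960,0]]

/-- Rows. -/
def tab3_4 : List (List (List ℤ)) := [tab3_4_0,tab3_4_1,tab3_4_2,tab3_4_3,tab3_4_4,tab3_4_5,tab3_4_6,tab3_4_7,tab3_4_8,tab3_4_9,tab3_4_10]

/-- Rows. -/
def tab3_5_0 : List (List ℤ) := [[320,0,0,0],[0,-640,0,0],[-160,-640,640,0],[-192,-192,1536,-256],[-128,512,2304,-1024],[0,1280,2560,-2560],[160,1920,1920,-5120],[320,2240,0,-8960],[448,2048,-3584,-14336],[512,1152,-9216,-21504],[480,-640,-17280,-30720]]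

/-- Rows. -/
def tab3_5_1 : List (List ℤ) := [[0,640,0,0],[-160,0,-640,0],[-192,-64,-512,256],[-128,256,0,512],[0,768,512,512],[160,1280,640,0],[320,1600,0,-1280],[448,1536,-1792,-3584],[512,896,-5120,-7168],[480,-512,-10368,-12288],[320,-2880,-17920,-19200]]

/-- Rows. -/
def tab3_5_2 : List (List ℤ) := [[-160,640,640,0],[-192,64,-512,-256],[-128,0,-768,0],[0,256,-512,512],[160,640,-128,1024],[320,960,0,1280],[448,1024,-512,1024],[512,640,-2048,0],[480,-384,-4992,-2048],[320,-2240,-9728,-5376],[0,-5120,-16640,-10240]]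

/-- Rows. -/
def tab3_5_3 : List (List ℤ) := [[-192,192,1536,256],[-128,-256,0,-512],[0,-256,-512,-512],[160,0,-384,0],[320,320,0,768],[448,512,256,1536],[512,384,0,2048],[480,-256,-1152,2048],[320,-1600,-3584,1280],[0,-3840,-7680,-512],[-512,-7168,-13824,-3584]]

/-- Rows. -/
def tab3_5_4 : List (List ℤ) := [[-128,-512,2304,1024],[0,-768,512,-512],[160,-640,-128,-1024],[320,-320,0,-768],[448,0,512,0],[512,128,1024,1024],[480,-128,1152,2048],[320,-960,512,2816],[0,-2560,-1280,3072],[-512,-5120,-4608,2560],[-1248,-8832,-9856,1024]]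

/-- Rows. -/
def tab3_5_5 : List (List ℤ) := [[0,-1280,2560,2560],[160,-1280,640,0],[320,-960,0,-1280],[448,-512,256,-1536],[512,-128,1024,-1024],[480,0,1920,0],[320,-320,2560,1280],[0,-1280,2560,2560],[-512,-3072,1536,3584],[-1248,-5888,-896,4096],[-2240,-9920,-5120,3840]]

/-- Rows. -/
def tab3_5_6 : List (List ℤ) := [[160,-1920,1920,5120],[320,-1600,0,1280],[448,-1024,-512,-1024],[512,-384,0,-2048],[480,128,1152,-2048],[320,320,2560,-1280],[0,0,3840,0],[-512,-1024,4608,1536],[-1248,-2944,4480,3072],[-2240,-5952,3072,4352],[-3520,-10240,0,5120]]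

/-- Rows. -/
def tab3_5_7 : List (List ℤ) := [[320,-2240,0,8960],[448,-1536,-1792,3584],[512,-640,-2048,0],[480,256,-1152,-2048],[320,960,512,-2816],[0,1280,2560,-2560],[-512,1024,4608,-1536],[-1248,0,6272,0],[-2240,-1984,7168,1792],[-3520,-5120,6912,3584],[-5120,-9600,5120,5120]]

/-- Rows. -/
def tab3_5_8 : List (List ℤ) := [[448,-2048,-3584,14336],[512,-896,-5120,7168],[480,384,-4992,2048],[320,1600,-3584,-1280],[0,2560,-1280,-3072],[-512,3072,1536,-3584],[-1248,2944,4480,-3072],[-2240,1984,7168,-1792],[-3520,0,9216,0],[-5120,-3200,10240,2048],[-7072,-7808,9856,4096]]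

/-- Rows. -/
def tab3_5_9 : List (List ℤ) := [[512,-1152,-9216,21504],[480,512,-10368,12288],[320,2240,-9728,5376],[0,3840,-7680,512],[-512,5120,-4608,-2560],[-1248,5888,-896,-4096],[-2240,5952,3072,-4352],[-3520,5120,6912,-3584],[-5120,3200,10240,-2048],[-7072,0,12672,0],[-9408,-4672,13824,2304]]

/-- Rows. -/
def tab3_5_10 : List (List ℤ) := [[480,640,-17280,30720],[320,2880,-17920,19200],[0,5120,-16640,10240],[-512,7168,-13824,3584],[-1248,8832,-9856,-1024],[-2240,9920,-5120,-3840],[-3520,10240,0,-5120],[-5120,9600,5120,-5120],[-7072,7808,9856,-4096],[-9408,4672,13824,-2304],[-12160,0,16640,0]]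

/-- Rows. -/
def tab3_5 : List (List (List ℤ)) := [tab3_5_0,tab3_5_1,tab3_5_2,tab3_5_3,tab3_5_4,tab3_5_5,tab3_5_6,tab3_5_7,tab3_5_8,tab3_5_9,tab3_5_10]

/-- Rows. -/
def tab3_6_0 : List (List ℤ) := [[1280,0,0,0],[320,-1920,0,0],[-256,-2304,1536,0],[-512,-1536,3840,-512],[-512,0,6144,-2048],[-320,1920,7680,-5120],[0,3840,7680,-10240],[384,5376,5376,-17920],[768,6144,0,-28672],[1088,5760,-9216,-43008],[1280,3840,-23040,-61440]]

/-- Rows. -/
def tab3_6_1 : List (List ℤ) := [[320,1920,0,0],[-256,0,-1536,0],[-512,-512,-1280,512],[-512,0,0,1024],[-320,1152,1536,1024],[0,2560,2560,0],[384,3840,2304,-2560],[768,4608,0,-7168],[1088,4480,-5120,-14336],[1280,3072,-13824,-24576],[1280,0,-26880,-38400]]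

/-- Rows. -/
def tab3_6_2 : List (List ℤ) := [[-256,2304,1536,0],[-512,512,-1280,-512],[-512,0,-2048,0],[-320,384,-1536,1024],[0,1280,-512,2048],[384,2304,256,2560],[768,3072,0,2048],[1088,3200,-2048,0],[1280,2304,-6656,-4096],[1280,0,-14592,-10752],[1024,-4096,-26624,-20480]]

/-- Rows. -/
def tab3_6_3 : List (List ℤ) := [[-512,1536,3840,512],[-512,0,0,-1024],[-320,-384,-1536,-1024],[0,0,-1536,0],[384,768,-768,1536],[768,1536,0,3072],[1088,1920,0,4096],[1280,1536,-1536,4096],[1280,0,-5376,2560],[1024,-3072,-12288,-1024],[448,-8064,-23040,-7168]]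

/-- Rows. -/
def tab3_6_4 : List (List ℤ) := [[-512,0,6144,2048],[-320,-1152,1536,-1024],[0,-1280,-512,-2048],[384,-768,-768,-1536],[768,0,0,0],[1088,640,1024,2048],[1280,768,1536,4096],[1280,0,768,5632],[1024,-2048,-2048,6144],[448,-5760,-7680,5120],[-512,-11520,-16896,2048]]

/-- Rows. -/
def tab3_6_5 : List (List ℤ) := [[-320,-1920,7680,5120],[0,-2560,2560,0],[384,-2304,256,-2560],[768,-1536,0,-3072],[1088,-640,1024,-2048],[1280,0,2560,0],[1280,0,3840,2560],[1024,-1024,4096,5120],[448,-3456,2560,7168],[-512,-7680,-1536,8192],[-1920,-14080,-8960,7680]]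

/-- Rows. -/
def tab3_6_6 : List (List ℤ) := [[0,-3840,7680,10240],[384,-3840,2304,2560],[768,-3072,0,-2048],[1088,-1920,0,-4096],[1280,-768,1536,-4096],[1280,0,3840,-2560],[1024,0,6144,0],[448,-1152,7680,3072],[-512,-3840,7680,6144],[-1920,-8448,5376,8704],[-3840,-15360,0,10240]]

/-- Rows. -/
def tab3_6_7 : List (List ℤ) := [[384,-5376,5376,17920],[768,-4608,0,7168],[1088,-3200,-2048,0],[1280,-1536,-1536,-4096],[1280,0,768,-5632],[1024,1024,4096,-5120],[448,1152,7680,-3072],[-512,0,10752,0],[-1920,-2816,12544,3584],[-3840,-7680,12288,7168],[-6336,-14976,9216,10240]]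

/-- Rows. -/
def tab3_6_8 : List (List ℤ) := [[768,-6144,0,28672],[1088,-4480,-5120,14336],[1280,-2304,-6656,4096],[1280,0,-5376,-2560],[1024,2048,-2048,-6144],[448,3456,2560,-7168],[-512,3840,7680,-6144],[-1920,2816,12544,-3584],[-3840,0,16384,0],[-6336,-4992,18432,4096],[-9472,-12544,17920,8192]]

/-- Rows. -/
def tab3_6_9 : List (List ℤ) := [[1088,-5760,-9216,43008],[1280,-3072,-13824,24576],[1280,0,-14592,10752],[1024,3072,-12288,1024],[448,5760,-7680,-5120],[-512,7680,-1536,-8192],[-1920,8448,5376,-8704],[-3840,7680,12288,-7168],[-6336,4992,18432,-4096],[-9472,0,23040,0],[-13312,-7680,25344,4608]]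

/-- Rows. -/
def tab3_6_10 : List (List ℤ) := [[1280,-3840,-23040,61440],[1280,0,-26880,38400],[1024,4096,-26624,20480],[448,8064,-23040,7168],[-512,11520,-16896,-2048],[-1920,14080,-8960,-7680],[-3840,15360,0,-10240],[-6336,14976,9216,-10240],[-9472,12544,17920,-8192],[-13312,7680,25344,-4608],[-17920,0,30720,0]]

/-- Rows. -/
def tab3_6 : List (List (List ℤ)) := [tab3_6_0,tab3_6_1,tab3_6_2,tab3_6_3,tab3_6_4,tab3_6_5,tab3_6_6,tab3_6_7,tab3_6_8,tab3_6_9,tab3_6_10]

/-- The table of degree 3. -/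
def table3 : Tab2 := [tab3_0,tab3_1,tab3_2,tab3_3,tab3_4,tab3_5,tab3_6]


end Vale.Agent.P359.Gap.Cert
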